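import Vale.Agent.P011.H738.Prosolv2
import Vale.Agent.P011.H271.KSF

/-!
Over a function field: the elements of a deep term of the derived series of `G(k)` are close to one
at finitely many places of division type; normal subgroups which contain all elements close to one
at places of division type have solvable quotients.
-/

open Module Topology TensorProduct commutatorElement
open Vale.Agent.P011.H271

namespace Vale.Agent.P011.H738

section

variable {k K A : Type} [Field k] [Field K] [StarRing K] [Ring A] [StarRing A] [Algebra k K]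
  [Algebra k A] [Algebra K A] [IsScalarTower k K A] [StarModule K A] {n : ℕ}

theorem Anis.finiteDimensional (h : Anis k K A n) (hn : n ≠ 0) : FiniteDimensional K A :=
  FiniteDimensional.of_finrank_pos (by rw [h.finrank_eq]; positivity)

theorem Anis.nontrivial (h : Anis k K A n) : Nontrivial A := by
  have := h.simple
  infer_instance

/-- The completion is a nontrivially normed field. -/
@[reducible] noncomputable def ntComp (v : Place k) : NontriviallyNormedField v.comp :=
  { (inferInstance : NormedField v.comp) with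
    non_trivial := by
      obtain ⟨x, hx⟩ := v.normalized.2.1
      refine ⟨algebraMap k v.comp x, ?_⟩
      rw [norm_alg, hx]
      exact one_lt_qq' v }

/-- Deep terms of the derived series are close to one at one place of division type. -/
theorem exists_derived_place (hk : IsGlobalFunctionField k) (hn : n ≠ 0) (hA : Anis k K A n)
    {v : Place k} (hv : v ∈ Adiv k K A)
    {Γ : Type*} [Group Γ] (i : Γ →* Aˣ) (hi : ∀ g, (i g : A) * star (i g : A) = 1)
    {M : ℕ} (B : Basis (Fin M) k A) {ε : ℝ} (hε : 0 < ε) :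
    ∃ m : ℕ, ∀ g ∈ derivedSeries Γ m, ∀ j, v.abv (B.repr ((i g : A) - 1) j) < ε := by
  have := gff_of_isGlobal hk
  have := hA.finiteDimensional hn
  have := hA.nontrivial
  obtain ⟨φ, hφ⟩ := hv
  obtain ⟨m, hm⟩ := @exists_derived_coord k K A v.comp _ _ _ _ _ _ _ _ _ _ (ntComp v) _ _ _ _ _
    hA.fixed hA.star_ne φ hφ Γ _ i hi M B ε hε
  refine ⟨m, fun g hg j => ?_⟩
  have h1 := hm g hg j
  rwa [← norm_alg]

/-- Deep terms of the derived series are close to one at finitely many places of division type. -/
theorem exists_derived_near_places (hk : IsGlobalFunctionField k) (hn : n ≠ 0) (hA : Anis k K A n)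
    (T : Finset (Place k)) (hT : ∀ v ∈ T, v ∈ Adiv k K A)
    {Γ : Type*} [Group Γ] (i : Γ →* Aˣ) (hi : ∀ g, (i g : A) * star (i g : A) = 1)
    {M : ℕ} (B : Basis (Fin M) k A) {ε : ℝ} (hε : 0 < ε) :
    ∃ m : ℕ, ∀ g ∈ derivedSeries Γ m, ∀ v ∈ T, ∀ j, v.abv (B.repr ((i g : A) - 1) j) < ε := by
  classical
  have h1 : ∀ v : Place k, ∃ m : ℕ, v ∈ T → ∀ g ∈ derivedSeries Γ m, ∀ j,
      v.abv (B.repr ((i g : A) - 1) j) < ε := by
    intro v
    by_cases hv : v ∈ T
    · obtain ⟨m, hm⟩ := exists_derived_place hk hn hA (hT v hv) i hi B hε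
      exact ⟨m, fun _ => hm⟩
    · exact ⟨0, fun h => absurd h hv⟩
  choose m hm using h1
  refine ⟨T.sup m, fun g hg v hv j => ?_⟩
  exact hm v hv g (derivedSeries_antitone Γ (Finset.le_sup hv) hg) j

variable {Ω : Type} [Field Ω] [Algebra K Ω]

/-- **Continuous finite quotients are solvable.** -/
theorem derivedSeries_le_of_near (hk : IsGlobalFunctionField k) (hn : n ≠ 0) (hA : Anis k K A n)
    (f : A →ₐ[K] Matrix (Fin n) (Fin n) Ω) (N : Subgroup (SUA f))
    (T : Finset (Place k)) (hT : ∀ v ∈ T, v ∈ Adiv k K A) {M : ℕ} (B : Basis (Fin M) k A)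
    {ε : ℝ} (hε : 0 < ε)
    (h : ∀ g : SUA f, (∀ v ∈ T, ∀ j, v.abv (B.repr (((g : Aˣ) : A) - 1) j) < ε) → g ∈ N) :
    ∃ m : ℕ, derivedSeries (SUA f) m ≤ N := by
  obtain ⟨m, hm⟩ := exists_derived_near_places hk hn hA T hT (SUA f).subtype
    (fun g => g.2.1) B hε
  exact ⟨m, fun g hg => h g (hm g hg)⟩

end

end Vale.Agent.P011.H738
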