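import Vale.Agent.P011.H738.LocDens
import Vale.Agent.P011.H738.ProsolvFF
import Vale.Agent.P011.H698.DensFF

/-!
Over a function field: the commutator subgroup of the unitary group is dense in the special unitary
group at finitely many places of division type.
-/

open Module Topology TensorProduct commutatorElement

namespace Vale.Agent.P011.H738

open Vale.Agent.P011.H271
open Vale.Agent.P011.H698 (UA place_weak)

section

variable {k K A Ω : Type} [Field k] [Field K] [StarRing K] [Ring A] [StarRing A] [Algebra k K]
  [Algebra k A] [Algebra K A] [IsScalarTower k K A] [StarModule K A] [Field Ω] [Algebra K Ω] {n : ℕ}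

/-- **Over a function field every unitary element of reduced norm one is close to a product of
commutators of unitary elements** at finitely many places of division type. -/
theorem ff_exists_commutator_near (hk : IsGlobalFunctionField k) (hn : n ≠ 0) (hA : Anis k K A n)
    (f : A →ₐ[K] Matrix (Fin n) (Fin n) Ω) (T : Finset (Place k))
    (hT : ∀ v ∈ T, v ∈ Adiv k K A) {M : ℕ} (B : Basis (Fin M) k A) {x : UA A}
    (hx : (f ((x : Aˣ) : A)).det = 1) {ε : ℝ} (hε : 0 < ε) :
    ∃ c ∈ commutator (UA A), ∀ v ∈ T, ∀ j,
      v.abv (B.repr ((((x * c⁻¹ : UA A) : Aˣ) : A) - 1) j) < ε := by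
  have := gff_of_isGlobal hk
  have := hA.finiteDimensional hn
  have := hA.nontrivial
  have := hA.central
  choose φ hφ using fun v : T => hT v v.2
  obtain ⟨c, hc, h1⟩ := @exists_commutator_coord k K A Ω _ _ _ _ _ _ _ _ _ _ _ _ _ _ _ n T _
    (fun v => (v : Place k).comp) (fun v => ntComp (v : Place k)) (fun v => inferInstance)
    (fun v => inferInstance) (fun v => inferInstance) (Nat.pos_of_ne_zero hn) hA.finrank_eq f φ hφ
    (fun y η hη => place_weak T y hη) hA.fixed hA.star_ne hA.anisotropic M B x hx ε hε
  refine ⟨c, hc, fun v hv j => ?_⟩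
  have h2 := h1 ⟨v, hv⟩ j
  rw [← norm_alg]
  exact h2

end

end Vale.Agent.P011.H738
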