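import Vale.Agent.P011.H738.LocDF1

/-!
Function fields: the Hasse norm theorem for the cubic field `K[y]`, and unitary elements of given
norm which commute with a normal element.
-/

open Module Polynomial

namespace Vale.Agent.P011.H738

open Vale.Agent.P011.H775 Vale.Agent.P011.H271 Vale.Agent.P011.Hey.H63

/-- Three has absolute value one. -/
theorem abv_three {K : Type} [Field K] [GFF K] (h3 : (3 : K) ≠ 0) (V : Place K) :
    V.abv (3 : K) = 1 := by
  obtain ⟨F, iF, iFin, φ, -, -⟩ := (inferInstance : GFF K).out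
  let j : F →+* K := φ.comp (algebraMap F (RatFunc F))
  have h1 : j (3 : F) = 3 := map_ofNat j 3
  have h2 : (3 : F) ≠ 0 := by
    intro h0
    apply h3
    rw [← h1, h0, map_zero]
  obtain ⟨m, hm, hm1⟩ := isOfFinOrder_iff_pow_eq_one.mp (isOfFinOrder_of_finite (Units.mk0 _ h2))
  have h4 : (3 : F) ^ m = 1 := by
    have h5 := congrArg Units.val hm1
    rwa [Units.val_pow_eq_pow_val, Units.val_mk0, Units.val_one] at h5
  have h5 : (3 : K) ^ m = 1 := by rw [← h1, ← map_pow, h4, map_one]
  have h6 : V.abv (3 : K) ^ m = 1 := by rw [← map_pow, h5, map_one]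
  exact (pow_eq_one_iff_of_nonneg (V.abv.nonneg _) hm.ne').mp h6

section norm

variable {K E : Type} [Field K] [GFF K] [Field E] [Algebra K E]

/-- A one-unit is a local norm from a cubic extension. -/
theorem locN_of_unit (h3 : (3 : K) ≠ 0) (hE : finrank K E = 3) {V : Place K} {u : K}
    (hu : V.abv (u - 1) < 1) : LocN E u V := by
  have hfd : FiniteDimensional K E := FiniteDimensional.of_finrank_pos (by rw [hE]; norm_num)
  rw [locN_iff]
  let β : Basis (Fin 3) K E := Module.finBasisOfFinrankEq K E hE
  refine IsN.of_int β (algebraMap K E 3⁻¹) (fun i j => ?_) ?_ (by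
    rw [← map_one (algebraMap K V.comp), ← map_sub, norm_alg]
    exact hu)
  · rw [norm_alg]
    have h1 : Algebra.leftMulMatrix β (algebraMap K E 3⁻¹) =
        algebraMap K (Matrix (Fin 3) (Fin 3) K) 3⁻¹ := AlgHom.commutes _ _
    rw [h1, Matrix.algebraMap_matrix_apply]
    split_ifs
    · change V.abv (3⁻¹ : K) ≤ 1
      rw [map_inv₀, abv_three h3, inv_one]
    · rw [map_zero]
      exact zero_le_one
  · rw [norm_alg, Algebra.trace_algebraMap, hE]
    have h1 : (3 : ℕ) • (3⁻¹ : K) = 1 := by
      rw [nsmul_eq_mul]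
      push_cast
      exact mul_inv_cancel₀ h3
    rw [h1, map_one]

end norm

section dv

variable {K D : Type} [Field K] [GFF K] [DivisionRing D] [Algebra K D] (C : Cub K D)

omit [GFF K] in
/-- A root of the reduced characteristic polynomial makes `y` central. -/
theorem mem_range_of_root {y : D} {r : K} (h : r ^ 3 - r ^ 2 * C.T y + r * C.S y - C.N y = 0) :
    y ∈ Set.range (algebraMap K D) := by
  have h1 := N_pol C y r (-1) 0
  have h2 : RR r (-1) 0 (C.T y) (C.S y) (C.N y) = 0 := by
    refine Eq.trans ?_ h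
    simp only [RR]
    ring
  rw [h2, C.N_eq_zero, zero_smul, add_zero, neg_smul, one_smul, ← sub_eq_add_neg,
    sub_eq_zero] at h1
  exact ⟨r, by rw [Algebra.algebraMap_eq_smul_one]; exact h1⟩

/-- The local condition holds at almost all places. -/
theorem LocDF.finite_of_notMem (h3 : (3 : K) ≠ 0) {y : D} (hy : y ∉ Set.range (algebraMap K D))
    {b : K} (hb : b ≠ 0) : {V : Place K | ¬ LocDF C y V b}.Finite := by
  refine LocDF.finite h3 ?_ hb
  rintro ⟨h1, h2⟩
  apply hy
  refine mem_range_of_root C (r := C.T y / 3) ?_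
  have e1 : C.S y = C.T y ^ 2 / 3 := by rw [h1]; field_simp
  have h27 : (27 : K) ≠ 0 := by
    rw [show (27 : K) = 3 ^ 3 by norm_num]
    exact pow_ne_zero 3 h3
  have e2 : C.N y = C.T y ^ 3 / 27 := by rw [h2]; field_simp
  rw [e1, e2, show (27 : K) = 3 ^ 3 by norm_num]
  field_simp
  ring

/-- **The Hasse norm theorem for `K[y]`.** -/
theorem exists_N (h3 : (3 : K) ≠ 0) {y : D} (hy : y ∉ Set.range (algebraMap K D)) {b : K}
    (h : ∀ V : Place K, LocDF C y V b) :
    ∃ c : Fin 3 → K, C.N (c 0 • (1 : D) + c 1 • y + c 2 • (y * y)) = b := by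
  set P : K[X] := X ^ 3 - Polynomial.C (C.T y) * X ^ 2 + Polynomial.C (C.S y) * X -
    Polynomial.C (C.N y) with hP
  have hPd : P.natDegree = 3 := by rw [hP]; compute_degree!
  have hPm : P.Monic := by rw [hP]; monicity!
  have hroot : ∀ r : K, P.eval r ≠ 0 := by
    intro r hr
    have h1 := N_pol C y r (-1) 0
    have h2 : RR r (-1) 0 (C.T y) (C.S y) (C.N y) = P.eval r := by
      rw [hP]
      simp only [RR, eval_sub, eval_add, eval_mul, eval_pow, eval_X, eval_C]
      ring
    rw [h2, hr, C.N_eq_zero, zero_smul, add_zero, neg_smul, one_smul, ← sub_eq_add_neg,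
      sub_eq_zero] at h1
    exact hy ⟨r, by rw [Algebra.algebraMap_eq_smul_one]; exact h1⟩
  have hirr : Irreducible P := by
    refine irreducible_of_degree_le_three_of_not_isRoot ?_ ?_
    · rw [hPd]; decide
    · intro x hx
      exact hroot x hx
  have _ : Fact (Irreducible P) := ⟨hirr⟩
  have hsep : P.Separable := by
    rw [Polynomial.separable_iff_derivative_ne_zero hirr]
    intro h0
    have h1 : (derivative P).coeff 2 = 3 := by
      have h2 := hPm.coeff_natDegree
      rw [hPd] at h2
      rw [coeff_derivative, h2, one_mul]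
      norm_num
    rw [h0, coeff_zero] at h1
    exact h3 h1.symm
  let E := AdjoinRoot P
  let pb := AdjoinRoot.powerBasis hirr.ne_zero
  have hE : finrank K E = 3 := by rw [pb.finrank, AdjoinRoot.powerBasis_dim, hPd]
  have hfd : FiniteDimensional K E := FiniteDimensional.of_finrank_pos (by rw [hE]; norm_num)
  set θ : E := AdjoinRoot.root P with hθ
  have hθP : aeval θ P = 0 := by rw [hθ, AdjoinRoot.aeval_eq, AdjoinRoot.mk_self]
  have hθ3 : θ ^ 3 - C.T y • θ ^ 2 + C.S y • θ - C.N y • (1 : E) = 0 := by
    change aeval θ (X ^ 3 - Polynomial.C (C.T y) * X ^ 2 + Polynomial.C (C.S y) * X -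
      Polynomial.C (C.N y)) = 0 at hθP
    rw [map_sub, map_add, map_sub, map_mul, map_mul, map_pow, map_pow, aeval_X, aeval_C,
      aeval_C, aeval_C, ← Algebra.smul_def, ← Algebra.smul_def,
      Algebra.algebraMap_eq_smul_one] at hθP
    exact hθP
  have hgen : ∀ c : K, algebraMap K E c ≠ θ := by
    intro c hc
    apply hroot c
    rw [← hc, aeval_algebraMap_apply, map_eq_zero] at hθP
    rwa [coe_aeval_eq_eval] at hθP
  have hsepE : Algebra.IsSeparable K E := by
    have h1 : IsSeparable K θ := by
      have h2 : minpoly K θ = P := by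
        refine (minpoly.eq_of_irreducible_of_monic hirr hθP hPm).symm
      rw [IsSeparable, h2]
      exact hsep
    have h2 : IntermediateField.adjoin K {θ} = ⊤ := by
      apply IntermediateField.eq_of_le_of_finrank_eq le_top
      rw [IntermediateField.finrank_top', hE,
        IntermediateField.adjoin.finrank (IsIntegral.of_finite K θ),
        (minpoly.eq_of_irreducible_of_monic hirr hθP hPm).symm, hPd]
    have h4 := (IntermediateField.isSeparable_adjoin_simple_iff_isSeparable K E).2 h1
    exact ⟨fun x => IntermediateField.isSeparable_of_mem_isSeparable K E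
      (L := IntermediateField.adjoin K {θ}) (by rw [h2]; exact IntermediateField.mem_top)⟩
  obtain ⟨e, he⟩ := Hey.hasse_norm Nat.prime_three hE b fun V => by
    obtain ⟨c, hc⟩ := h V
    rw [N_pol, ← norm_pol hE hθ3 hgen] at hc
    set z := c 0 • (1 : E) + c 1 • θ + c 2 • (θ * θ) with hz
    have hz0 : Algebra.norm K z ≠ 0 := by
      intro h0
      rw [h0, div_zero, zero_sub, V.abv.map_neg, map_one] at hc
      exact lt_irrefl _ hc
    have h1 := (locN_of_unit h3 hE hc).mul (LocN.of_norm z V)
    rwa [div_mul_cancel₀ _ hz0] at h1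
  obtain ⟨q, rfl⟩ := AdjoinRoot.mk_surjective e
  set r := q %ₘ P with hr
  have hqr : AdjoinRoot.mk P q = AdjoinRoot.mk P r := by
    rw [AdjoinRoot.mk_eq_mk]
    exact ⟨q /ₘ P, by rw [hr, modByMonic_eq_sub_mul_div]; ring⟩
  have hrd : r.natDegree < 3 := by
    have h1 := Polynomial.natDegree_modByMonic_lt q hPm (by
      intro h
      rw [h, natDegree_one] at hPd
      norm_num at hPd)
    rwa [hPd] at h1
  have hr3 : r = Polynomial.C (r.coeff 0) + Polynomial.C (r.coeff 1) * X +
      Polynomial.C (r.coeff 2) * X ^ 2 := by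
    conv_lhs => rw [r.as_sum_range' 3 hrd]
    rw [Finset.sum_range_succ, Finset.sum_range_succ, Finset.sum_range_one]
    simp only [← Polynomial.C_mul_X_pow_eq_monomial, pow_zero, mul_one, pow_one]
  have hmk : AdjoinRoot.mk P r = algebraMap K E (r.coeff 0) + algebraMap K E (r.coeff 1) * θ +
      algebraMap K E (r.coeff 2) * θ ^ 2 := by
    conv_lhs => rw [hr3]
    rw [map_add, map_add, map_mul, map_mul, map_pow]
    rfl
  refine ⟨![r.coeff 0, r.coeff 1, r.coeff 2], ?_⟩
  change C.N (r.coeff 0 • (1 : D) + r.coeff 1 • y + r.coeff 2 • (y * y)) = b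
  rw [N_pol, ← norm_pol hE hθ3 hgen, ← he, hqr, hmk, Algebra.smul_def, Algebra.smul_def,
    Algebra.smul_def, mul_one, ← pow_two]

variable [StarRing K] [StarRing D] [FiniteDimensional K D] [Algebra.IsCentral K D]

/-- **Unitary elements of given norm which commute with a normal element.** -/
theorem exists_unitary_N (h3 : (3 : K) ≠ 0) (hD : finrank K D = 3 ^ 2)
    (hss : ∀ c : K, star (algebraMap K D c) = algebraMap K D (star c)) {y : D}
    (hy : y ∉ Set.range (algebraMap K D)) (hyy : Commute (star y) y) {b : K} (hb : b * star b = 1)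
    (h : ∀ V : Place K, LocDF C y V b) :
    ∃ e : D, e * star e = 1 ∧ Commute e y ∧ C.N e = b := by
  obtain ⟨c, hc⟩ := exists_N C h3 hy h
  set Y := c 0 • (1 : D) + c 1 • y + c 2 • (y * y) with hY
  have hsm : ∀ (a : K) (x : D), star (a • x) = star a • star x := fun a x => by
    rw [Algebra.smul_def, star_mul, hss, Algebra.smul_def, Algebra.commutes]
  have hb0 : b ≠ 0 := left_ne_zero_of_mul_eq_one hb
  have hY0 : Y ≠ 0 := by
    intro h0
    rw [h0, C.N_zero] at hc
    exact hb0 hc.symm
  have hsY : star Y = star (c 0) • (1 : D) + star (c 1) • star y +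
      star (c 2) • (star y * star y) := by
    rw [hY, star_add, star_add, hsm, hsm, hsm, star_one, star_mul]
  -- commutation
  have hc1 : ∀ x : D, Commute x y → Commute x Y := fun x hx => by
    rw [hY]
    exact (((Commute.one_right x).smul_right _).add_right (hx.smul_right _)).add_right
      ((hx.mul_right hx).smul_right _)
  have hc2 : ∀ x : D, Commute x (star y) → Commute x (star Y) := fun x hx => by
    rw [hsY]
    exact (((Commute.one_right x).smul_right _).add_right (hx.smul_right _)).add_right
      ((hx.mul_right hx).smul_right _)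
  have h1 : Commute y Y := hc1 y (Commute.refl y)
  have h2 : Commute y (star Y) := hc2 y hyy.symm
  have h4 : Commute (star Y) Y := hc1 _ h2.symm
  have hsY0 : star Y ≠ 0 := star_ne_zero.mpr hY0
  refine ⟨b • (star Y * Y⁻¹), ?_, ?_, ?_⟩
  · rw [hsm, star_mul, star_star, star_inv₀, smul_mul_smul_comm, hb, one_smul]
    rw [mul_assoc, ← mul_assoc Y⁻¹, ← mul_inv_rev, h4.eq, mul_inv_rev, mul_assoc,
      inv_mul_cancel₀ hY0, mul_one, mul_inv_cancel₀ hsY0]
  · exact ((h2.symm.mul_left h1.symm.inv_left₀)).smul_left b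
  · have h5 := (C.star_coeff hD hss Y).2.2
    rw [C.N_smul, C.N_mul, C.N_inv, h5, hc]
    have h6 : star b = b⁻¹ := by
      rw [← mul_right_inj' hb0, hb, mul_inv_cancel₀ hb0]
    rw [h6]
    field_simp

end dv

end Vale.Agent.P011.H738
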