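import Vale.Agent.P011.H738.Prosolv2
import Vale.Agent.P011.Even.Completion
import Vale.Agent.P011.One.SplitLT
import Vale.Agent.P011.Even.GNorm
import Vale.Agent.P011.One.AdicDefs

/-!
Over a number field: the elements of a deep term of the derived series of a group of unitary
elements are close to one at finitely many places of division type.
-/

open Module Topology TensorProduct commutatorElement NumberField IsDedekindDomain

namespace Vale.Agent.P011.H738

open Vale.Agent.P011.Arith Vale.Agent.P011.Even Vale.Agent.P011.One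

section

variable {k K D : Type} [Field k] [NumberField k] [Field K] [StarRing K] [DivisionRing D]
  [StarRing D] [Algebra k K] [Algebra k D] [Algebra K D] [IsScalarTower k K D] [StarModule K D]
  [FiniteDimensional K D]

/-- Deep terms of the derived series are close to one at one place of division type. -/
theorem nf_exists_derived_place (fixed : ∀ x : K, star x = x ↔ x ∈ Set.range (algebraMap k K))
    (star_ne : ∃ x : K, star x ≠ x) {p : Pl k} (hp : p ∈ Tdiv k K D)
    {Γ : Type*} [Group Γ] (i : Γ →* Dˣ) (hi : ∀ g, (i g : D) * star (i g : D) = 1)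
    {M : ℕ} (B : Basis (Fin M) k D) {ε : ℝ} (hε : 0 < ε) :
    ∃ m : ℕ, ∀ g ∈ derivedSeries Γ m, nm B p ((i g : D) - 1) < ε := by
  obtain ⟨v, rfl, φ, hφ⟩ := hp
  obtain ⟨m, hm⟩ := @exists_derived_coord k K D (v.adicCompletion k) _ _ _ _ _ _ _ _ _ _
    (nnf v) (isUltra v) _ _ _ (properSpace_compl v) fixed star_ne φ hφ Γ _ i hi M B
    (ε / (M + 1)) (by positivity)
  refine ⟨m, fun g hg => ?_⟩
  have h1 : ∀ j, plAbv (Sum.inl v) (B.repr ((i g : D) - 1) j) ≤ ε / (M + 1) := by
    intro j
    have h2 := hm g hg j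
    have h3 : ‖algebraMap k (v.adicCompletion k) (B.repr ((i g : D) - 1) j)‖ =
        plAbv (Sum.inl v) (B.repr ((i g : D) - 1) j) := by
      exact NumberField.FinitePlace.norm_embedding v _
    rw [← h3]
    exact h2.le
  unfold Even.nm
  calc ∑ j, plAbv (Sum.inl v) (B.repr ((i g : D) - 1) j) ≤ ∑ _j : Fin M, ε / (M + 1) :=
        Finset.sum_le_sum fun j _ => h1 j
    _ = M * (ε / (M + 1)) := by rw [Finset.sum_const, Finset.card_univ, Fintype.card_fin,
        nsmul_eq_mul]
    _ < ε := by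
        rw [mul_div_assoc', div_lt_iff₀ (by positivity)]
        nlinarith

/-- Deep terms of the derived series are close to one at finitely many places of division type. -/
theorem nf_exists_derived_near (fixed : ∀ x : K, star x = x ↔ x ∈ Set.range (algebraMap k K))
    (star_ne : ∃ x : K, star x ≠ x) {T : Set (Pl k)} (hfin : T.Finite) (hT : T ⊆ Tdiv k K D)
    {Γ : Type*} [Group Γ] (i : Γ →* Dˣ) (hi : ∀ g, (i g : D) * star (i g : D) = 1)
    {M : ℕ} (B : Basis (Fin M) k D) {η : Pl k → ℝ} (hη : ∀ p, 0 < η p) :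
    ∃ m : ℕ, ∀ g ∈ derivedSeries Γ m, ∀ p ∈ T, nm B p ((i g : D) - 1) < η p := by
  classical
  have h1 : ∀ p : Pl k, ∃ m : ℕ, p ∈ T → ∀ g ∈ derivedSeries Γ m,
      nm B p ((i g : D) - 1) < η p := by
    intro p
    by_cases hp : p ∈ T
    · obtain ⟨m, hm⟩ := nf_exists_derived_place fixed star_ne (hT hp) i hi B (hη p)
      exact ⟨m, fun _ => hm⟩
    · exact ⟨0, fun h => absurd h hp⟩
  choose m hm using h1
  refine ⟨hfin.toFinset.sup m, fun g hg p hp => ?_⟩
  exact hm p hp g (derivedSeries_antitone Γ (Finset.le_sup (hfin.mem_toFinset.mpr hp)) hg)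

variable {Ω : Type} [Field Ω] [Algebra K Ω] {n : ℕ}

/-- **Continuous finite quotients are solvable**, number fields. -/
theorem nf_derivedSeries_le (fixed : ∀ x : K, star x = x ↔ x ∈ Set.range (algebraMap k K))
    (star_ne : ∃ x : K, star x ≠ x) (f : D →ₐ[K] Matrix (Fin n) (Fin n) Ω) (N : Subgroup (SUD f))
    {T : Set (Pl k)} (hfin : T.Finite) (hT : T ⊆ Tdiv k K D) {M : ℕ} (B : Basis (Fin M) k D)
    (h : ∃ η : Pl k → ℝ, (∀ p, 0 < η p) ∧ ∀ g : SUD f,
      (∀ p ∈ T, nm B p (((g : Dˣ) : D) - 1) < η p) → g ∈ N) :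
    ∃ m : ℕ, derivedSeries (SUD f) m ≤ N := by
  obtain ⟨η, hη, h⟩ := h
  obtain ⟨m, hm⟩ := nf_exists_derived_near fixed star_ne hfin hT (SUD f).subtype
    (fun g => g.2.1) B hη
  exact ⟨m, fun g hg => h g (hm g hg)⟩

end

end Vale.Agent.P011.H738
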