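import Vale.Agent.P011.H738.LocDens
import Vale.Agent.P011.H738.ProsolvNF
import Vale.Agent.P011.H976.NFLev

/-!
Over a number field: the commutator subgroup of the unitary group is dense in the special unitary
group at finitely many places of division type.
-/

open Module Topology TensorProduct commutatorElement NumberField IsDedekindDomain

namespace Vale.Agent.P011.H738

open Vale.Agent.P011.Arith Vale.Agent.P011.Even Vale.Agent.P011.One
open Vale.Agent.P011.H976 (UD GD mem_GD)

section

variable {k K D Ω : Type} [Field k] [NumberField k] [Field K] [StarRing K] [DivisionRing D]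
  [StarRing D] [Algebra k K] [Algebra k D] [Algebra K D] [IsScalarTower k K D] [StarModule K D]
  [FiniteDimensional K D] [Algebra.IsCentral K D] [Field Ω] [Algebra K Ω] {n : ℕ}

omit [NumberField k] in
/-- Weak approximation at finitely many finite places. -/
theorem nf_weak [NumberField k] {S : Type} [Finite S] (v : S → HeightOneSpectrum (𝓞 k))
    (hv : Function.Injective v) (y : ∀ s, (v s).adicCompletion k) {η : ℝ} (hη : 0 < η) :
    ∃ a : k, ∀ s, ‖algebraMap k ((v s).adicCompletion k) a - y s‖ < η := by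
  classical
  have h1 : ∀ s, ∃ b : k, ‖y s - algebraMap k ((v s).adicCompletion k) b‖ < η / 2 := by
    intro s
    obtain ⟨b, hb⟩ := (HeightOneSpectrum.denseRange_algebraMap k (v s)).exists_dist_lt (y s)
      (half_pos hη)
    exact ⟨b, by rw [← dist_eq_norm]; exact hb⟩
  choose b hb using h1
  let T : Set (Pl k) := Set.range fun s => Sum.inl (v s)
  have hT : T.Finite := Set.finite_range _
  let z : Pl k → k := fun p => if h : ∃ s, Sum.inl (v s) = p then b h.choose else 0
  obtain ⟨a, ha⟩ := Arith.approx T hT z (fun _ => η / 2) (fun _ => half_pos hη)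
  refine ⟨a, fun s => ?_⟩
  have h2 : z (Sum.inl (v s)) = b s := by
    have h3 : ∃ s', (Sum.inl (v s') : Pl k) = Sum.inl (v s) := ⟨s, rfl⟩
    have h4 : h3.choose = s := hv (Sum.inl_injective h3.choose_spec)
    change (if h : ∃ s', (Sum.inl (v s') : Pl k) = Sum.inl (v s) then b h.choose else 0) = b s
    rw [dif_pos h3, h4]
  have h3 := ha (Sum.inl (v s)) ⟨s, rfl⟩
  rw [h2] at h3
  have h4 : ‖algebraMap k ((v s).adicCompletion k) (a - b s)‖ = plAbv (Sum.inl (v s)) (a - b s) :=
    NumberField.FinitePlace.norm_embedding (v s) _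
  have h5 : algebraMap k ((v s).adicCompletion k) a - y s =
      algebraMap k ((v s).adicCompletion k) (a - b s) -
        (y s - algebraMap k ((v s).adicCompletion k) (b s)) := by
    rw [map_sub]
    abel
  rw [h5]
  calc _ ≤ ‖algebraMap k ((v s).adicCompletion k) (a - b s)‖ +
        ‖y s - algebraMap k ((v s).adicCompletion k) (b s)‖ := norm_sub_le _ _
    _ < η / 2 + η / 2 := add_lt_add (by rw [h4]; exact h3) (hb s)
    _ = η := by ring

/-- **Over a number field every unitary element of reduced norm one is close to a product of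
commutators of unitary elements** at finitely many places of division type. -/
theorem nf_exists_commutator_near (fixed : ∀ x : K, star x = x ↔ x ∈ Set.range (algebraMap k K))
    (star_ne : ∃ x : K, star x ≠ x) (hn : 0 < n) (hdeg : finrank K D = n ^ 2)
    (f : D →ₐ[K] Matrix (Fin n) (Fin n) Ω) {T : Set (Pl k)} (hfin : T.Finite)
    (hT : T ⊆ Tdiv k K D) {M : ℕ} (B : Basis (Fin M) k D) {x : UD D}
    (hx : (f ((x : Dˣ) : D)).det = 1) {η : Pl k → ℝ} (hη : ∀ p, 0 < η p) :
    ∃ c ∈ commutator (UD D), ∀ p ∈ T, nm B p ((((x * c⁻¹ : UD D) : Dˣ) : D) - 1) < η p := by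
  classical
  have hTf : Finite T := hfin
  have h0 : ∀ p : T, ∃ v : HeightOneSpectrum (𝓞 k), (p : Pl k) = Sum.inl v ∧
      ∃ φ : K →ₐ[k] v.adicCompletion k, letI := (φ : K →+* v.adicCompletion k).toAlgebra
        ∀ x : v.adicCompletion k ⊗[K] D, x ≠ 0 → IsUnit x := fun p => hT p.2
  choose v hv φ hφ using h0
  have hvinj : Function.Injective v := fun p q h => Subtype.ext (by rw [hv p, hv q, h])
  -- the level
  obtain ⟨ε, hε, hεη⟩ : ∃ ε : ℝ, 0 < ε ∧ ∀ p : T, ε * (M + 1) < η p := by
    have h4 : ∀ᶠ x : ℝ in 𝓝[>] 0, 0 < x ∧ ∀ p : T, x * (M + 1) < η p := by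
      refine Filter.Eventually.and self_mem_nhdsWithin (Filter.eventually_all.mpr fun p => ?_)
      have h5 : Filter.Tendsto (fun x : ℝ => x * (M + 1)) (𝓝 0) (𝓝 (0 * (M + 1))) :=
        Filter.tendsto_id.mul_const _
      rw [zero_mul] at h5
      exact nhdsWithin_le_nhds (h5.eventually (Iio_mem_nhds (hη p)))
    exact h4.exists
  have key := @exists_commutator_coord k K D Ω _ _ _ _ _ _ _ _ _ _ _ _ _ _ _ n T _
    (fun p => (v p).adicCompletion k) (fun p => nnf (v p)) (fun p => properSpace_compl (v p))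
    (fun p => isUltra (v p)) (fun p => inferInstance) hn hdeg f φ hφ
    (fun y η hη => nf_weak v hvinj y hη) fixed star_ne
    (fun x hx => by
      rcases mul_eq_zero.mp hx with h | h
      · exact star_eq_zero.mp h
      · exact h) M B x hx ε hε
  obtain ⟨c, hc, h1⟩ : ∃ c ∈ commutator (UD D), ∀ (p : T) (j : Fin M),
      ‖algebraMap k ((v p).adicCompletion k)
        (B.repr ((((x * c⁻¹ : UD D) : Dˣ) : D) - 1) j)‖ < ε := key
  refine ⟨c, hc, fun p hp => ?_⟩
  refine lt_of_le_of_lt ?_ (hεη ⟨p, hp⟩)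
  unfold Even.nm
  have h2 : ∀ j, plAbv p (B.repr ((((x * c⁻¹ : UD D) : Dˣ) : D) - 1) j) ≤ ε := by
    intro j
    have h3 := h1 ⟨p, hp⟩ j
    have h4 : ‖algebraMap k ((v ⟨p, hp⟩).adicCompletion k)
        (B.repr ((((x * c⁻¹ : UD D) : Dˣ) : D) - 1) j)‖ =
        plAbv (Sum.inl (v ⟨p, hp⟩)) (B.repr ((((x * c⁻¹ : UD D) : Dˣ) : D) - 1) j) :=
      NumberField.FinitePlace.norm_embedding (v ⟨p, hp⟩) _
    have h5 : p = Sum.inl (v ⟨p, hp⟩) := hv ⟨p, hp⟩
    rw [h5, ← h4]
    exact h3.le
  calc ∑ j, plAbv p (B.repr ((((x * c⁻¹ : UD D) : Dˣ) : D) - 1) j) ≤ ∑ _j : Fin M, ε :=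
        Finset.sum_le_sum fun j _ => h2 j
    _ = M * ε := by rw [Finset.sum_const, Finset.card_univ, Fintype.card_fin, nsmul_eq_mul]
    _ ≤ ε * (M + 1) := by nlinarith

end

end Vale.Agent.P011.H738
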