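import Vale.Agent.P011.H738.Prosolv
import Mathlib.RingTheory.TensorProduct.Free
import Mathlib.RingTheory.TensorProduct.Nontrivial
import Mathlib.RingTheory.Flat.Basic
import Mathlib.Algebra.Star.Module

/-!
At a place of division type the unitary group of an algebra with involution is prosolvable, in
terms of the coordinates of the algebra over the ground field.
-/

open Module Topology TensorProduct commutatorElement

namespace Vale.Agent.P011.H738

section norm

variable (F : Type) {D : Type} [NontriviallyNormedField F] [ProperSpace F] [IsUltrametricDist F]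
  [DivisionRing D] [Algebra F D] [FiniteDimensional F D]

theorem ndNormed_ultra : letI := ndNormed F (D := D); IsUltrametricDist D := by
  let _ := ndNormed F (D := D)
  refine ⟨fun x y z => ?_⟩
  change nu F (x - z) ≤ max (nu F (x - y)) (nu F (y - z))
  have h : x - z = (x - y) + (y - z) := by abel
  rw [h]
  exact nu_add_le F _ _

theorem ndNormed_proper : letI := ndNormed F (D := D); ProperSpace D := by
  let _ := ndNormed F (D := D)
  let _ : NormedSpace F D := { (inferInstance : Module F D) with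
    norm_smul_le := fun a x => by
      change nu F (a • x) ≤ ‖a‖ * nu F x
      rw [nu_smul] }
  exact FiniteDimensional.proper F D

end norm

section loc

variable {K A F : Type} [Field K] [Ring A] [Algebra K A] [FiniteDimensional K A] [Nontrivial A]
  [NontriviallyNormedField F] [ProperSpace F] [IsUltrametricDist F]

/-- The embedding of `A` in a locally compact division ring at a place of division type. -/
theorem exists_local (φ : K →+* F)
    (hdiv : letI := φ.toAlgebra; ∀ x : F ⊗[K] A, x ≠ 0 → IsUnit x) :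
    ∃ (D : Type) (_ : NormedDivisionRing D) (_ : IsUltrametricDist D) (_ : ProperSpace D)
      (ι : A →+* D), ∀ (N : ℕ) (b : Basis (Fin N) K A), ∃ C : ℝ, 0 < C ∧
        ∀ x j, ‖φ (b.repr x j)‖ ≤ C * ‖ι x‖ := by
  let _ := φ.toAlgebra
  have hnt : Nontrivial (F ⊗[K] A) :=
    Algebra.TensorProduct.nontrivial_of_algebraMap_injective_of_flat_left K F A
      (FaithfulSMul.algebraMap_injective K A)
  let hD : DivisionRing (F ⊗[K] A) :=
    DivisionRing.ofIsUnitOrEqZero fun x => by
      by_cases h : x = 0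
      · exact Or.inr h
      · exact Or.inl (hdiv x h)
  let hN : NormedDivisionRing (F ⊗[K] A) := ndNormed F (D := F ⊗[K] A)
  refine ⟨F ⊗[K] A, hN, ndNormed_ultra F, ndNormed_proper F,
    (Algebra.TensorProduct.includeRight : A →ₐ[K] F ⊗[K] A).toRingHom, fun N b => ?_⟩
  let b' : Basis (Fin N) F (F ⊗[K] A) := Algebra.TensorProduct.basis F b
  obtain ⟨C, hC, h1⟩ := le_nu F b'
  refine ⟨C, hC, fun x j => ?_⟩
  have h2 : b'.equivFun (1 ⊗ₜ[K] x) j = φ (b.repr x j) := by
    rw [Basis.equivFun_apply, Algebra.TensorProduct.basis_repr_tmul, one_smul]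
    rfl
  rw [← h2]
  exact (norm_le_pi_norm _ j).trans (h1 _)

end loc

section coord

variable {k K A F : Type} [Field k] [Field K] [StarRing K] [Ring A] [StarRing A] [Algebra k K]
  [Algebra k A] [Algebra K A] [IsScalarTower k K A] [StarModule K A]
  [NontriviallyNormedField F] [IsUltrametricDist F] [Algebra k F]

omit [IsUltrametricDist F] in
/-- Functionals of a quadratic extension over `k` are bounded in terms of the two embeddings. -/
theorem exists_functional_le (fixed : ∀ x : K, star x = x ↔ x ∈ Set.range (algebraMap k K))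
    (star_ne : ∃ x : K, star x ≠ x) (φ : K →ₐ[k] F) (μ : K →ₗ[k] k) :
    ∃ C : ℝ, 0 ≤ C ∧ ∀ c : K, ‖algebraMap k F (μ c)‖ ≤ C * (‖φ c‖ + ‖φ (star c)‖) := by
  obtain ⟨w, hw⟩ := star_ne
  have hw0 : w - star w ≠ 0 := sub_ne_zero.mpr fun h => hw h.symm
  refine ⟨‖algebraMap k F (μ 1)‖ * (1 + ‖(φ (w - star w))⁻¹‖ * ‖φ w‖) +
    ‖algebraMap k F (μ w)‖ * ‖(φ (w - star w))⁻¹‖, by positivity, fun c => ?_⟩
  -- the coordinates of `c`
  obtain ⟨t, ht⟩ : ∃ t : k, algebraMap k K t = (c - star c) * (w - star w)⁻¹ := by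
    have h1 : star ((c - star c) * (w - star w)⁻¹) = (c - star c) * (w - star w)⁻¹ := by
      rw [star_mul', star_inv₀, star_sub, star_sub, star_star, star_star, ← neg_sub c,
        ← neg_sub w, inv_neg, neg_mul_neg]
    exact (fixed _).mp h1
  have ht' : algebraMap k K t * (w - star w) = c - star c := by
    rw [ht, inv_mul_cancel_right₀ hw0]
  obtain ⟨a, ha⟩ : ∃ a : k, algebraMap k K a = c - algebraMap k K t * w := by
    have h1 : star (c - algebraMap k K t * w) = c - algebraMap k K t * w := by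
      rw [star_sub, star_mul', (fixed _).mpr ⟨t, rfl⟩]
      have h2 : algebraMap k K t * w - algebraMap k K t * star w = c - star c := by
        rw [← mul_sub, ht']
      linear_combination h2
    exact (fixed _).mp h1
  have hc : c = a • (1 : K) + t • w := by
    rw [Algebra.smul_def, Algebra.smul_def, mul_one, ha, sub_add_cancel]
  have h1 : algebraMap k F (μ c) = algebraMap k F a * algebraMap k F (μ 1) +
      algebraMap k F t * algebraMap k F (μ w) := by
    conv_lhs => rw [hc]
    rw [map_add, map_smul, map_smul, map_add, smul_eq_mul, smul_eq_mul, map_mul, map_mul]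
  have hN : 0 ≤ ‖φ c‖ + ‖φ (star c)‖ := by positivity
  have h2 : ‖algebraMap k F t‖ ≤ ‖(φ (w - star w))⁻¹‖ * (‖φ c‖ + ‖φ (star c)‖) := by
    rw [← φ.commutes t, ht, map_mul, map_inv₀, norm_mul, mul_comm]
    refine mul_le_mul_of_nonneg_left ?_ (norm_nonneg _)
    rw [map_sub]
    exact norm_sub_le _ _
  have h3 : ‖algebraMap k F a‖ ≤ (1 + ‖(φ (w - star w))⁻¹‖ * ‖φ w‖) *
      (‖φ c‖ + ‖φ (star c)‖) := by
    rw [← φ.commutes a, ha, map_sub, map_mul, φ.commutes]
    refine (norm_sub_le _ _).trans ?_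
    rw [norm_mul, add_mul, one_mul, mul_right_comm]
    refine add_le_add (le_add_of_nonneg_right (norm_nonneg _)) ?_
    exact mul_le_mul_of_nonneg_right h2 (norm_nonneg _)
  rw [h1]
  refine (norm_add_le _ _).trans ?_
  rw [norm_mul, norm_mul, add_mul]
  refine add_le_add ?_ ?_
  · rw [mul_comm, mul_assoc]
    exact mul_le_mul_of_nonneg_left h3 (norm_nonneg _)
  · rw [mul_comm, mul_assoc]
    exact mul_le_mul_of_nonneg_left h2 (norm_nonneg _)

variable [FiniteDimensional K A] [Nontrivial A] [ProperSpace F]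

/-- The embedding of `A` in a locally compact division ring at a place of division type controls
the coordinates over `k`. -/
theorem exists_local_coord (fixed : ∀ x : K, star x = x ↔ x ∈ Set.range (algebraMap k K))
    (star_ne : ∃ x : K, star x ≠ x) (φ : K →ₐ[k] F)
    (hdiv : letI := (φ : K →+* F).toAlgebra; ∀ x : F ⊗[K] A, x ≠ 0 → IsUnit x) :
    ∃ (D : Type) (_ : NormedDivisionRing D) (_ : IsUltrametricDist D) (_ : ProperSpace D)
      (ι : A →+* D), ∀ (M : ℕ) (B : Basis (Fin M) k A), ∃ C : ℝ, 0 < C ∧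
        ∀ x j, ‖algebraMap k F (B.repr x j)‖ ≤ C * (‖ι x‖ + ‖ι (star x)‖) := by
  obtain ⟨D, hD1, hD2, hD3, ι, hι⟩ := exists_local (φ : K →+* F) hdiv
  refine ⟨D, hD1, hD2, hD3, ι, fun M B => ?_⟩
  let b := Module.finBasis K A
  obtain ⟨C, hC, h1⟩ := hι _ b
  -- the conjugates of the coordinates
  obtain ⟨C', hC', h2⟩ : ∃ C' : ℝ, 0 ≤ C' ∧ ∀ x i, ‖φ (star (b.repr x i))‖ ≤ C' * ‖ι (star x)‖ := by
    refine ⟨∑ i, ∑ j, C * ‖φ (star (b.repr (star (b j)) i))‖, by positivity, fun x i => ?_⟩
    have h3 : b.repr x i = ∑ j, star (b.repr (star x) j) * b.repr (star (b j)) i := by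
      conv_lhs => rw [← star_star x, ← b.sum_repr (star x), star_sum, map_sum]
      rw [Finsupp.finsetSum_apply]
      refine Finset.sum_congr rfl fun j _ => ?_
      rw [star_smul, map_smul, Finsupp.smul_apply, smul_eq_mul]
    have h4 : φ (star (b.repr x i)) =
        ∑ j, φ (b.repr (star x) j) * φ (star (b.repr (star (b j)) i)) := by
      rw [h3, star_sum, map_sum]
      refine Finset.sum_congr rfl fun j _ => ?_
      rw [star_mul', star_star, map_mul]
    rw [h4]
    calc ‖∑ j, φ (b.repr (star x) j) * φ (star (b.repr (star (b j)) i))‖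
        ≤ ∑ j, ‖φ (b.repr (star x) j) * φ (star (b.repr (star (b j)) i))‖ := norm_sum_le _ _
      _ ≤ ∑ j, (C * ‖φ (star (b.repr (star (b j)) i))‖) * ‖ι (star x)‖ := by
          refine Finset.sum_le_sum fun j _ => ?_
          rw [norm_mul, mul_right_comm]
          exact mul_le_mul_of_nonneg_right (h1 (star x) j) (norm_nonneg _)
      _ = (∑ j, C * ‖φ (star (b.repr (star (b j)) i))‖) * ‖ι (star x)‖ := by
          rw [Finset.sum_mul]
      _ ≤ _ := by
          refine mul_le_mul_of_nonneg_right ?_ (norm_nonneg _)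
          exact Finset.single_le_sum
            (f := fun i => ∑ j, C * ‖φ (star (b.repr (star (b j)) i))‖)
            (fun _ _ => by positivity) (Finset.mem_univ i)
  -- the functionals
  have h5 : ∀ i j, ∃ c : ℝ, 0 ≤ c ∧ ∀ y : K, ‖algebraMap k F (B.repr (y • b i) j)‖ ≤
      c * (‖φ y‖ + ‖φ (star y)‖) := by
    intro i j
    let μ : K →ₗ[k] k :=
      { toFun := fun y => B.repr (y • b i) j
        map_add' := fun y z => by rw [add_smul, map_add, Finsupp.add_apply]
        map_smul' := fun a y => by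
          rw [smul_assoc, map_smul, Finsupp.smul_apply, RingHom.id_apply] }
    exact exists_functional_le fixed star_ne φ μ
  choose c hc0 hc using h5
  have h11 : 0 ≤ ∑ j, ∑ i, c i j * (C + C') :=
    Finset.sum_nonneg fun j _ => Finset.sum_nonneg fun i _ => mul_nonneg (hc0 i j) (by positivity)
  refine ⟨1 + ∑ j, ∑ i, c i j * (C + C'), by positivity, fun x j => ?_⟩
  have h6 : B.repr x j = ∑ i, B.repr (b.repr x i • b i) j := by
    conv_lhs => rw [← b.sum_repr x, map_sum]
    rw [Finsupp.finsetSum_apply]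
  rw [h6, map_sum]
  calc ‖∑ i, algebraMap k F (B.repr (b.repr x i • b i) j)‖
      ≤ ∑ i, ‖algebraMap k F (B.repr (b.repr x i • b i) j)‖ := norm_sum_le _ _
    _ ≤ ∑ i, (c i j * (C + C')) * (‖ι x‖ + ‖ι (star x)‖) := by
        refine Finset.sum_le_sum fun i _ => (hc i j _).trans ?_
        rw [mul_assoc]
        refine mul_le_mul_of_nonneg_left ?_ (hc0 i j)
        have h7 := h1 x i
        have h8 := h2 x i
        have h9 : ‖φ (b.repr x i)‖ ≤ C * ‖ι x‖ := h7
        nlinarith [norm_nonneg (ι x), norm_nonneg (ι (star x))]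
    _ = (∑ i, c i j * (C + C')) * (‖ι x‖ + ‖ι (star x)‖) := by rw [Finset.sum_mul]
    _ ≤ _ := by
        refine mul_le_mul_of_nonneg_right ?_ (by positivity)
        have h10 : ∑ i, c i j * (C + C') ≤ ∑ j, ∑ i, c i j * (C + C') :=
          Finset.single_le_sum (f := fun j => ∑ i, c i j * (C + C'))
            (fun j _ => Finset.sum_nonneg fun i _ => mul_nonneg (hc0 i j) (by positivity))
            (Finset.mem_univ j)
        linarith

/-- **Prosolvability at a place of division type.** -/
theorem exists_derived_coord (fixed : ∀ x : K, star x = x ↔ x ∈ Set.range (algebraMap k K))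
    (star_ne : ∃ x : K, star x ≠ x) (φ : K →ₐ[k] F)
    (hdiv : letI := (φ : K →+* F).toAlgebra; ∀ x : F ⊗[K] A, x ≠ 0 → IsUnit x)
    {Γ : Type*} [Group Γ] (i : Γ →* Aˣ) (hi : ∀ g, (i g : A) * star (i g : A) = 1)
    {M : ℕ} (B : Basis (Fin M) k A) {ε : ℝ} (hε : 0 < ε) :
    ∃ m : ℕ, ∀ g ∈ derivedSeries Γ m, ∀ j,
      ‖algebraMap k F (B.repr ((i g : A) - 1) j)‖ < ε := by
  obtain ⟨D, hD1, hD2, hD3, ι, hι⟩ := exists_local_coord fixed star_ne φ hdiv
  obtain ⟨C, hC, h1⟩ := hι M B
  let u : Γ →* Dˣ := (Units.map (ι : A →* D)).comp i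
  have hu : ∀ g, (u g : D) = ι (i g : A) := fun g => rfl
  obtain ⟨m, hm⟩ := exists_derived_near u (ε := ε / (2 * C)) (by positivity)
  refine ⟨m, fun g hg j => ?_⟩
  have h2 := (hm g hg).2
  have h3 := (hm g⁻¹ (inv_mem hg)).2
  have h4 : star (i g : A) = (i g⁻¹ : Aˣ) := by
    rw [map_inv, ← Units.mul_right_inj (i g), hi, Units.mul_inv]
  have h5 : ι ((i g : A) - 1) = (u g : D) - 1 := by rw [map_sub, map_one, hu]
  have h6 : ι (star ((i g : A) - 1)) = (u g⁻¹ : D) - 1 := by
    rw [star_sub, star_one, h4, map_sub, map_one, hu]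
  refine (h1 _ j).trans_lt ?_
  rw [h5, h6]
  calc C * (‖(u g : D) - 1‖ + ‖(u g⁻¹ : D) - 1‖) < C * (ε / (2 * C) + ε / (2 * C)) := by
        exact mul_lt_mul_of_pos_left (add_lt_add h2 h3) hC
    _ = ε := by field_simp; ring

end coord

end Vale.Agent.P011.H738
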