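import Vale.Agent.P011.H738.Inv3
import Vale.Agent.P011.H738.Prosolv2
import Mathlib.Topology.MetricSpace.HausdorffDistance

/-!
A division algebra over a quadratic extension of local fields with an involution of the second kind
is commutative.
-/

open Module Topology

set_option linter.unusedSectionVars false

namespace Vale.Agent.P011.H738

section sub

variable {F D : Type} [NontriviallyNormedField F] [ProperSpace F] [NormedDivisionRing D]
  [IsUltrametricDist D] [NormedAlgebra F D]

/-- A subalgebra without its norm. -/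
def QT (Q : Subalgebra F D) : Type := Q

instance (Q : Subalgebra F D) : Ring (QT Q) := inferInstanceAs (Ring Q)

instance (Q : Subalgebra F D) : Algebra F (QT Q) := inferInstanceAs (Algebra F Q)

instance (Q : Subalgebra F D) : IsDomain (QT Q) := inferInstanceAs (IsDomain Q)

instance [FiniteDimensional F D] (Q : Subalgebra F D) : FiniteDimensional F (QT Q) :=
  inferInstanceAs (FiniteDimensional F Q)

/-- A finite dimensional subalgebra is a normed division ring. -/
theorem exists_ndr [FiniteDimensional F D] (Q : Subalgebra F D) :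
    ∃ (E : Type) (_ : NormedDivisionRing E) (_ : IsUltrametricDist E) (_ : ProperSpace E)
      (_ : NormedAlgebra F E) (_ : FiniteDimensional F E) (j : E →ₐ[F] D),
      (∀ x, ‖j x‖ = ‖x‖) ∧ ∀ y, (∃ x, j x = y) ↔ y ∈ Q := by
  let j : QT Q →ₐ[F] D := Q.val
  have hj : Function.Injective j := Subtype.val_injective
  let hDR : DivisionRing (QT Q) := divisionRingOfFiniteDimensional F (QT Q)
  let hN : NormedDivisionRing (QT Q) := NormedDivisionRing.induced (QT Q) D j.toRingHom hj
  have hn : ∀ x : QT Q, ‖x‖ = ‖j x‖ := fun x => rfl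
  have hU : IsUltrametricDist (QT Q) := ⟨fun x y z => by
    have h := IsUltrametricDist.dist_triangle_max (j x) (j y) (j z)
    rw [dist_eq_norm, dist_eq_norm, dist_eq_norm] at h
    rw [dist_eq_norm, dist_eq_norm, dist_eq_norm, hn, hn, hn, map_sub, map_sub, map_sub]
    exact h⟩
  let hNA : NormedAlgebra F (QT Q) := { (inferInstance : Algebra F (QT Q)) with
    norm_smul_le := fun c x => by
      rw [hn, hn, map_smul]
      exact norm_smul_le c (j x) }
  have hP : ProperSpace (QT Q) := FiniteDimensional.proper F (QT Q)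
  refine ⟨QT Q, hN, hU, hP, hNA, inferInstance, j, fun x => rfl, fun y => ?_⟩
  constructor
  · rintro ⟨x, rfl⟩
    exact x.2
  · intro hy
    exact ⟨⟨y, hy⟩, rfl⟩

end sub

section

variable {F L Z D : Type} [NontriviallyNormedField F] [ProperSpace F] [IsUltrametricDist F]
  [NontriviallyNormedField L] [ProperSpace L] [StarRing L] [Algebra F L] [FiniteDimensional F L]
  [NormedDivisionRing D] [IsUltrametricDist D] [ProperSpace D] [StarRing D] [NormedAlgebra L D]
  [StarModule L D] [FiniteDimensional L D] [Algebra.IsCentral L D] [NormedAlgebra F D]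
  [IsScalarTower F L D] [Field Z] [Algebra L Z]

/-- The elements of the fixed algebra: a pair which does not commute modulo the maximal ideal. -/
theorem exists_pair (s : D →ₐ[L] Matrix (Fin 2) (Fin 2) Z) (hD : finrank L D = 2 ^ 2)
    (hfix : ∀ x : L, star x = x ↔ x ∈ Set.range (algebraMap F L)) (hne : ∃ x : L, star x ≠ x)
    (hnc : ∃ x y : D, x * y ≠ y * x) :
    ∃ a ∈ Q0 s hD hfix, ∃ g ∈ Q0 s hD hfix, ‖a‖ = 1 ∧ g ≠ 0 ∧ ¬ ‖g * a - a * g‖ < ‖g‖ := by
  have hfin : FiniteDimensional F D := FiniteDimensional.trans F L D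
  obtain ⟨Q, _, _, _, _, _, j, hjn, hjr⟩ := exists_ndr (Q0 s hD hfix)
  obtain ⟨p, N, ω, T⟩ := exists_teich Q
  obtain ⟨f, q, g, S⟩ := T.exists_str
  -- the degree is not one
  have hf : 1 < f := by
    by_contra hcon
    have hf1 : f = 1 := le_antisymm (not_lt.mp hcon) S.f_pos
    have hcen : ∀ x : Q, Commute ω x := by
      intro x
      have h1 := S.sum x
      rw [hf1, Finset.sum_range_one, pow_zero] at h1
      have h2 := T.cmp_mem 1 x
      rw [h1, pow_one] at h2
      exact h2
    have hQc : ∀ x y : Q, Commute x y := fun x y => T.comm F (hcen x) (hcen y)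
    obtain ⟨θ, hθ⟩ := hne
    obtain ⟨x, y, hxy⟩ := hnc
    apply hxy
    obtain ⟨u, hu, v, hv, rfl⟩ := Q0_gen s hD hfix hθ x
    obtain ⟨u', hu', v', hv', rfl⟩ := Q0_gen s hD hfix hθ y
    have hc : ∀ a ∈ Q0 s hD hfix, ∀ b ∈ Q0 s hD hfix, Commute a b := by
      intro a ha b hb
      obtain ⟨a', rfl⟩ := (hjr a).mpr ha
      obtain ⟨b', rfl⟩ := (hjr b).mpr hb
      exact (hQc a' b').map j
    have hl : ∀ (c : L) (a : D), Commute (algebraMap L D c) a := fun c a => Algebra.commutes c a
    refine Commute.add_left (Commute.add_right ?_ ?_) (Commute.add_right ?_ ?_)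
    · exact (((hl _ _).mul_right (hl _ _))).mul_left (((hl _ _).symm).mul_right (hc _ hu _ hu'))
    · exact (((hl _ _).mul_right (hl _ _))).mul_left (((hl _ _).symm).mul_right (hc _ hu _ hv'))
    · exact (((hl _ _).mul_right (hl _ _))).mul_left (((hl _ _).symm).mul_right (hc _ hv _ hu'))
    · exact (((hl _ _).mul_right (hl _ _))).mul_left (((hl _ _).symm).mul_right (hc _ hv _ hv'))
  refine ⟨j ω, (hjr _).mp ⟨_, rfl⟩, j g, (hjr _).mp ⟨_, rfl⟩, by rw [hjn, T.norm_eq],
    fun h => S.g_ne (j.toRingHom.injective (by rw [map_zero]; exact h)), ?_⟩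
  have h1 : j g * j ω - j ω * j g = j (g * (ω - ω ^ q)) := by
    have h2 : g * (ω - ω ^ q) = g * ω - ω * g := by rw [mul_sub, S.rel]
    rw [h2, map_sub, map_mul, map_mul]
  rw [h1, hjn, hjn, norm_mul]
  have h3 : ¬ ‖ω - ω ^ q‖ < 1 := by
    intro h
    have h4 : q ^ 0 ≡ q ^ 1 [MOD (p ^ N - 1)] := by
      refine T.modEq_of_close ?_
      rw [pow_zero, pow_one, pow_one]
      exact h
    exact absurd (S.dist 0 1 S.f_pos hf h4) (by decide)
  intro h
  apply h3
  have hgpos : 0 < ‖g‖ := norm_pos_iff.mpr S.g_ne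
  exact (mul_lt_iff_lt_one_right hgpos).mp h

/-- **No quaternion division algebra has an involution of the second kind.** -/
theorem not_quat (s : D →ₐ[L] Matrix (Fin 2) (Fin 2) Z) (hD : finrank L D = 2 ^ 2)
    (hfix : ∀ x : L, star x = x ↔ x ∈ Set.range (algebraMap F L)) (hne : ∃ x : L, star x ≠ x)
    (hnorm : ∀ x : D, ‖star x‖ = ‖x‖) (hnc : ∃ x y : D, x * y ≠ y * x) : False := by
  obtain ⟨a, haQ, g, hgQ, ha1, hg0, hag⟩ := exists_pair s hD hfix hne hnc
  obtain ⟨p, N, ω, T⟩ := exists_teich D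
  have hgpos : 0 < ‖g‖ := norm_pos_iff.mpr hg0
  have hnL : ∀ c : L, ‖algebraMap L D c‖ = ‖c‖ := fun c => norm_algebraMap' D c
  have hnF : ∀ c : F, ‖algebraMap F D c‖ = ‖c‖ := fun c => norm_algebraMap' D c
  have hFL : ∀ c : F, ‖algebraMap F L c‖ = ‖c‖ := fun c => by
    rw [← hnL, ← IsScalarTower.algebraMap_apply F L D, hnF]
  -- no central element has the norm of `g`
  have hR : ∀ c : L, ‖c‖ ≠ ‖g‖ := by
    intro c hc
    have hc0 : c ≠ 0 := norm_pos_iff.mp (by rw [hc]; exact hgpos)
    have hu : ‖g * (algebraMap L D c)⁻¹‖ = 1 := by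
      rw [norm_mul, norm_inv, hnL, hc, mul_inv_cancel₀ hgpos.ne']
    have h1 := T.comm_unit hu ha1.le
    apply hag
    have hcc : Commute (algebraMap L D c)⁻¹ a :=
      Commute.inv_left₀ (show Commute (algebraMap L D c) a from Algebra.commutes c a)
    have h2 : g * (algebraMap L D c)⁻¹ * a - a * (g * (algebraMap L D c)⁻¹) =
        (g * a - a * g) * (algebraMap L D c)⁻¹ := by
      rw [mul_assoc, hcc.eq, sub_mul, mul_assoc, mul_assoc]
    rw [h2, norm_mul, norm_inv, hnL, hc, ← div_eq_mul_inv, div_lt_one hgpos] at h1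
    exact h1
  -- no central element is close to `a`
  have hU : ∀ z : L, ¬ ‖a - algebraMap L D z‖ < 1 := by
    intro z hz
    apply hag
    have h2 : g * a - a * g = g * (a - algebraMap L D z) - (a - algebraMap L D z) * g := by
      rw [mul_sub, sub_mul, Algebra.commutes]
      abel
    rw [h2, sub_eq_add_neg]
    refine (IsUltrametricDist.norm_add_le_max _ _).trans_lt (max_lt ?_ ?_)
    · rw [norm_mul]
      exact mul_lt_of_lt_one_right hgpos hz
    · rw [norm_neg, norm_mul]
      exact mul_lt_of_lt_one_left hgpos hz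
  -- norms of the elements of the fixed algebra
  have hquad : ∀ x ∈ Q0 s hD hfix, ∃ τ ν : F, x + star x = algebraMap F D τ ∧
      ‖ν‖ = ‖x‖ ^ 2 ∧ x * star x = algebraMap F D ν ∧
      x * x - algebraMap F D τ * x + algebraMap F D ν = 0 := by
    intro x hx
    obtain ⟨τ, ν, h1, h2⟩ := Q0_quad s hD hfix hx
    refine ⟨τ, ν, h1, ?_, h2, ?_⟩
    · rw [← hnF, ← h2, norm_mul, hnorm, sq]
    · rw [Algebra.commutes, ← h1, ← h2, mul_add]
      abel
  obtain ⟨π, hπ0, hπ1, hval⟩ := exists_unif F
  have hπpos : 0 < ‖π‖ := norm_pos_iff.mpr hπ0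
  have hsq : ∀ x y : ℝ, 0 < x → 0 < y → x ^ 2 = y ^ 2 → x = y := fun x y hx hy h =>
    (pow_left_inj₀ hx.le hy.le two_ne_zero).mp h
  obtain ⟨τg, νg, -, hνg, -, -⟩ := hquad g hgQ
  have hνg0 : νg ≠ 0 := norm_pos_iff.mp (by rw [hνg]; positivity)
  obtain ⟨e, he⟩ := hval νg hνg0
  rw [hνg] at he
  by_cases hram : ∃ θ : L, θ ≠ 0 ∧ ∀ c : F, ‖θ‖ ≠ ‖c‖
  · obtain ⟨θ, hθ0, hθ⟩ := hram
    have hθpos : 0 < ‖θ‖ := norm_pos_iff.mpr hθ0
    -- the norm of `θ`
    have hstarL : ∀ z : L, ‖star z‖ = ‖z‖ := by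
      intro z
      rw [← hnL, ← star_alg, hnorm, hnL]
    obtain ⟨ν, hν⟩ := (hfix (θ * star θ)).mp (by rw [star_mul, star_star])
    have hνn : ‖ν‖ = ‖θ‖ ^ 2 := by
      rw [← hFL, hν, norm_mul, hstarL, sq]
    have hν0 : ν ≠ 0 := norm_pos_iff.mp (by rw [hνn]; positivity)
    obtain ⟨d, hd⟩ := hval ν hν0
    rw [hνn] at hd
    rcases Int.even_or_odd' e with ⟨m, hm | hm⟩
    · apply hR (algebraMap F L (π ^ m))
      rw [hFL, norm_zpow]
      refine (hsq _ _ hgpos (zpow_pos hπpos _) ?_).symm
      rw [he, hm, ← zpow_natCast, ← zpow_mul, mul_comm]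
      rfl
    · rcases Int.even_or_odd' d with ⟨l, hl | hl⟩
      · apply hθ (π ^ l)
        rw [norm_zpow]
        refine hsq _ _ hθpos (zpow_pos hπpos _) ?_
        rw [hd, hl, ← zpow_natCast, ← zpow_mul, mul_comm]
        rfl
      · apply hR (θ * algebraMap F L (π ^ (m - l)))
        rw [norm_mul, hFL, norm_zpow]
        refine (hsq _ _ hgpos (mul_pos hθpos (zpow_pos hπpos _)) ?_).symm
        rw [mul_pow, hd, he, hm, hl, ← zpow_natCast (‖π‖ ^ (m - l)), ← zpow_mul,
          ← zpow_add₀ hπpos.ne']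
        congr 1
        push_cast
        ring
  · push Not at hram
    have hval' : ∀ θ : L, ∃ c : F, ‖θ‖ = ‖c‖ := by
      intro θ
      by_cases h0 : θ = 0
      · exact ⟨0, by rw [h0, norm_zero, norm_zero]⟩
      · exact hram θ h0
    -- an element with a residue which is not in the small field
    obtain ⟨z, hz1, hzF⟩ : ∃ z : L, ‖z‖ ≤ 1 ∧ ∀ c : F, ¬ ‖z - algebraMap F L c‖ < 1 := by
      by_contra hcon
      push Not at hcon
      obtain ⟨y, hy⟩ := hne
      have hcl : IsClosed (((⊥ : Subalgebra F D) : Set D)) := by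
        have : FiniteDimensional F (Subalgebra.toSubmodule (⊥ : Subalgebra F D)) :=
          inferInstanceAs (FiniteDimensional F (⊥ : Subalgebra F D))
        exact Submodule.closed_of_finiteDimensional (Subalgebra.toSubmodule (⊥ : Subalgebra F D))
      obtain ⟨c', hc', hmin⟩ := hcl.exists_infDist_eq_dist ⟨0, (⊥ : Subalgebra F D).zero_mem⟩
        (algebraMap L D y)
      obtain ⟨c, rfl⟩ := Algebra.mem_bot.mp hc'
      have hmin' : ∀ c2 : F, ‖y - algebraMap F L c‖ ≤ ‖y - algebraMap F L c2‖ := by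
        intro c2
        have h1 := Metric.infDist_le_dist_of_mem (x := algebraMap L D y)
          (show algebraMap F D c2 ∈ ((⊥ : Subalgebra F D) : Set D) from
            Algebra.mem_bot.mpr ⟨c2, rfl⟩)
        rw [hmin, dist_eq_norm, dist_eq_norm, IsScalarTower.algebraMap_apply F L D,
          IsScalarTower.algebraMap_apply F L D, ← map_sub, ← map_sub, hnL, hnL] at h1
        exact h1
      have hy1 : y - algebraMap F L c ≠ 0 := by
        intro h
        apply hy
        rw [hfix]
        exact ⟨c, (sub_eq_zero.mp h).symm⟩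
      obtain ⟨c1, hc1⟩ := hval' (y - algebraMap F L c)
      have hc10 : c1 ≠ 0 := norm_pos_iff.mp (by rw [← hc1]; exact norm_pos_iff.mpr hy1)
      have hc1L : algebraMap F L c1 ≠ 0 := (map_ne_zero _).mpr hc10
      obtain ⟨c2, hc2⟩ := hcon ((y - algebraMap F L c) / algebraMap F L c1) (by
        rw [norm_div, hFL, hc1, div_self (norm_ne_zero_iff.mpr hc10)])
      have h1 := hmin' (c + c1 * c2)
      have h2 : y - algebraMap F L (c + c1 * c2) = algebraMap F L c1 *
          ((y - algebraMap F L c) / algebraMap F L c1 - algebraMap F L c2) := by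
        rw [mul_sub, mul_div_cancel₀ _ hc1L, map_add, map_mul]
        ring
      rw [h2, norm_mul, hFL, hc1] at h1
      have h3 : 0 < ‖c1‖ := norm_pos_iff.mpr hc10
      exact absurd h1 (not_le.mpr (mul_lt_of_lt_one_right h3 hc2))
    have hzq : ∃ τ ν : F, z + star z = algebraMap F L τ ∧ z * star z = algebraMap F L ν := by
      obtain ⟨τ, hτ⟩ := (hfix (z + star z)).mp (by rw [star_add, star_star, add_comm])
      obtain ⟨ν, hν⟩ := (hfix (z * star z)).mp (by rw [star_mul, star_star])
      exact ⟨τ, ν, hτ.symm, hν.symm⟩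
    obtain ⟨τ, ν, hτ, hν⟩ := hzq
    obtain ⟨τa, νa, hτa, hνa, -, hqa⟩ := hquad a haQ
    have hstarL : ∀ z : L, ‖star z‖ = ‖z‖ := by
      intro z
      rw [← hnL, ← star_alg, hnorm, hnL]
    have hτn : ‖τ‖ ≤ 1 := by
      rw [← hFL, ← hτ, ← hnL, map_add]
      refine (IsUltrametricDist.norm_add_le_max _ _).trans (max_le ?_ ?_)
      · rw [hnL]; exact hz1
      · rw [hnL, hstarL]; exact hz1
    have hνn : ‖ν‖ ≤ 1 := by
      rw [← hFL, ← hν, norm_mul, hstarL]
      exact mul_le_one₀ hz1 (norm_nonneg _) hz1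
    have hτan : ‖τa‖ ≤ 1 := by
      rw [← hnF, ← hτa]
      refine (IsUltrametricDist.norm_add_le_max _ _).trans (max_le ha1.le ?_)
      rw [hnorm]
      exact ha1.le
    obtain ⟨u, v, huv⟩ := near_span (F := F) (z := algebraMap L D z) (a := a) (τz := τ) (νz := ν)
      (τa := τa) (νa := νa) (by rw [hnL]; exact hz1) ha1.le hτn hνn hτan
      (by rw [hνa, ha1, one_pow])
      (by
        rw [IsScalarTower.algebraMap_apply F L D, IsScalarTower.algebraMap_apply F L D, ← hτ, ← hν,
          ← map_mul, ← map_mul, ← map_sub, ← map_add]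
        have h1 : z * z - (z + star z) * z + z * star z = 0 := by ring
        rw [h1, map_zero]) hqa (fun c hc => by
        apply hzF c
        rw [← hnL, map_sub, ← IsScalarTower.algebraMap_apply F L D]
        exact hc)
    apply hU (algebraMap F L u + algebraMap F L v * z)
    rw [map_add, map_mul, ← IsScalarTower.algebraMap_apply F L D,
      ← IsScalarTower.algebraMap_apply F L D]
    exact huv

end

/-- **LOC2.** A finite dimensional central division algebra over a quadratic extension of local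
fields with an involution of the second kind is the field itself. -/
theorem loc2 {F L Δ : Type} [NontriviallyNormedField F] [ProperSpace F] [IsUltrametricDist F]
    [NontriviallyNormedField L] [ProperSpace L] [IsUltrametricDist L] [StarRing L] [Algebra F L]
    [DivisionRing Δ] [Algebra L Δ] [FiniteDimensional L Δ] [Algebra.IsCentral L Δ]
    (hne : ∃ x : L, star x ≠ x)
    (hfix : ∀ x : L, star x = x ↔ x ∈ Set.range (algebraMap F L))
    (hFL : ∀ c : F, ‖algebraMap F L c‖ = ‖c‖) [FiniteDimensional F L] (t : Δ → Δ)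
    (hadd : ∀ x y, t (x + y) = t x + t y) (hmul : ∀ x y, t (x * y) = t y * t x)
    (hinv : ∀ x, t (t x) = x) (hsmul : ∀ (c : L) x, t (c • x) = star c • t x) :
    finrank L Δ = 1 := by
  let hN : NormedDivisionRing Δ := ndNormed L (D := Δ)
  have hU : IsUltrametricDist Δ := ndNormed_ultra L
  have hP : ProperSpace Δ := ndNormed_proper L
  let hAlg : NormedAlgebra L Δ := { (inferInstance : Algebra L Δ) with
    norm_smul_le := fun a x => by
      change nu L (a • x) ≤ ‖a‖ * nu L x
      rw [nu_smul] }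
  let hS : StarRing Δ :=
    { star := t
      star_involutive := hinv
      star_mul := hmul
      star_add := hadd }
  have hSM : StarModule L Δ := ⟨hsmul⟩
  let hAF : Algebra F Δ := Algebra.compHom Δ (algebraMap F L)
  have htow : IsScalarTower F L Δ := IsScalarTower.of_algebraMap_eq fun _ => rfl
  let hNF : NormedAlgebra F Δ := { hAF with
    norm_smul_le := fun a x => by
      have h1 : a • x = algebraMap F L a • x := rfl
      rw [h1, ← hFL a]
      exact norm_smul_le _ _ }
  have hfinF : FiniteDimensional F Δ := FiniteDimensional.trans F L Δ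
  let tl : Δ →ₗ[F] Δ :=
    { toFun := t
      map_add' := hadd
      map_smul' := fun c x => by
        have h1 : ∀ y : Δ, c • y = algebraMap F L c • y := fun y => rfl
        rw [RingHom.id_apply, h1, hsmul, (hfix _).mpr ⟨c, rfl⟩, h1] }
  have hnorm : ∀ x : Δ, ‖t x‖ = ‖x‖ := norm_inv_eq tl hmul hinv
  obtain ⟨p, N, ω, f, q, g, Z, _, _, ι, H⟩ := exists_full L Δ
  have hsq := H.finrank_sq
  have hf2 : f ≤ 2 := H.S.le_two H.T t (fun x y => by
    rw [sub_eq_add_neg, hadd, sub_eq_add_neg]
    congr 1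
    have h1 : t (-y) + t y = 0 := by rw [← hadd, neg_add_cancel]; exact star_zero Δ
    exact eq_neg_of_add_eq_zero_left h1) hmul (star_one Δ) hinv hnorm
  have hf0 := H.S.f_pos
  rcases Nat.lt_or_ge f 2 with h1 | h1
  · have h2 : f = 1 := by omega
    rw [hsq, h2]
    rfl
  · exfalso
    obtain rfl : f = 2 := le_antisymm hf2 h1
    refine not_quat (F := F) H.spl hsq hfix hne hnorm ⟨ω, g, fun h => ?_⟩
    rw [H.S.rel] at h
    have h3 := mul_left_cancel₀ H.S.g_ne h
    have h4 : q ^ 1 ≡ q ^ 0 [MOD (p ^ N - 1)] := by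
      refine H.T.modEq_of_eq ?_
      rw [pow_one, pow_zero, pow_one]
      exact h3
    exact absurd (H.S.dist 1 0 h1 hf0 h4) (by decide)

end Vale.Agent.P011.H738
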