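import Vale.Agent.P011.H73.SplitNS
import Vale.Agent.P011.H738.Inv4

/-!
Function fields: every finite quotient of the special unitary group is solvable, from the core.
-/

open Module

namespace Vale.Agent.P011.H738

open Vale.Agent.P011.H271

/-- The local theorem in the letters of `H73`. -/
theorem loc2' : Vale.Agent.P011.H73.Loc2 := by
  intro F L Δ _ _ _ _ _ _ _ _ _ _ _ _ _ hne hfix hFL hfin t h1 h2 h3 h4
  have : FiniteDimensional F L := FiniteDimensional.of_finrank_pos (by rw [hfin]; exact two_pos)
  exact loc2 (F := F) hne hfix hFL t h1 h2 h3 h4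

variable {k K A Ω : Type} [Field k] [Field K] [StarRing K] [Ring A] [StarRing A]
  [Algebra k K] [Algebra k A] [Algebra K A] [IsScalarTower k K A] [StarModule K A] {n N : ℕ}
  [Field Ω] [Algebra K Ω]

/-- The algebra splits at the places which do not split. -/
theorem splitNS [GFF k] (hA : Anis k K A n) (hn : n ≠ 0) : H698.SplitNS k K A n :=
  Vale.Agent.P011.H73.splitNS loc2' hA hn

/-- **Function fields: every finite quotient of `G(k)` is solvable**, from the core. -/
theorem solvable_of_noTarget (hk : IsGlobalFunctionField k) (hA : Anis k K A n) (hn : 3 ≤ n)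
    (f : A →ₐ[K] Matrix (Fin n) (Fin n) Ω) (B : Basis (Fin N) k A)
    {T₀ : Finset (Place k)} {N₀ : ℕ} (hcore : H698.NoTarget f B T₀ N₀)
    (M : Subgroup (SUA f)) [M.Normal] (hi : M.index ≠ 0) : Group.IsSolvable (SUA f ⧸ M) := by
  have := gff_of_isGlobal hk
  exact H698.solvable_FF hk hA hn f (splitNS hA (by omega)) B hcore M hi

end Vale.Agent.P011.H738
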