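import Vale.Agent.P011.H738.FBr5

/-!
The dichotomy for the normal subgroups of finite index over a function field, in terms of the group
`H_A`, from its form in coordinates.
-/

open Module Topology TensorProduct commutatorElement

namespace Vale.Agent.P011.H738

variable {k K A Ω : Type} [Field k] [Field K] [StarRing K] [Ring A] [StarRing A] [Algebra k K]
  [Algebra k A] [Algebra K A] [IsScalarTower k K A] [StarModule K A] [Field Ω] [Algebra K Ω]
  {n M : ℕ}

/-- The subgroup contains the elements of `G(k)` which are close to one at finitely many places of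
division type. -/
def NearA {f : A →ₐ[K] Matrix (Fin n) (Fin n) Ω} (B : Basis (Fin M) k A)
    (V : Subgroup (SUA f)) : Prop :=
  ∃ T : Finset (Place k), (∀ v ∈ T, v ∈ Adiv k K A) ∧ ∃ ε : ℝ, 0 < ε ∧
    ∀ g : SUA f, (∀ v ∈ T, ∀ i, v.abv (B.repr (((g : Aˣ) : A) - 1) i) < ε) → g ∈ V

/-- `NearA` and open preimages. -/
theorem nearA_iff (hk : IsGlobalFunctionField k) (hn : n ≠ 0) (hA : Anis k K A n)
    {f : A →ₐ[K] Matrix (Fin n) (Fin n) Ω} {δ : SUA f →* HA A n (Adiv k K A)} (hδ : IsDiagonal δ)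
    (B : Basis (Fin M) k A) {V : Subgroup (SUA f)} (hV : V.index ≠ 0) :
    NearA B V ↔ IsOpenPreimage δ V := by
  have hAf := hA.finiteDimensional hn
  have hKf : FiniteDimensional k K := (Vale.Agent.P011.H519.quad hA.fixed hA.star_ne).1
  have hAk : FiniteDimensional k A := Module.Finite.trans K A
  constructor
  · rintro ⟨T, hT, ε, hε, h⟩
    exact isOpenPreimage_of_near hk hn hA f subset_rfl hδ B hV hT hε h
  · intro h
    exact near_of_isOpenPreimage hA f hδ B h

/-- **The dichotomy for the normal subgroups of finite index** over a function field. -/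
theorem q1_plus_of (hk : IsGlobalFunctionField k) (hn : n ≠ 0) (hA : Anis k K A n)
    (f : A →ₐ[K] Matrix (Fin n) (Fin n) Ω) (B : Basis (Fin M) k A)
    (h : ∀ (N : Subgroup (SUA f)) [N.Normal], N.index ≠ 0 → NearA B N ∨
      ∃ Q H : Subgroup (SUA f), Q.Normal ∧ H.Normal ∧ NearA B H ∧ N ≤ Q ∧ Q ≤ H ∧
        (Q.relIndex H).Prime ∧ (∀ g : SUA f, ∀ x ∈ H, ⁅g, x⁆ ∈ Q) ∧
        ∀ V : Subgroup (SUA f), NearA B V → Q ≤ V → H ≤ V) :
    ∃ δ : SUA f →* HA A n (Adiv k K A), IsDiagonal δ ∧ DenseRange δ ∧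
      ∀ (N : Subgroup (SUA f)) [N.Normal], N.index ≠ 0 → IsOpenPreimage δ N ∨
        ∃ Q H : Subgroup (SUA f), N ≤ Q ∧ DenseCentral δ Q H := by
  have hAf := hA.finiteDimensional hn
  have hKf : FiniteDimensional k K := (Vale.Agent.P011.H519.quad hA.fixed hA.star_ne).1
  have hAk : FiniteDimensional k A := Module.Finite.trans K A
  obtain ⟨δ, hδ⟩ := exists_diag hA hn f (Adiv k K A)
  refine ⟨δ, hδ, denseRange_diag hk hn hA f subset_rfl hδ, fun N _ hi => ?_⟩
  rcases h N hi with hN | ⟨Q, H, hQ, hH, hHo, hNQ, hQH, hp, hc, hd⟩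
  · exact Or.inl ((nearA_iff hk hn hA hδ B hi).mp hN)
  · have hHi : H.index ≠ 0 := fun h0 => hi (by
      have h1 := Subgroup.index_dvd_of_le (hNQ.trans hQH)
      rw [h0, zero_dvd_iff] at h1
      exact h1)
    refine Or.inr ⟨Q, H, hNQ, hQ, hH, (nearA_iff hk hn hA hδ B hHi).mp hHo, hQH, hp, hc,
      fun V hQV hV => ?_⟩
    exact hd V (near_of_isOpenPreimage hA f hδ B hV) hQV

end Vale.Agent.P011.H738
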