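import Vale.Agent.P011.H738.LocNear
import Vale.Agent.P011.H738.Prosolv2

/-!
The embedding of `A` in a locally compact division algebra at a place of division type: coordinates,
closure of the commutators, density.
-/

open Module Topology TensorProduct commutatorElement

namespace Vale.Agent.P011.H738

section coord

variable {k K A F : Type} [Field k] [Field K] [StarRing K] [Ring A] [StarRing A] [Algebra k K]
  [Algebra k A] [Algebra K A] [IsScalarTower k K A] [StarModule K A]
  [NontriviallyNormedField F] [IsUltrametricDist F] [Algebra k F]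
  [FiniteDimensional K A] [Nontrivial A] [ProperSpace F]

omit [IsUltrametricDist F] [Nontrivial A] [ProperSpace F] in
/-- Coordinates over `k` from coordinates over `K`. -/
theorem coord_of_local (fixed : ∀ x : K, star x = x ↔ x ∈ Set.range (algebraMap k K))
    (star_ne : ∃ x : K, star x ≠ x) (φ : K →ₐ[k] F) {D : Type} [NormedDivisionRing D] (ι : A →+* D)
    (hι : ∀ (N : ℕ) (b : Basis (Fin N) K A), ∃ C : ℝ, 0 < C ∧
      ∀ x j, ‖(φ : K →+* F) (b.repr x j)‖ ≤ C * ‖ι x‖) (M : ℕ) (B : Basis (Fin M) k A) :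
    ∃ C : ℝ, 0 < C ∧ ∀ x j, ‖algebraMap k F (B.repr x j)‖ ≤ C * (‖ι x‖ + ‖ι (star x)‖) := by
  let b := Module.finBasis K A
  obtain ⟨C, hC, h1⟩ := hι _ b
  -- the conjugates of the coordinates
  obtain ⟨C', hC', h2⟩ : ∃ C' : ℝ, 0 ≤ C' ∧ ∀ x i, ‖φ (star (b.repr x i))‖ ≤ C' * ‖ι (star x)‖ := by
    refine ⟨∑ i, ∑ j, C * ‖φ (star (b.repr (star (b j)) i))‖, by positivity, fun x i => ?_⟩
    have h3 : b.repr x i = ∑ j, star (b.repr (star x) j) * b.repr (star (b j)) i := by
      conv_lhs => rw [← star_star x, ← b.sum_repr (star x), star_sum, map_sum]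
      rw [Finsupp.finsetSum_apply]
      refine Finset.sum_congr rfl fun j _ => ?_
      rw [star_smul, map_smul, Finsupp.smul_apply, smul_eq_mul]
    have h4 : φ (star (b.repr x i)) =
        ∑ j, φ (b.repr (star x) j) * φ (star (b.repr (star (b j)) i)) := by
      rw [h3, star_sum, map_sum]
      refine Finset.sum_congr rfl fun j _ => ?_
      rw [star_mul', star_star, map_mul]
    rw [h4]
    calc ‖∑ j, φ (b.repr (star x) j) * φ (star (b.repr (star (b j)) i))‖
        ≤ ∑ j, ‖φ (b.repr (star x) j) * φ (star (b.repr (star (b j)) i))‖ := norm_sum_le _ _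
      _ ≤ ∑ j, (C * ‖φ (star (b.repr (star (b j)) i))‖) * ‖ι (star x)‖ := by
          refine Finset.sum_le_sum fun j _ => ?_
          rw [norm_mul, mul_right_comm]
          exact mul_le_mul_of_nonneg_right (h1 (star x) j) (norm_nonneg _)
      _ = (∑ j, C * ‖φ (star (b.repr (star (b j)) i))‖) * ‖ι (star x)‖ := by
          rw [Finset.sum_mul]
      _ ≤ _ := by
          refine mul_le_mul_of_nonneg_right ?_ (norm_nonneg _)
          exact Finset.single_le_sum
            (f := fun i => ∑ j, C * ‖φ (star (b.repr (star (b j)) i))‖)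
            (fun _ _ => by positivity) (Finset.mem_univ i)
  -- the functionals
  have h5 : ∀ i j, ∃ c : ℝ, 0 ≤ c ∧ ∀ y : K, ‖algebraMap k F (B.repr (y • b i) j)‖ ≤
      c * (‖φ y‖ + ‖φ (star y)‖) := by
    intro i j
    let μ : K →ₗ[k] k :=
      { toFun := fun y => B.repr (y • b i) j
        map_add' := fun y z => by rw [add_smul, map_add, Finsupp.add_apply]
        map_smul' := fun a y => by
          rw [smul_assoc, map_smul, Finsupp.smul_apply, RingHom.id_apply] }
    exact exists_functional_le fixed star_ne φ μ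
  choose c hc0 hc using h5
  have h11 : 0 ≤ ∑ j, ∑ i, c i j * (C + C') :=
    Finset.sum_nonneg fun j _ => Finset.sum_nonneg fun i _ => mul_nonneg (hc0 i j) (by positivity)
  refine ⟨1 + ∑ j, ∑ i, c i j * (C + C'), by positivity, fun x j => ?_⟩
  have h6 : B.repr x j = ∑ i, B.repr (b.repr x i • b i) j := by
    conv_lhs => rw [← b.sum_repr x, map_sum]
    rw [Finsupp.finsetSum_apply]
  rw [h6, map_sum]
  calc ‖∑ i, algebraMap k F (B.repr (b.repr x i • b i) j)‖
      ≤ ∑ i, ‖algebraMap k F (B.repr (b.repr x i • b i) j)‖ := norm_sum_le _ _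
    _ ≤ ∑ i, (c i j * (C + C')) * (‖ι x‖ + ‖ι (star x)‖) := by
        refine Finset.sum_le_sum fun i _ => (hc i j _).trans ?_
        rw [mul_assoc]
        refine mul_le_mul_of_nonneg_left ?_ (hc0 i j)
        have h7 := h1 x i
        have h8 := h2 x i
        have h9 : ‖φ (b.repr x i)‖ ≤ C * ‖ι x‖ := h7
        nlinarith [norm_nonneg (ι x), norm_nonneg (ι (star x))]
    _ = (∑ i, c i j * (C + C')) * (‖ι x‖ + ‖ι (star x)‖) := by rw [Finset.sum_mul]
    _ ≤ _ := by
        refine mul_le_mul_of_nonneg_right ?_ (by positivity)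
        have h10 : ∑ i, c i j * (C + C') ≤ ∑ j, ∑ i, c i j * (C + C') :=
          Finset.single_le_sum (f := fun j => ∑ i, c i j * (C + C'))
            (fun j _ => Finset.sum_nonneg fun i _ => mul_nonneg (hc0 i j) (by positivity))
            (Finset.mem_univ j)
        linarith

end coord

section loc

variable {K A F Ω : Type} [Field K] [Ring A] [Algebra K A] [FiniteDimensional K A] [Nontrivial A]
  [Algebra.IsCentral K A] [IsSimpleRing A]
  [NontriviallyNormedField F] [ProperSpace F] [IsUltrametricDist F]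
  [Field Ω] [Algebra K Ω] {n : ℕ}

omit [IsSimpleRing A] in
/-- The embedding of `A` in a locally compact division ring at a place of division type controls
the coordinates; elements of reduced norm one are limits of products of commutators; density. -/
theorem exists_local2 (hn : 0 < n) (hA : finrank K A = n ^ 2)
    (f : A →ₐ[K] Matrix (Fin n) (Fin n) Ω) (φ : K →+* F)
    (hdiv : letI := φ.toAlgebra; ∀ x : F ⊗[K] A, x ≠ 0 → IsUnit x) :
    ∃ (D : Type) (_ : NormedDivisionRing D) (_ : IsUltrametricDist D) (_ : ProperSpace D)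
      (ι : A →+* D),
      (∀ (N : ℕ) (b : Basis (Fin N) K A), ∃ C : ℝ, 0 < C ∧
        ∀ x j, ‖φ (b.repr x j)‖ ≤ C * ‖ι x‖) ∧
      (∀ x : A, (f x).det = 1 → ∀ ε : ℝ, 0 < ε → ∃ c ∈ commutator Dˣ, ‖(c : D) - ι x‖ < ε) ∧
      (∀ (z : K) (y : D), Commute (ι (algebraMap K A z)) y) ∧
      (∀ (N : ℕ) (b : Basis (Fin N) K A) (y : D) (ε : ℝ), 0 < ε → ∃ (c : Fin N → F) (δ : ℝ),
        0 < δ ∧ ∀ a : Fin N → K, (∀ i, ‖φ (a i) - c i‖ < δ) →
          ‖ι (∑ i, a i • b i) - y‖ < ε) ∧
      (∀ ε : ℝ, 0 < ε → ∃ y : D, y ≠ 0 ∧ ‖y‖ < ε) := by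
  let _ := φ.toAlgebra
  have hnt : Nontrivial (F ⊗[K] A) :=
    Algebra.TensorProduct.nontrivial_of_algebraMap_injective_of_flat_left K F A
      (FaithfulSMul.algebraMap_injective K A)
  have hcen : Algebra.IsCentral F (F ⊗[K] A) := Vale.Agent.P011.H268.isCentral_baseChange
  let hD : DivisionRing (F ⊗[K] A) :=
    DivisionRing.ofIsUnitOrEqZero fun x => by
      by_cases h : x = 0
      · exact Or.inr h
      · exact Or.inl (hdiv x h)
  let hN : NormedDivisionRing (F ⊗[K] A) := ndNormed F (D := F ⊗[K] A)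
  have hU : IsUltrametricDist (F ⊗[K] A) := ndNormed_ultra F
  have hP : ProperSpace (F ⊗[K] A) := ndNormed_proper F
  let hAlg : NormedAlgebra F (F ⊗[K] A) := { (inferInstance : Algebra F (F ⊗[K] A)) with
    norm_smul_le := fun a x => by
      change nu F (a • x) ≤ ‖a‖ * nu F x
      rw [nu_smul] }
  have hnorm : ∀ x : F ⊗[K] A, ‖x‖ = nu F x := fun x => rfl
  refine ⟨F ⊗[K] A, hN, hU, hP,
    (Algebra.TensorProduct.includeRight : A →ₐ[K] F ⊗[K] A).toRingHom, ?_, ?_, ?_, ?_, ?_⟩
  · intro N b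
    let b' : Basis (Fin N) F (F ⊗[K] A) := Algebra.TensorProduct.basis F b
    obtain ⟨C, hC, h1⟩ := le_nu F b'
    refine ⟨C, hC, fun x j => ?_⟩
    have h2 : b'.equivFun (1 ⊗ₜ[K] x) j = φ (b.repr x j) := by
      rw [Basis.equivFun_apply, Algebra.TensorProduct.basis_repr_tmul, one_smul]
      rfl
    rw [← h2]
    exact (norm_le_pi_norm _ j).trans (h1 _)
  · intro x hx ε hε
    obtain ⟨M, _, i, j, hij⟩ := Vale.Agent.P011.H268.exists_common K F Ω
    let _ := i.toAlgebra
    let _ := (j.comp (algebraMap K Ω)).toAlgebra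
    have : IsScalarTower K F M := IsScalarTower.of_algebraMap_eq fun z => by
      exact (RingHom.congr_fun hij z).symm
    let j' : Ω →ₐ[K] M := { j with commutes' := fun z => rfl }
    let f0 : F ⊗[K] A →ₐ[F] Matrix (Fin n) (Fin n) M :=
      AlgHom.liftEquiv K F A (Matrix (Fin n) (Fin n) M) (j'.mapMatrix.comp f)
    have hfin : finrank F (F ⊗[K] A) = n ^ 2 := by rw [Module.finrank_baseChange, hA]
    refine exists_commutator_near hn hfin f0 ?_ hε
    have h1 : f0 (1 ⊗ₜ x) = (f x).map j := by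
      change AlgHom.liftEquiv K F A (Matrix (Fin n) (Fin n) M) (j'.mapMatrix.comp f) (1 ⊗ₜ x) = _
      rw [AlgHom.liftEquiv_tmul, one_smul]
      rfl
    change (f0 (1 ⊗ₜ x)).det = 1
    rw [h1]
    have h2 := RingHom.map_det j (f x)
    rw [hx, map_one] at h2
    exact h2.symm
  · intro z y
    change (1 ⊗ₜ[K] algebraMap K A z) * y = y * (1 ⊗ₜ[K] algebraMap K A z)
    rw [← Algebra.TensorProduct.algebraMap_apply'] 
    exact Algebra.commutes _ _
  · intro N b y ε hε
    let b' : Basis (Fin N) F (F ⊗[K] A) := Algebra.TensorProduct.basis F b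
    obtain ⟨C, hC, h1⟩ := nu_le F b'
    refine ⟨b'.equivFun y, ε / C, by positivity, fun a ha => ?_⟩
    have h2 : ∀ x j, b'.equivFun (1 ⊗ₜ[K] x) j = φ (b.repr x j) := by
      intro x j
      rw [Basis.equivFun_apply, Algebra.TensorProduct.basis_repr_tmul, one_smul]
      rfl
    change nu F ((1 : F) ⊗ₜ[K] (∑ i, a i • b i) - y) < ε
    have h3 : ‖b'.equivFun ((1 : F) ⊗ₜ[K] (∑ i, a i • b i) - y)‖ < ε / C := by
      rw [pi_norm_lt_iff (by positivity)]
      intro i
      rw [map_sub, Pi.sub_apply, h2, b.repr_sum_self]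
      exact ha i
    refine (h1 _).trans_lt ?_
    rwa [lt_div_iff₀ hC, mul_comm] at h3
  · intro ε hε
    obtain ⟨c, hc0, hc⟩ := NormedField.exists_norm_lt F hε
    refine ⟨algebraMap F (F ⊗[K] A) c, ?_, ?_⟩
    · exact (map_ne_zero_iff _ (algebraMap F (F ⊗[K] A)).injective).mpr (norm_pos_iff.mp hc0)
    · change nu F (algebraMap F (F ⊗[K] A) c) < ε
      rw [nu_algebraMap]
      exact hc

end loc

section full

variable {k K A F Ω : Type} [Field k] [Field K] [StarRing K] [Ring A] [StarRing A] [Algebra k K]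
  [Algebra k A] [Algebra K A] [IsScalarTower k K A] [StarModule K A] [FiniteDimensional K A]
  [Nontrivial A] [Algebra.IsCentral K A]
  [NontriviallyNormedField F] [ProperSpace F] [IsUltrametricDist F] [Algebra k F]
  [Field Ω] [Algebra K Ω] {n : ℕ}

/-- The embedding of `A` in a locally compact division ring at a place of division type controls
the coordinates over `k`; elements of reduced norm one are limits of products of commutators;
density. -/
theorem exists_local_full (fixed : ∀ x : K, star x = x ↔ x ∈ Set.range (algebraMap k K))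
    (star_ne : ∃ x : K, star x ≠ x) (hn : 0 < n) (hA : finrank K A = n ^ 2)
    (f : A →ₐ[K] Matrix (Fin n) (Fin n) Ω) (φ : K →ₐ[k] F)
    (hdiv : letI := (φ : K →+* F).toAlgebra; ∀ x : F ⊗[K] A, x ≠ 0 → IsUnit x) :
    ∃ (D : Type) (_ : NormedDivisionRing D) (_ : IsUltrametricDist D) (_ : ProperSpace D)
      (ι : A →+* D),
      (∀ (M : ℕ) (B : Basis (Fin M) k A), ∃ C : ℝ, 0 < C ∧
        ∀ x j, ‖algebraMap k F (B.repr x j)‖ ≤ C * (‖ι x‖ + ‖ι (star x)‖)) ∧
      (∀ x : A, (f x).det = 1 → ∀ ε : ℝ, 0 < ε → ∃ c ∈ commutator Dˣ, ‖(c : D) - ι x‖ < ε) ∧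
      (∀ (z : K) (y : D), Commute (ι (algebraMap K A z)) y) ∧
      (∀ (N : ℕ) (b : Basis (Fin N) K A) (y : D) (ε : ℝ), 0 < ε → ∃ (c : Fin N → F) (δ : ℝ),
        0 < δ ∧ ∀ a : Fin N → k, (∀ i, ‖algebraMap k F (a i) - c i‖ < δ) →
          ‖ι (∑ i, a i • b i) - y‖ < ε) ∧
      (∀ ε : ℝ, 0 < ε → ∃ y : D, y ≠ 0 ∧ ‖y‖ < ε) := by
  obtain ⟨D, hD1, hD2, hD3, ι, h1, h2, h3, h4, h5⟩ := exists_local2 hn hA f (φ : K →+* F) hdiv
  refine ⟨D, hD1, hD2, hD3, ι, fun M B => coord_of_local fixed star_ne φ ι h1 M B, h2, h3,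
    fun N b y ε hε => ?_, h5⟩
  obtain ⟨c, δ, hδ, h6⟩ := h4 N b y ε hε
  refine ⟨c, δ, hδ, fun a ha => ?_⟩
  have h7 : ∑ i, a i • b i = ∑ i, algebraMap k K (a i) • b i :=
    Finset.sum_congr rfl fun i _ => by rw [algebraMap_smul]
  rw [h7]
  refine h6 _ fun i => ?_
  have h8 : (φ : K →+* F) (algebraMap k K (a i)) = algebraMap k F (a i) := φ.commutes _
  rw [h8]
  exact ha i

end full

end Vale.Agent.P011.H738
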