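import Vale.Agent.P011.H738.CubPol
import Vale.Agent.P011.Hey.H63.HasseFF

/-!
Function fields: local criteria for norms from the cubic field `K[y]`.
-/

open Module Polynomial

namespace Vale.Agent.P011.H738

open Vale.Agent.P011.H775 Vale.Agent.P011.H271 Vale.Agent.P011.Hey.H63

section defs

variable {K D : Type} [Field K] [Ring D] [Algebra K D]

/-- `b` is a norm from `K[y]` up to a factor close to one at the place `V`. -/
def LocDF (C : Cub K D) (y : D) (V : Place K) (b : K) : Prop :=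
  ∃ c : Fin 3 → K, V.abv (b / C.N (c 0 • (1 : D) + c 1 • y + c 2 • (y * y)) - 1) < 1

theorem abv_add_le (V : Place K) (x y : K) : V.abv (x + y) ≤ max (V.abv x) (V.abv y) :=
  V.nonarch x y

theorem abv_sub_le (V : Place K) (x y : K) : V.abv (x - y) ≤ max (V.abv x) (V.abv y) := by
  rw [sub_eq_add_neg, ← V.abv.map_neg y]
  exact V.nonarch x (-y)

/-- An element close to `b` has the absolute value of `b`. -/
theorem abv_eq_of_close {V : Place K} {r b : K} (h : V.abv (r - b) < V.abv b) :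
    V.abv r = V.abv b := by
  apply le_antisymm
  · have h1 := V.nonarch (r - b) b
    rw [sub_add_cancel] at h1
    exact h1.trans (max_le h.le le_rfl)
  · by_contra h1
    rw [not_le] at h1
    have h2 := abv_sub_le V r (r - b)
    rw [sub_sub_cancel] at h2
    exact absurd (h2.trans_lt (max_lt h1 h)) (lt_irrefl _)

variable {C : Cub K D} {y : D} {V : Place K} {b : K}

/-- It is enough that a norm is close to `b`. -/
theorem LocDF.of_RR {c₀ c₁ c₂ : K} (h : V.abv (RR c₀ c₁ c₂ (C.T y) (C.S y) (C.N y) - b) < V.abv b) :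
    LocDF C y V b := by
  refine ⟨![c₀, c₁, c₂], ?_⟩
  change V.abv (b / C.N (c₀ • (1 : D) + c₁ • y + c₂ • (y * y)) - 1) < 1
  rw [N_pol]
  set r := RR c₀ c₁ c₂ (C.T y) (C.S y) (C.N y) with hr
  have h1 := abv_eq_of_close h
  have hb : 0 < V.abv b := lt_of_le_of_lt (V.abv.nonneg _) h
  have hr0 : r ≠ 0 := by
    intro h0
    rw [h0, map_zero] at h1
    exact hb.ne h1
  have h2 : b / r - 1 = -((r - b) / r) := by
    field_simp
    ring
  rw [h2, V.abv.map_neg, map_div₀, h1, div_lt_one hb]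
  exact h

/-- The condition in terms of the polynomial. -/
theorem LocDF.exists_RR (h : LocDF C y V b) : ∃ c₀ c₁ c₂ : K,
    V.abv (b / RR c₀ c₁ c₂ (C.T y) (C.S y) (C.N y) - 1) < 1 := by
  obtain ⟨c, hc⟩ := h
  rw [N_pol] at hc
  exact ⟨_, _, _, hc⟩

end defs

section res

variable {K : Type} [Field K]

/-- The maximal ideal is maximal. -/
theorem mv_isMaximal (V : Place K) : (mv V).IsMaximal := by
  rw [Ideal.isMaximal_iff]
  refine ⟨fun h => ?_, fun J x _ hx hxJ => ?_⟩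
  · have h1 : V.abv (((1 : Ov V) : Ov V) : K) < 1 := h
    rw [Subring.coe_one, map_one] at h1
    exact lt_irrefl _ h1
  · have h1 : V.abv (x : K) = 1 := le_antisymm x.2 (not_lt.mp hx)
    have hx0 : (x : K) ≠ 0 := by
      intro h0
      rw [h0, map_zero] at h1
      exact zero_ne_one h1
    have h2 : (x : K)⁻¹ ∈ Ov V := by
      change V.abv (x : K)⁻¹ ≤ 1
      rw [map_inv₀, h1, inv_one]
    have h3 : (1 : Ov V) = ⟨(x : K)⁻¹, h2⟩ * x := by
      apply Subtype.ext
      rw [Subring.coe_mul, Subring.coe_one, inv_mul_cancel₀ hx0]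
    rw [h3]
    exact J.mul_mem_left _ hxJ

/-- **At a place at which the reduced polynomial is not a cube**, units are norms up to factors
close to one. -/
theorem exists_RR_near (V : Place K) {t s n b : K} (ht : V.abv t ≤ 1) (hs : V.abv s ≤ 1)
    (hn : V.abv n ≤ 1) (hb : V.abv b = 1)
    (hnc : ¬ ∃ c : K, V.abv c ≤ 1 ∧ V.abv (t - 3 * c) < 1 ∧ V.abv (s - 3 * c ^ 2) < 1 ∧
      V.abv (n - c ^ 3) < 1) :
    ∃ c₀ c₁ c₂ : K, V.abv (RR c₀ c₁ c₂ t s n - b) < 1 := by
  have hmax := mv_isMaximal V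
  let _ : Field (Ov V ⧸ mv V) := Ideal.Quotient.field (mv V)
  have hfin : Finite (Ov V ⧸ mv V) := V.normalized.1
  let t' : Ov V := ⟨t, ht⟩
  let s' : Ov V := ⟨s, hs⟩
  let n' : Ov V := ⟨n, hn⟩
  let b' : Ov V := ⟨b, hb.le⟩
  let π : Ov V →+* Ov V ⧸ mv V := Ideal.Quotient.mk (mv V)
  have hπ : Function.Surjective π := Ideal.Quotient.mk_surjective
  have hπe : ∀ x y : Ov V, π x = π y ↔ V.abv ((x : K) - y) < 1 := fun x y =>
    Ideal.Quotient.mk_eq_mk_iff_sub_mem x y
  have e3 : ((3 : Ov V) : K) = 3 := map_ofNat (Ov V).subtype 3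
  obtain ⟨c₀, c₁, c₂, hc⟩ := exists_RR (κ := Ov V ⧸ mv V) (t := π t') (s := π s') (n := π n')
    (b := π b') (by
      rintro ⟨c, h1, h2, h3⟩
      obtain ⟨c', rfl⟩ := hπ c
      apply hnc
      refine ⟨c', c'.2, ?_, ?_, ?_⟩
      · have h4 : π t' = π (3 * c') := by rw [h1, map_mul, map_ofNat]
        have h5 := (hπe _ _).mp h4
        rw [Subring.coe_mul, e3] at h5
        exact h5
      · have h4 : π s' = π (3 * c' ^ 2) := by rw [h2, map_mul, map_ofNat, map_pow]
        have h5 := (hπe _ _).mp h4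
        rw [Subring.coe_mul, e3, Subring.coe_pow] at h5
        exact h5
      · have h4 : π n' = π (c' ^ 3) := by rw [h3, map_pow]
        have h5 := (hπe _ _).mp h4
        rw [Subring.coe_pow] at h5
        exact h5)
  obtain ⟨c₀, rfl⟩ := hπ c₀
  obtain ⟨c₁, rfl⟩ := hπ c₁
  obtain ⟨c₂, rfl⟩ := hπ c₂
  rw [← map_RR, hπe] at hc
  refine ⟨c₀, c₁, c₂, ?_⟩
  have h6 : ((RR c₀ c₁ c₂ t' s' n' : Ov V) : K) = RR (c₀ : K) c₁ c₂ t s n :=
    map_RR (Ov V).subtype c₀ c₁ c₂ t' s' n'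
  rwa [h6] at hc

end res

section crit

variable {K D : Type} [Field K] [Ring D] [Algebra K D] {C : Cub K D} {y : D} {V : Place K} {b : K}

/-- **Criterion (a)**: the reduced polynomial is not a cube, `b` is a unit. -/
theorem LocDF.of_not_cube (hT : V.abv (C.T y) ≤ 1) (hS : V.abv (C.S y) ≤ 1)
    (hN : V.abv (C.N y) ≤ 1) (hb : V.abv b = 1)
    (hnc : ¬ ∃ c : K, V.abv c ≤ 1 ∧ V.abv (C.T y - 3 * c) < 1 ∧ V.abv (C.S y - 3 * c ^ 2) < 1 ∧
      V.abv (C.N y - c ^ 3) < 1) : LocDF C y V b := by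
  obtain ⟨c₀, c₁, c₂, h⟩ := exists_RR_near V hT hS hN hb hnc
  exact LocDF.of_RR (c₀ := c₀) (c₁ := c₁) (c₂ := c₂) (by rw [hb]; exact h)

/-- **A simple root** in the completion. -/
theorem LocDF.of_root (hb : b ≠ 0) {α : V.comp}
    (hα : α ^ 3 - algebraMap K V.comp (C.T y) * α ^ 2 + algebraMap K V.comp (C.S y) * α -
      algebraMap K V.comp (C.N y) = 0)
    (hd : 3 * α ^ 2 - 2 * algebraMap K V.comp (C.T y) * α + algebraMap K V.comp (C.S y) ≠ 0) :
    LocDF C y V b := by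
  set ι := algebraMap K V.comp with hι
  set t := ι (C.T y) with ht
  set s := ι (C.S y) with hs
  set n := ι (C.N y) with hn
  set σ := t - α with hσ
  set p := s - α * σ with hp
  have hd' : α ^ 2 - σ * α + p ≠ 0 := by
    intro h0
    apply hd
    rw [← h0, hp, hσ]
    ring
  set u := (ι b - 1) / (α ^ 2 - σ * α + p) with hu
  have h1 : RR (1 + u * p) (-u * σ) u t s n = ι b := by
    have ht' : t = α + σ := by rw [hσ]; ring
    have hs' : s = α * σ + p := by rw [hp]; ring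
    have hn' : n = α * p := by
      rw [hp, hσ]
      linear_combination -hα
    rw [ht', hs', hn', RR_root, hu, div_mul_cancel₀ _ hd']
    ring
  -- approximation
  let F : (V.comp × V.comp × V.comp) → V.comp := fun c => RR c.1 c.2.1 c.2.2 t s n
  have hF : Continuous F := by
    simp only [F, RR]
    fun_prop
  have hb0 : 0 < ‖ι b‖ := by
    rw [norm_alg]
    exact V.abv.pos hb
  have h2 : ∀ᶠ c in nhds ((1 + u * p, -u * σ, u) : V.comp × V.comp × V.comp),
      ‖F c - ι b‖ < ‖ι b‖ := by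
    have h3 : Continuous fun c => ‖F c - ι b‖ := (hF.sub continuous_const).norm
    have h4 := h3.tendsto (1 + u * p, -u * σ, u)
    have h5 : F (1 + u * p, -u * σ, u) = ι b := h1
    rw [h5, sub_self, norm_zero] at h4
    exact h4.eventually (Iio_mem_nhds hb0)
  rw [Metric.eventually_nhds_iff] at h2
  obtain ⟨ε, hε, h3⟩ := h2
  obtain ⟨c₀, h4⟩ := dense_alg V (1 + u * p) hε
  obtain ⟨c₁, h5⟩ := dense_alg V (-u * σ) hε
  obtain ⟨c₂, h6⟩ := dense_alg V u hε
  refine LocDF.of_RR (c₀ := c₀) (c₁ := c₁) (c₂ := c₂) ?_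
  have h7 := h3 (y := (ι c₀, ι c₁, ι c₂)) (by
    rw [Prod.dist_eq, Prod.dist_eq, max_lt_iff, max_lt_iff, dist_comm, dist_eq_norm, dist_comm,
      dist_eq_norm, dist_comm (ι c₂), dist_eq_norm]
    exact ⟨h4, h5, h6⟩)
  have h8 : F (ι c₀, ι c₁, ι c₂) = ι (RR c₀ c₁ c₂ (C.T y) (C.S y) (C.N y)) :=
    (map_RR ι _ _ _ _ _ _).symm
  rw [h8, ← map_sub, norm_alg, norm_alg] at h7
  exact h7

/-- Hensel's lemma for a cubic polynomial at one. -/
theorem exists_root_one (V : Place K) {a₀ a₁ a₂ a₃ : V.comp} (h0 : ‖a₀‖ ≤ 1) (h1 : ‖a₁‖ ≤ 1)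
    (h2 : ‖a₂‖ ≤ 1) (h3 : ‖a₃‖ ≤ 1) (hs : ‖a₀ + a₁ + a₂ + a₃‖ < 1)
    (hd : ‖a₁ + 2 * a₂ + 3 * a₃‖ = 1) :
    ∃ z : V.comp, ‖z - 1‖ < 1 ∧ a₀ + a₁ * z + a₂ * z ^ 2 + a₃ * z ^ 3 = 0 := by
  let b₀ : OK V.comp := ⟨a₀, h0⟩
  let b₁ : OK V.comp := ⟨a₁, h1⟩
  let b₂ : OK V.comp := ⟨a₂, h2⟩
  let b₃ : OK V.comp := ⟨a₃, h3⟩
  obtain ⟨z, hz, hz0⟩ := hensel (K := V.comp)
    (Polynomial.C (b₀ + b₁ + b₂ + b₃) + Polynomial.C (b₁ + 2 * b₂ + 3 * b₃) * X +
      Polynomial.C (b₂ + 3 * b₃) * X ^ 2 + Polynomial.C b₃ * X ^ 3)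
    (by
      simp only [coeff_add, coeff_C_mul, coeff_X_pow, coeff_X, coeff_C]
      norm_num
      exact hs)
    (by
      simp only [coeff_add, coeff_C_mul, coeff_X_pow, coeff_X, coeff_C]
      norm_num
      exact hd)
  refine ⟨1 + z, by rw [add_sub_cancel_left]; exact hz, ?_⟩
  have h4 := congrArg (fun x : OK V.comp => (x : V.comp)) hz0
  simp only [eval_add, eval_mul, eval_C, eval_X, eval_pow] at h4
  have h5 : (a₀ + a₁ + a₂ + a₃) + (a₁ + 2 * a₂ + 3 * a₃) * (z : V.comp) +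
      (a₂ + 3 * a₃) * (z : V.comp) ^ 2 + a₃ * (z : V.comp) ^ 3 = 0 := h4
  linear_combination h5

theorem norm_add_lt {F : Type} [NormedField F] [IsUltrametricDist F] {x z : F} {r : ℝ}
    (hx : ‖x‖ < r) (hz : ‖z‖ < r) : ‖x + z‖ < r :=
  (IsUltrametricDist.norm_add_le_max x z).trans_lt (max_lt hx hz)

theorem norm_one_add' {F : Type} [NormedField F] [IsUltrametricDist F] {x : F} (hx : ‖x‖ < 1) :
    ‖1 + x‖ = 1 := by
  have h1 : ‖x‖ ≠ ‖(1 : F)‖ := by rw [norm_one]; exact hx.ne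
  rw [IsUltrametricDist.norm_add_eq_max_of_norm_ne_norm h1.symm, norm_one, max_eq_left hx.le]

theorem norm_two_mul_le {F : Type} [NormedField F] [IsUltrametricDist F] (x : F) :
    ‖2 * x‖ ≤ ‖x‖ := by
  rw [two_mul]
  exact (IsUltrametricDist.norm_add_le_max x x).trans (max_self _).le

theorem norm_three_mul_le {F : Type} [NormedField F] [IsUltrametricDist F] (x : F) :
    ‖3 * x‖ ≤ ‖x‖ := by
  have h : (3 : F) * x = 2 * x + x := by ring
  rw [h]
  exact (IsUltrametricDist.norm_add_le_max _ x).trans (max_le (norm_two_mul_le x) le_rfl)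

/-- **Criterion (b1)**: the trace is large. -/
theorem LocDF.of_big_T (hb : b ≠ 0) (hS : V.abv (C.S y) < V.abv (C.T y) ^ 2)
    (hN : V.abv (C.N y) < V.abv (C.T y) ^ 3) : LocDF C y V b := by
  have hT0 : C.T y ≠ 0 := by
    intro h0
    rw [h0, map_zero] at hN
    norm_num at hN
    exact absurd hN (not_lt.mpr (V.abv.nonneg _))
  set ι := algebraMap K V.comp with hι
  set t := ι (C.T y) with ht
  set s := ι (C.S y) with hs
  set n := ι (C.N y) with hn
  have ht0 : t ≠ 0 := (map_ne_zero ι).mpr hT0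
  have htp : 0 < ‖t‖ := norm_pos_iff.mpr ht0
  have hs1 : ‖s / t ^ 2‖ < 1 := by
    rw [norm_div, norm_pow, div_lt_one (by positivity), hs, ht, norm_alg, norm_alg]
    exact hS
  have hn1 : ‖-(n / t ^ 3)‖ < 1 := by
    rw [norm_neg, norm_div, norm_pow, div_lt_one (by positivity), hn, ht, norm_alg, norm_alg]
    exact hN
  obtain ⟨z, hz, hz0⟩ := exists_root_one V (a₀ := -(n / t ^ 3)) (a₁ := s / t ^ 2) (a₂ := -1)
    (a₃ := 1) hn1.le hs1.le (by rw [norm_neg, norm_one]) (by rw [norm_one]) (by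
      have h : -(n / t ^ 3) + s / t ^ 2 + -1 + 1 = -(n / t ^ 3) + s / t ^ 2 := by ring
      rw [h]
      exact norm_add_lt hn1 hs1) (by
      have h : s / t ^ 2 + 2 * -1 + 3 * 1 = 1 + s / t ^ 2 := by ring
      rw [h]
      exact norm_one_add' hs1)
  refine LocDF.of_root hb (α := t * z) ?_ ?_
  · have h : (t * z) ^ 3 - t * (t * z) ^ 2 + s * (t * z) - n =
        t ^ 3 * (-(n / t ^ 3) + s / t ^ 2 * z + -1 * z ^ 2 + 1 * z ^ 3) := by
      field_simp
      ring
    rw [h, hz0, mul_zero]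
  · have h : 3 * (t * z) ^ 2 - 2 * t * (t * z) + s =
        t ^ 2 * (1 + (3 * (z - 1) ^ 2 + (2 * (2 * (z - 1)) + s / t ^ 2))) := by
      field_simp
      ring
    rw [h]
    refine mul_ne_zero (pow_ne_zero 2 ht0) ?_
    rw [← norm_ne_zero_iff, norm_one_add']
    · exact one_ne_zero
    · have hz2 : ‖(z - 1) ^ 2‖ < 1 := by
        rw [norm_pow]
        exact pow_lt_one₀ (norm_nonneg _) hz two_ne_zero
      exact norm_add_lt ((norm_three_mul_le _).trans_lt hz2)
        (norm_add_lt (((norm_two_mul_le _).trans (norm_two_mul_le _)).trans_lt hz) hs1)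

/-- **Criterion (b2)**: the second coefficient is large. -/
theorem LocDF.of_big_S (hb : b ≠ 0) (h1 : V.abv (C.N y) * V.abv (C.T y) < V.abv (C.S y) ^ 2)
    (h2 : V.abv (C.N y) ^ 2 < V.abv (C.S y) ^ 3) : LocDF C y V b := by
  have hS0 : C.S y ≠ 0 := by
    intro h0
    rw [h0, map_zero] at h2
    norm_num at h2
    exact absurd h2 (not_lt.mpr (by positivity))
  set ι := algebraMap K V.comp with hι
  set t := ι (C.T y) with ht
  set s := ι (C.S y) with hs
  set n := ι (C.N y) with hn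
  have hs0 : s ≠ 0 := (map_ne_zero ι).mpr hS0
  have hsp : 0 < ‖s‖ := norm_pos_iff.mpr hs0
  have hn1 : ‖-(n * t / s ^ 2)‖ < 1 := by
    rw [norm_neg, norm_div, norm_mul, norm_pow, div_lt_one (by positivity), hn, ht, hs, norm_alg,
      norm_alg, norm_alg]
    exact h1
  have hn2 : ‖n ^ 2 / s ^ 3‖ < 1 := by
    rw [norm_div, norm_pow, norm_pow, div_lt_one (by positivity), hn, hs, norm_alg, norm_alg]
    exact h2
  obtain ⟨z, hz, hz0⟩ := exists_root_one V (a₀ := -1) (a₁ := 1) (a₂ := -(n * t / s ^ 2))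
    (a₃ := n ^ 2 / s ^ 3) (by rw [norm_neg, norm_one]) (by rw [norm_one]) hn1.le hn2.le (by
      have h : -1 + 1 + -(n * t / s ^ 2) + n ^ 2 / s ^ 3 = -(n * t / s ^ 2) + n ^ 2 / s ^ 3 := by
        ring
      rw [h]
      exact norm_add_lt hn1 hn2) (by
      rw [add_assoc]
      exact norm_one_add' (norm_add_lt ((norm_two_mul_le _).trans_lt hn1)
        ((norm_three_mul_le _).trans_lt hn2)))
  refine LocDF.of_root hb (α := n / s * z) ?_ ?_
  · have h : (n / s * z) ^ 3 - t * (n / s * z) ^ 2 + s * (n / s * z) - n =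
        n * (-1 + 1 * z + -(n * t / s ^ 2) * z ^ 2 + n ^ 2 / s ^ 3 * z ^ 3) := by
      field_simp
      ring
    rw [h, hz0, mul_zero]
  · have h : 3 * (n / s * z) ^ 2 - 2 * t * (n / s * z) + s =
        s * (1 + (3 * (n ^ 2 / s ^ 3 * z ^ 2) + 2 * (-(n * t / s ^ 2) * z))) := by
      field_simp
      ring
    rw [h]
    refine mul_ne_zero hs0 ?_
    have hz1 : ‖z‖ = 1 := by
      have h3 : z = 1 + (z - 1) := by ring
      rw [h3]
      exact norm_one_add' hz
    rw [← norm_ne_zero_iff, norm_one_add']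
    · exact one_ne_zero
    · refine norm_add_lt ((norm_three_mul_le _).trans_lt ?_) ((norm_two_mul_le _).trans_lt ?_)
      · rw [norm_mul, norm_pow, hz1, one_pow, mul_one]
        exact hn2
      · rw [norm_mul, hz1, mul_one]
        exact hn1

/-- **Criterion (b)**: norm one and trace or second coefficient not integral. -/
theorem LocDF.of_big (hb : b ≠ 0) (hN : C.N y = 1)
    (h : 1 < V.abv (C.T y) ∨ 1 < V.abv (C.S y)) : LocDF C y V b := by
  by_cases h1 : 1 < V.abv (C.T y) ∧ V.abv (C.S y) < V.abv (C.T y) ^ 2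
  · refine LocDF.of_big_T hb h1.2 ?_
    rw [hN, map_one]
    exact one_lt_pow₀ h1.1 (by norm_num)
  · have h2 : 1 < V.abv (C.S y) ∧ V.abv (C.T y) < V.abv (C.S y) ^ 2 := by
      by_cases h3 : 1 < V.abv (C.T y)
      · have h4 : V.abv (C.T y) ^ 2 ≤ V.abv (C.S y) := by
          by_contra h5
          exact h1 ⟨h3, not_le.mp h5⟩
        have h5 : V.abv (C.T y) < V.abv (C.T y) ^ 2 := by nlinarith
        have h6 : 1 < V.abv (C.S y) := by nlinarith
        exact ⟨h6, by nlinarith⟩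
      · have h4 : 1 < V.abv (C.S y) := h.resolve_left h3
        exact ⟨h4, by nlinarith⟩
    refine LocDF.of_big_S hb ?_ ?_
    · rw [hN, map_one, one_mul]
      exact h2.2
    · rw [hN, map_one, one_pow]
      exact one_lt_pow₀ h2.1 (by norm_num)

/-- **Criterion (c)**: trace zero. -/
theorem LocDF.of_trace_zero (hb : b ≠ 0) (hT : C.T y = 0)
    (h : V.abv (C.N y) ^ 2 < V.abv (C.S y) ^ 3) : LocDF C y V b := by
  refine LocDF.of_big_S hb ?_ h
  rw [hT, map_zero, mul_zero]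
  have h1 : V.abv (C.S y) ≠ 0 := by
    intro h0
    rw [h0] at h
    norm_num at h
    exact absurd h (not_lt.mpr (by positivity))
  positivity

/-- **Openness.** -/
theorem LocDF.open (h : LocDF C y V b) : ∃ ε : ℝ, 0 < ε ∧ ∀ y' : D,
    V.abv (C.T y' - C.T y) < ε → V.abv (C.S y' - C.S y) < ε → V.abv (C.N y' - C.N y) < ε →
      LocDF C y' V b := by
  obtain ⟨c₀, c₁, c₂, hc⟩ := h.exists_RR
  by_cases hb : b = 0
  · refine ⟨1, one_pos, fun y' _ _ _ => ?_⟩
    exfalso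
    rw [hb, zero_div, zero_sub, V.abv.map_neg, map_one] at hc
    exact lt_irrefl _ hc
  set r := RR c₀ c₁ c₂ (C.T y) (C.S y) (C.N y) with hr
  have hr0 : r ≠ 0 := by
    intro h0
    rw [h0, div_zero, zero_sub, V.abv.map_neg, map_one] at hc
    exact lt_irrefl _ hc
  set ι := algebraMap K V.comp with hι
  let F : (V.comp × V.comp × V.comp) → V.comp := fun x => ι b / RR (ι c₀) (ι c₁) (ι c₂) x.1 x.2.1
    x.2.2 - 1
  have hFr : RR (ι c₀) (ι c₁) (ι c₂) (ι (C.T y)) (ι (C.S y)) (ι (C.N y)) = ι r :=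
    (map_RR ι _ _ _ _ _ _).symm
  have hR : Continuous fun x : V.comp × V.comp × V.comp =>
      RR (ι c₀) (ι c₁) (ι c₂) x.1 x.2.1 x.2.2 := by
    simp only [RR]
    fun_prop
  have hF : ContinuousAt F (ι (C.T y), ι (C.S y), ι (C.N y)) := by
    refine (continuousAt_const.div hR.continuousAt ?_).sub continuousAt_const
    rw [hFr]
    exact (map_ne_zero ι).mpr hr0
  have hF0 : ‖F (ι (C.T y), ι (C.S y), ι (C.N y))‖ < 1 := by
    simp only [F]
    rw [hFr, ← map_div₀, ← map_one ι, ← map_sub, norm_alg]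
    exact hc
  have h2 := hF.norm.eventually (Iio_mem_nhds hF0)
  rw [Metric.eventually_nhds_iff] at h2
  obtain ⟨ε, hε, h3⟩ := h2
  refine ⟨ε, hε, fun y' h4 h5 h6 => ?_⟩
  have h7 := h3 (y := (ι (C.T y'), ι (C.S y'), ι (C.N y'))) (by
    rw [Prod.dist_eq, Prod.dist_eq, max_lt_iff, max_lt_iff, dist_eq_norm, dist_eq_norm,
      dist_eq_norm]
    simp only []
    rw [← map_sub ι, ← map_sub ι, ← map_sub ι, norm_alg, norm_alg, norm_alg]
    exact ⟨h4, h5, h6⟩)
  refine ⟨![c₀, c₁, c₂], ?_⟩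
  change V.abv (b / C.N (c₀ • (1 : D) + c₁ • y' + c₂ • (y' * y')) - 1) < 1
  rw [N_pol, ← norm_alg, map_sub, map_div₀, map_RR, map_one]
  exact h7

end crit

section fin

variable {K D : Type} [Field K] [GFF K] [Ring D] [Algebra K D] {C : Cub K D} {y : D} {b : K}

/-- **Finiteness of the set of bad places.** -/
theorem LocDF.finite (h3 : (3 : K) ≠ 0) (hy : ¬ ((C.T y) ^ 2 = 3 * C.S y ∧
    (C.T y) ^ 3 = 27 * C.N y)) (hb : b ≠ 0) : {V : Place K | ¬ LocDF C y V b}.Finite := by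
  have h1 : ∀ x : K, {V : Place K | ¬ V.abv x ≤ 1}.Finite := by
    intro x
    by_cases hx : x = 0
    · refine Set.Finite.subset Set.finite_empty fun V hV => ?_
      apply hV
      rw [hx, map_zero]
      exact zero_le_one
    · refine (place_finite hx).subset fun V hV => ?_
      intro h
      exact hV h.le
  obtain ⟨e, he0, he⟩ : ∃ e : K, e ≠ 0 ∧ (e = (C.T y) ^ 2 - 3 * C.S y ∨
      e = (C.T y) ^ 3 - 27 * C.N y) := by
    by_cases h : (C.T y) ^ 2 = 3 * C.S y
    · exact ⟨_, sub_ne_zero.mpr fun h' => hy ⟨h, h'⟩, Or.inr rfl⟩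
    · exact ⟨_, sub_ne_zero.mpr h, Or.inl rfl⟩
  refine (((((h1 (C.T y)).union (h1 (C.S y))).union (h1 (C.N y))).union (place_finite hb)).union
    ((place_finite he0).union (place_finite h3))).subset fun V hV => ?_
  by_contra hcon
  simp only [Set.mem_union, Set.mem_ofPred_eq, not_or, not_not] at hcon
  obtain ⟨⟨⟨⟨hT, hS⟩, hN⟩, hb1⟩, he1, h31⟩ := hcon
  apply hV
  refine LocDF.of_not_cube hT hS hN hb1 ?_
  rintro ⟨c, hc, e1, e2, e3⟩
  -- the absolute value of `e` is less than one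
  have h27 : V.abv (27 : K) ≤ 1 := by
    have : (27 : K) = 3 ^ 3 := by norm_num
    rw [this, map_pow, h31, one_pow]
  have hmul : ∀ x z : K, V.abv x ≤ 1 → V.abv z < 1 → V.abv (x * z) < 1 := fun x z hx hz => by
    rw [map_mul]
    exact mul_lt_one_of_nonneg_of_lt_one_right hx (V.abv.nonneg _) hz
  have hadd : ∀ x z : K, V.abv x < 1 → V.abv z < 1 → V.abv (x + z) < 1 := fun x z hx hz =>
    (V.nonarch x z).trans_lt (max_lt hx hz)
  have hsub : ∀ x z : K, V.abv x < 1 → V.abv z < 1 → V.abv (x - z) < 1 := fun x z hx hz =>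
    (abv_sub_le V x z).trans_lt (max_lt hx hz)
  have h3c : V.abv (3 * c) ≤ 1 := by rw [map_mul, h31, one_mul]; exact hc
  have hTc : V.abv (C.T y + 3 * c) ≤ 1 := (V.nonarch _ _).trans (max_le hT h3c)
  have hlt : V.abv e < 1 := by
    rcases he with he | he
    · have h4 : e = (C.T y + 3 * c) * (C.T y - 3 * c) - 3 * (C.S y - 3 * c ^ 2) := by
        rw [he]; ring
      rw [h4]
      exact hsub _ _ (hmul _ _ hTc e1) (hmul _ _ h31.le e2)
    · have h4 : e = ((C.T y) ^ 2 + (C.T y) * (3 * c) + (3 * c) ^ 2) * (C.T y - 3 * c) -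
          27 * (C.N y - c ^ 3) := by
        rw [he]; ring
      rw [h4]
      refine hsub _ _ (hmul _ _ ?_ e1) (hmul _ _ h27 e3)
      refine (V.nonarch _ _).trans (max_le ((V.nonarch _ _).trans (max_le ?_ ?_)) ?_)
      · rw [map_pow]; exact pow_le_one₀ (V.abv.nonneg _) hT
      · rw [map_mul]; exact mul_le_one₀ hT (V.abv.nonneg _) h3c
      · rw [map_pow]; exact pow_le_one₀ (V.abv.nonneg _) h3c
  exact hlt.ne he1

end fin

end Vale.Agent.P011.H738
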