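import Mathlib.Analysis.AbsoluteValue.Equivalence
import Mathlib.Analysis.Normed.Field.WithAbs
import Mathlib.FieldTheory.RatFunc.Basic
import Mathlib.LinearAlgebra.Matrix.Determinant.Basic
import Mathlib.RingTheory.TensorProduct.Maps
import Mathlib.Topology.Algebra.Group.Basic
import Mathlib.Topology.Algebra.Module.ModuleTopology
import Mathlib.Topology.Algebra.Group.ClosedSubgroup
import Mathlib.Algebra.Central.Defs
import Mathlib.RingTheory.SimpleRing.Basic

/-!
The special unitary group of a central simple algebra with an anisotropic involution of the second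
kind over a global field, the places at which it is anisotropic, and its points over the
completions at these places.
-/

open Module TensorProduct Topology

namespace Vale.Agent.P011.H738

/-- A global function field: a finite extension of the field of rational functions in one variable
over a finite field. -/
def IsGlobalFunctionField (k : Type) [Field k] : Prop :=
  ∃ (F : Type) (_ : Field F) (_ : Finite F) (_ : Algebra (RatFunc F) k),
    FiniteDimensional (RatFunc F) k

section place

variable {k : Type} [Field k]

/-- The ring of the elements of absolute value at most one. -/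
def integers (a : AbsoluteValue k ℝ) (h : ∀ x y, a (x + y) ≤ max (a x) (a y)) : Subring k where
  carrier := {x | a x ≤ 1}
  mul_mem' := by
    intro x y hx hy
    rw [Set.mem_ofPred_eq, map_mul]
    exact mul_le_one₀ hx (a.nonneg y) hy
  one_mem' := by rw [Set.mem_ofPred_eq, map_one]
  add_mem' := by
    intro x y hx hy
    exact (h x y).trans (max_le hx hy)
  zero_mem' := by rw [Set.mem_ofPred_eq, map_zero]; exact zero_le_one
  neg_mem' := by
    intro x hx
    rw [Set.mem_ofPred_eq, a.map_neg]
    exact hx

/-- The ideal of the elements of absolute value less than one. -/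
def maxIdeal (a : AbsoluteValue k ℝ) (h : ∀ x y, a (x + y) ≤ max (a x) (a y)) :
    Ideal (integers a h) where
  carrier := {x | a (x : k) < 1}
  add_mem' := by
    intro x y hx hy
    exact (h x y).trans_lt (max_lt hx hy)
  zero_mem' := by
    change a ((0 : integers a h) : k) < 1
    rw [ZeroMemClass.coe_zero, map_zero]
    exact zero_lt_one
  smul_mem' := by
    intro c x hx
    change a ((c * x : integers a h) : k) < 1
    rw [Subring.coe_mul, map_mul]
    exact mul_lt_one_of_nonneg_of_lt_one_right c.2 (a.nonneg _) hx

end place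

/-- A nonarchimedean place of `k`: a normalized discrete nonarchimedean absolute value of `k`, i.e.
the residue field is finite, of order `q`, and the nonzero absolute values are the integral powers
of `q`. -/
structure Place (k : Type) [Field k] where
  /-- The absolute value. -/
  abv : AbsoluteValue k ℝ
  nonarch : ∀ x y, abv (x + y) ≤ max (abv x) (abv y)
  normalized : Finite (integers abv nonarch ⧸ maxIdeal abv nonarch) ∧
    (∃ x, abv x = Nat.card (integers abv nonarch ⧸ maxIdeal abv nonarch)) ∧
    ∀ x, x ≠ 0 → ∃ m : ℤ, abv x = Nat.card (integers abv nonarch ⧸ maxIdeal abv nonarch) ^ m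

/-- The completion of `k` at a place. -/
abbrev Place.comp {k : Type} [Field k] (v : Place k) : Type := v.abv.Completion

section

variable (k A : Type) [Field k] [Ring A] [Algebra k A] (v : Place k)

/-- The algebra `A_v = k_v ⊗ A`. -/
def Av : Type := v.comp ⊗[k] A

noncomputable instance instRingAv : Ring (Av k A v) := Algebra.TensorProduct.instRing

noncomputable instance instAlgebraAv : Algebra v.comp (Av k A v) :=
  Algebra.TensorProduct.leftAlgebra

/-- `A_v` has the natural topology of a finite-dimensional vector space over `k_v`. -/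
noncomputable instance instTopAv : TopologicalSpace (Av k A v) :=
  moduleTopology v.comp (Av k A v)

/-- The inclusion of `A` in `A_v`. -/
noncomputable def inAv : A →+* Av k A v :=
  (Algebra.TensorProduct.includeRight : A →ₐ[k] v.comp ⊗[k] A).toRingHom

variable {k} {v} in
/-- The element `x` of `A_v` has reduced norm one: the determinant of the image of `x` is one under
every homomorphism of algebras over `k_v` from `A_v` to the `n × n` matrices over a field, where
`n` is the degree of `A`. -/
def NrdOne (n : ℕ) (x : Av k A v) : Prop :=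
  ∀ (Ω : Type) [Field Ω] [Algebra v.comp Ω]
    (F : Av k A v →ₐ[v.comp] Matrix (Fin n) (Fin n) Ω), (F x).det = 1

variable {k} {v} in
/-- The element `x` of `A_v` is unitary: `x σ(x) = 1 = σ(x) x` for the extension `σ` of the
involution of `A` to a linear map of `A_v` over `k_v`. -/
def IsUnitary [StarRing A] (x : Av k A v) : Prop :=
  ∀ σ : Av k A v →ₗ[v.comp] Av k A v,
    (∀ y : A, σ (inAv k A v y) = inAv k A v (star y)) → x * σ x = 1

section

variable {k A v}

theorem Av_ind {P : Av k A v → Prop} (h0 : P 0)
    (h1 : ∀ (a : v.comp) (y : A), P (a • inAv k A v y))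
    (h2 : ∀ x y, P x → P y → P (x + y)) (x : Av k A v) : P x := by
  refine TensorProduct.induction_on x h0 (fun a y => ?_) h2
  have h3 : a ⊗ₜ[k] y = a • ((1 : v.comp) ⊗ₜ[k] y) := by
    rw [TensorProduct.smul_tmul', smul_eq_mul, mul_one]
  rw [h3]
  exact h1 a y

variable [StarRing A] {σ : Av k A v →ₗ[v.comp] Av k A v}

theorem ext_mul (hσ : ∀ y : A, σ (inAv k A v y) = inAv k A v (star y)) (X Y : Av k A v) :
    σ (X * Y) = σ Y * σ X := by
  induction X using Av_ind with
  | h0 => rw [zero_mul, map_zero, mul_zero]
  | h1 a x =>
    induction Y using Av_ind with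
    | h0 => rw [mul_zero, map_zero, zero_mul]
    | h1 b y =>
      rw [smul_mul_smul_comm, map_smul, map_smul, map_smul, smul_mul_smul_comm, ← map_mul, hσ, hσ,
        hσ, star_mul, map_mul, mul_comm a b]
    | h2 Y Y' h h' => rw [mul_add, map_add, h, h', map_add, add_mul]
  | h2 X X' h h' => rw [add_mul, map_add, h, h', map_add, mul_add]

theorem ext_ext (hσ : ∀ y : A, σ (inAv k A v y) = inAv k A v (star y)) (X : Av k A v) :
    σ (σ X) = X := by
  induction X using Av_ind with
  | h0 => rw [map_zero, map_zero]
  | h1 a x => rw [map_smul, map_smul, hσ, hσ, star_star]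
  | h2 X X' h h' => rw [map_add, map_add, h, h']

theorem ext_one (hσ : ∀ y : A, σ (inAv k A v y) = inAv k A v (star y)) : σ 1 = 1 := by
  have h := hσ 1
  rwa [star_one, map_one] at h

end

variable {k} [StarRing A]

/-- The group `G(k_v)` of the unitary elements of `A_v` of reduced norm one. -/
def Gv (n : ℕ) : Subgroup (Av k A v)ˣ where
  carrier := {x | IsUnitary A (x : Av k A v) ∧ NrdOne A n (x : Av k A v)}
  mul_mem' := by
    rintro x y ⟨hx, hx'⟩ ⟨hy, hy'⟩
    refine ⟨fun σ hσ => ?_, fun Ω _ _ F => ?_⟩
    · rw [Units.val_mul, ext_mul hσ, mul_assoc, ← mul_assoc (y : Av k A v), hy σ hσ, one_mul,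
        hx σ hσ]
    · rw [Units.val_mul, map_mul, Matrix.det_mul, hx' Ω F, hy' Ω F, one_mul]
  one_mem' := ⟨fun σ hσ => by rw [Units.val_one, ext_one hσ, one_mul], fun Ω _ _ F => by
    rw [Units.val_one, map_one, Matrix.det_one]⟩
  inv_mem' := by
    rintro x ⟨hx, hx'⟩
    refine ⟨fun σ hσ => ?_, fun Ω _ _ F => ?_⟩
    · have h1 : σ (x : Av k A v) = ((x⁻¹ : (Av k A v)ˣ) : Av k A v) := by
        rw [← Units.mul_right_inj x, hx σ hσ, Units.mul_inv]
      rw [← h1, ext_ext hσ, h1, Units.inv_mul]
    · have h2 : (F (x : Av k A v)).det * (F ((x⁻¹ : (Av k A v)ˣ) : Av k A v)).det = 1 := by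
        rw [← Matrix.det_mul, ← map_mul, Units.mul_inv, map_one, Matrix.det_one]
      rwa [hx' Ω F, one_mul] at h2

/-- The group `G(k_v)` as a type. -/
def GTop (n : ℕ) : Type := Gv A v n

noncomputable instance instGroupGTop (n : ℕ) : Group (GTop A v n) := Subgroup.toGroup (Gv A v n)

/-- `G(k_v)` has the topology of a subspace of the group of units of `A_v`. -/
noncomputable instance instTopGTop (n : ℕ) : TopologicalSpace (GTop A v n) :=
  instTopologicalSpaceSubtype (X := (Av k A v)ˣ)

variable {A v} in
/-- The element of `A_v` underlying an element of `G(k_v)`. -/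
def GTop.val {n : ℕ} (x : GTop A v n) : Av k A v := ((Subtype.val x : (Av k A v)ˣ) : Av k A v)

/-- The product of the groups `G(k_v)`, `v` in `S`. -/
def HA (n : ℕ) (S : Set (Place k)) : Type := ∀ v : S, GTop A v.1 n

noncomputable instance instGroupHA (n : ℕ) (S : Set (Place k)) : Group (HA A n S) := Pi.group

/-- The product topology. -/
noncomputable instance instTopHA (n : ℕ) (S : Set (Place k)) : TopologicalSpace (HA A n S) :=
  Pi.topologicalSpace

variable {A} in
/-- The component at `v` of an element of the product, as an element of `A_v`. -/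
def HA.at {n : ℕ} {S : Set (Place k)} (x : HA A n S) (v : S) : Av k A v.1 := (x v).val

end

section

variable {K A Ω : Type} [Field K] [Ring A] [StarRing A] [Algebra K A] [Field Ω] [Algebra K Ω]
  {n : ℕ}

/-- The group of the unitary elements of reduced norm one of the algebra `A` with the involution
`star`; the reduced norm is computed with the splitting `f` of `A`. -/
def SUA (f : A →ₐ[K] Matrix (Fin n) (Fin n) Ω) : Subgroup Aˣ where
  carrier := {g | (g : A) * star (g : A) = 1 ∧ (f (g : A)).det = 1}
  mul_mem' := by
    rintro a b ⟨h1, h2⟩ ⟨h3, h4⟩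
    refine ⟨?_, ?_⟩
    · rw [Units.val_mul, star_mul, mul_assoc, ← mul_assoc (b : A), h3, one_mul, h1]
    · rw [Units.val_mul, map_mul, Matrix.det_mul, h2, h4, one_mul]
  one_mem' := ⟨by rw [Units.val_one, star_one, one_mul],
    by rw [Units.val_one, map_one, Matrix.det_one]⟩
  inv_mem' := by
    rintro a ⟨h1, h2⟩
    have h3 : star (a : A) = ((a⁻¹ : Aˣ) : A) := by
      rw [← Units.mul_right_inj a, h1, Units.mul_inv]
    have h4 : (f ((a⁻¹ : Aˣ) : A)).det = 1 := by
      have h5 : (f (a : A)).det * (f ((a⁻¹ : Aˣ) : A)).det = 1 := by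
        rw [← Matrix.det_mul, ← map_mul, Units.mul_inv, map_one, Matrix.det_one]
      rwa [h2, one_mul] at h5
    refine ⟨?_, h4⟩
    rw [← h3, star_star, h3, Units.inv_mul]

variable {k : Type} [Field k] [Algebra k A] {f : A →ₐ[K] Matrix (Fin n) (Fin n) Ω}
  {S : Set (Place k)}

/-- `δ` is the diagonal map of `G(k)` to the product of the groups `G(k_v)`, `v` in `S`. -/
def IsDiagonal (δ : SUA f →* HA A n S) : Prop :=
  ∀ (g : SUA f) (v : S), (δ g).at v = inAv k A v.1 ((g : Aˣ) : A)

/-- The subgroup `N` of `G(k)` is the preimage under `δ` of an open subgroup `W`, which is normal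
if `N` is normal. -/
def IsOpenPreimage (δ : SUA f →* HA A n S) (N : Subgroup (SUA f)) : Prop :=
  ∃ W : Subgroup (HA A n S), IsOpen (W : Set (HA A n S)) ∧ N = W.comap δ ∧ (N.Normal → W.Normal)

end

/-- The places `v` of `k` such that `K` embeds in `k_v` and `A` is a division algebra over `k_v`,
i.e. `k_v ⊗_K A` is a division algebra. -/
def Adiv (k K A : Type) [Field k] [Field K] [Ring A] [Algebra k K] [Algebra K A] :
    Set (Place k) :=
  {v | ∃ φ : K →ₐ[k] v.comp,
    letI := (φ : K →+* v.comp).toAlgebra
    ∀ x : v.comp ⊗[K] A, x ≠ 0 → IsUnit x}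

/-- The setting: `A` is central simple of degree `n` over `K`, with an involution of the second
kind with fixed field `k`, and no nonzero isotropic elements. -/
structure Anis (k K A : Type) [Field k] [Field K] [StarRing K] [Ring A] [StarRing A] [Algebra k K]
    [Algebra k A] [Algebra K A] [IsScalarTower k K A] [StarModule K A] (n : ℕ) : Prop where
  fixed : ∀ x : K, star x = x ↔ x ∈ Set.range (algebraMap k K)
  star_ne : ∃ x : K, star x ≠ x
  central : Algebra.IsCentral K A
  simple : IsSimpleRing A
  finrank_eq : finrank K A = n ^ 2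
  anisotropic : ∀ x : A, star x * x = 0 → x = 0

end Vale.Agent.P011.H738
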