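import Vale.Agent.P011.H775.CubEx
import Mathlib.FieldTheory.Finite.GaloisField
import Mathlib.RingTheory.Norm.Basic
import Mathlib.RingTheory.AdjoinRoot
import Mathlib.Algebra.Polynomial.SpecificDegree

/-!
The norm of `a + b y + c y ^ 2` in terms of the reduced characteristic polynomial of `y`; norms of
cubic polynomials over finite fields.
-/

open Module Polynomial Matrix

namespace Vale.Agent.P011.H738

open Vale.Agent.P011.H775

/-- The product of `a + b x + c x ^ 2` over the roots `x` of `X ^ 3 - t X ^ 2 + s X - n`. -/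
def RR {R : Type*} [CommRing R] (a b c t s n : R) : R :=
  a ^ 3 + a ^ 2 * b * t + a ^ 2 * c * (t ^ 2 - 2 * s) + a * b ^ 2 * s +
    a * b * c * (t * s - 3 * n) + a * c ^ 2 * (s ^ 2 - 2 * t * n) + b ^ 3 * n +
    b ^ 2 * c * t * n + b * c ^ 2 * s * n + c ^ 3 * n ^ 2

theorem map_RR {R S : Type*} [CommRing R] [CommRing S] (φ : R →+* S) (a b c t s n : R) :
    φ (RR a b c t s n) = RR (φ a) (φ b) (φ c) (φ t) (φ s) (φ n) := by
  simp only [RR, map_add, map_sub, map_mul, map_pow, map_ofNat]

/-- The value at a root. -/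
theorem RR_root {R : Type*} [CommRing R] (u α σ p : R) :
    RR (1 + u * p) (-u * σ) u (α + σ) (α * σ + p) (α * p) = 1 + u * (α ^ 2 - σ * α + p) := by
  simp only [RR]
  ring

section cub

variable {K D : Type} [Field K] [Ring D] [Algebra K D] (C : Cub K D)

theorem T_mul_self (y : D) : C.T (y * y) = C.T y ^ 2 - 2 * C.S y := by
  have h := C.adj_eq y
  have h1 : y * y = C.adj y + C.T y • y - C.S y • (1 : D) := by rw [h]; abel
  rw [h1, map_sub, map_add, map_smul, map_smul, C.T_one, smul_eq_mul, smul_eq_mul]
  change C.S y + _ - _ = _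
  ring

theorem S_add (x y : D) : C.S (x + y) = C.S x + C.S y + (C.T x * C.T y - C.T (x * y)) := by
  rw [Cub.S, Cub.S, Cub.S, C.adj_add, map_add, map_add, C.T_cr]

theorem S_one : C.S (1 : D) = 3 := by rw [Cub.S, C.adj_one, C.T_one]

theorem N_one_add (w : D) : C.N (1 + w) = 1 + C.T w + C.S w + C.N w := by
  rw [C.N_add, C.N_one, C.adj_one, one_mul, one_mul]
  rfl

theorem N_smul_one_add (a : K) (w : D) :
    C.N (a • (1 : D) + w) = a ^ 3 + a ^ 2 * C.T w + a * C.S w + C.N w := by
  rw [C.N_add, C.N_smul, C.N_one, C.adj_smul, C.adj_one, smul_mul_assoc, one_mul, smul_mul_assoc,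
    one_mul, map_smul, map_smul, mul_one, smul_eq_mul, smul_eq_mul]
  rfl

/-- **The norm of a polynomial in `y`.** -/
theorem N_pol (y : D) (a b c : K) :
    C.N (a • (1 : D) + b • y + c • (y * y)) = RR a b c (C.T y) (C.S y) (C.N y) := by
  have hz : b • y + c • (y * y) = y * (b • (1 : D) + c • y) := by
    rw [mul_add, mul_smul_comm, mul_smul_comm, mul_one]
  have hN : C.N (b • (1 : D) + c • y) = b ^ 3 + b ^ 2 * (c * C.T y) + b * (c ^ 2 * C.S y) +
      c ^ 3 * C.N y := by
    rw [N_smul_one_add, map_smul, C.S_smul, C.N_smul, smul_eq_mul]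
  have hadj : C.adj (b • (1 : D) + c • y) = b ^ 2 • (1 : D) + c ^ 2 • C.adj y +
      (b * c) • (C.T y • (1 : D) - y) := by
    rw [C.adj_add, C.adj_smul, C.adj_smul, C.adj_one, C.cr_smul_left, C.cr_smul_right, smul_smul]
    congr 2
    rw [Cub.cr, one_mul, mul_one, C.T_one]
    have h1 : ((3 : K) * C.T y - C.T y) • (1 : D) = (2 : K) • (C.T y • (1 : D)) := by
      rw [smul_smul]
      congr 1
      ring
    have h3 : (3 : K) • y = y + y + y := by
      rw [show (3 : K) = 1 + 1 + 1 by norm_num, add_smul, add_smul, one_smul]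
    rw [h1, h3, two_smul]
    abel
  have hyy : y * C.adj y = C.N y • (1 : D) := C.mul_adj y
  have hyy' : C.adj y * y = C.N y • (1 : D) := C.adj_mul y
  have hSa : C.S (C.adj y) = C.N y * C.T y := by
    rw [Cub.S, C.adj_adj, map_smul, smul_eq_mul]
  have hS : C.S (b • y + c • (y * y)) = b ^ 2 * C.S y + b * c * (C.T y * C.S y - 3 * C.N y) +
      c ^ 2 * (C.S y ^ 2 - 2 * (C.N y * C.T y)) := by
    rw [hz, Cub.S, C.adj_mul_distrib, hadj]
    rw [add_mul, add_mul, smul_mul_assoc, smul_mul_assoc, smul_mul_assoc, one_mul, sub_mul,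
      smul_mul_assoc, one_mul, hyy, map_add, map_add, map_smul, map_smul, map_smul, map_sub,
      map_smul, map_smul, C.T_one, T_mul_self, hSa]
    simp only [smul_eq_mul]
    change b ^ 2 * C.S y + c ^ 2 * (C.S y ^ 2 - _) + b * c * (C.T y * C.S y - _) = _
    ring
  rw [add_assoc, N_smul_one_add, hS, hz, C.N_mul, hN, ← hz, map_add, map_smul, map_smul,
    T_mul_self]
  simp only [RR, smul_eq_mul]
  ring

end cub

section mat

/-- The cubic norm structure of the `3 × 3` matrices. -/
def cubMat (K : Type) [Field K] : Cub K (Matrix (Fin 3) (Fin 3) K) where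
  T := Matrix.traceLinearMap (Fin 3) K K
  N := Matrix.det
  adj := Matrix.adjugate
  spl := ⟨K, inferInstance, inferInstance, AlgHom.id K _, fun _ _ h => h, fun _ => rfl,
    fun _ => rfl, fun _ => rfl⟩

theorem det_pol {K : Type} [Field K] (M : Matrix (Fin 3) (Fin 3) K) (a b c : K) :
    (a • (1 : Matrix (Fin 3) (Fin 3) K) + b • M + c • (M * M)).det =
      RR a b c M.trace M.adjugate.trace M.det :=
  N_pol (cubMat K) M a b c

/-- The norm from a cubic extension. -/
theorem norm_pol {K E : Type} [Field K] [Field E] [Algebra K E] (hE : finrank K E = 3) {θ : E}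
    {t s n : K} (hθ : θ ^ 3 - t • θ ^ 2 + s • θ - n • (1 : E) = 0)
    (hgen : ∀ c : K, algebraMap K E c ≠ θ) (a b c : K) :
    Algebra.norm K (a • (1 : E) + b • θ + c • (θ * θ)) = RR a b c t s n := by
  have hfd : FiniteDimensional K E := FiniteDimensional.of_finrank_pos (by rw [hE]; norm_num)
  let β : Basis (Fin 3) K E := Module.finBasisOfFinrankEq K E hE
  set M := Algebra.leftMulMatrix β θ with hM
  have h1 : Algebra.leftMulMatrix β (a • (1 : E) + b • θ + c • (θ * θ)) =
      a • (1 : Matrix (Fin 3) (Fin 3) K) + b • M + c • (M * M) := by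
    rw [map_add, map_add, map_smul, map_smul, map_smul, map_one, map_mul]
  rw [Algebra.norm_eq_matrix_det β, h1, det_pol]
  -- the characteristic polynomial
  have hint : IsIntegral K θ := IsIntegral.of_finite K θ
  have hinj := Algebra.leftMulMatrix_injective β
  have hP : ∀ P : K[X], P.Monic → P.natDegree = 3 → aeval θ P = 0 → minpoly K θ = P := by
    intro P hPm hPd hP0
    have h2 : (minpoly K θ).natDegree = 3 := by
      have h3 : (minpoly K θ).natDegree ∣ 3 := by
        rw [← hE, ← IntermediateField.adjoin.finrank hint]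
        exact Dvd.intro _ (finrank_mul_finrank K (IntermediateField.adjoin K {θ}) E)
      rcases (Nat.dvd_prime Nat.prime_three).mp h3 with h | h
      · obtain ⟨c, hc⟩ := minpoly.natDegree_eq_one_iff.mp h
        exact absurd hc (hgen c)
      · exact h
    exact (Polynomial.eq_of_monic_of_dvd_of_natDegree_le (minpoly.monic hint) hPm
      (minpoly.dvd K θ hP0) (by rw [hPd, h2])).symm
  have hM1 : minpoly K θ = M.charpoly := by
    refine hP _ (Matrix.charpoly_monic M) (by
      rw [Matrix.charpoly_natDegree_eq_dim, Fintype.card_fin]) ?_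
    apply hinj
    rw [← Polynomial.aeval_algHom_apply, map_zero]
    exact Matrix.aeval_self_charpoly M
  have hPd : (X ^ 3 - Polynomial.C t * X ^ 2 + Polynomial.C s * X -
      Polynomial.C n : K[X]).natDegree = 3 := by
    compute_degree!
  have hPm : (X ^ 3 - Polynomial.C t * X ^ 2 + Polynomial.C s * X - Polynomial.C n : K[X]).Monic := by
    monicity!
  have hM2 : minpoly K θ = X ^ 3 - Polynomial.C t * X ^ 2 + Polynomial.C s * X -
      Polynomial.C n := by
    refine hP _ hPm hPd ?_
    rw [map_sub, map_add, map_sub, map_mul, map_mul, map_pow, map_pow, aeval_X, aeval_C, aeval_C,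
      aeval_C, ← Algebra.smul_def, ← Algebra.smul_def, Algebra.algebraMap_eq_smul_one]
    exact hθ
  rw [hM1, mat_charpoly] at hM2
  have h0 := congrArg (fun Q => Polynomial.coeff Q 0) hM2
  have h1 := congrArg (fun Q => Polynomial.coeff Q 1) hM2
  have h2 := congrArg (fun Q => Polynomial.coeff Q 2) hM2
  simp only [coeff_sub, coeff_add, coeff_X_pow, coeff_C_mul, coeff_X, coeff_C] at h0 h1 h2
  norm_num at h0 h1 h2
  rw [h0, h1, h2]

end mat

section fin

variable {κ : Type} [Field κ] [Finite κ]

/-- **Over a finite field** every nonzero element is the norm of a polynomial modulo a cubic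
polynomial which is not a cube. -/
theorem exists_RR {t s n b : κ} (hnc : ¬ ∃ c : κ, t = 3 * c ∧ s = 3 * c ^ 2 ∧ n = c ^ 3) :
    ∃ c₀ c₁ c₂ : κ, RR c₀ c₁ c₂ t s n = b := by
  -- a simple root
  have hsimple : ∀ α : κ, α ^ 3 - t * α ^ 2 + s * α - n = 0 →
      α ^ 2 - (t - α) * α + (s - α * (t - α)) ≠ 0 → ∃ c₀ c₁ c₂ : κ, RR c₀ c₁ c₂ t s n = b := by
    intro α hα hd
    set σ := t - α with hσ
    set p := s - α * σ with hp
    set u := (b - 1) / (α ^ 2 - σ * α + p) with hu
    refine ⟨1 + u * p, -u * σ, u, ?_⟩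
    have ht : t = α + σ := by rw [hσ]; ring
    have hs : s = α * σ + p := by rw [hp]; ring
    have hn : n = α * p := by
      rw [hp, hσ]
      linear_combination -hα
    rw [ht, hs, hn, RR_root, hu, div_mul_cancel₀ _ hd]
    ring
  by_cases hroot : ∃ α : κ, α ^ 3 - t * α ^ 2 + s * α - n = 0
  · obtain ⟨α, hα⟩ := hroot
    by_cases hd : α ^ 2 - (t - α) * α + (s - α * (t - α)) = 0
    · -- a double root
      have hne : t - 2 * α ≠ α := by
        intro h
        apply hnc
        refine ⟨α, by linear_combination h, ?_, ?_⟩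
        · linear_combination hd + 2 * α * h
        · linear_combination -hα + α * hd + α ^ 2 * h
      refine hsimple (t - 2 * α) ?_ ?_
      · linear_combination hα + (t - 3 * α) * hd
      · intro h0
        apply hne
        have h1 : (t - 3 * α) ^ 2 = 0 := by linear_combination h0 - hd
        have h2 := pow_eq_zero_iff (two_ne_zero) |>.mp h1
        linear_combination h2
    · exact hsimple α hα hd
  · -- the irreducible case
    set P : κ[X] := X ^ 3 - Polynomial.C t * X ^ 2 + Polynomial.C s * X - Polynomial.C n with hP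
    have hPd : P.natDegree = 3 := by rw [hP]; compute_degree!
    have hPm : P.Monic := by rw [hP]; monicity!
    have hirr : Irreducible P := by
      rw [Polynomial.Monic.irreducible_iff_roots_eq_zero_of_degree_le_three hPm
        (by rw [hPd]; norm_num) (by rw [hPd])]
      rw [Multiset.eq_zero_iff_forall_notMem]
      intro α hα
      apply hroot
      refine ⟨α, ?_⟩
      have h1 := Polynomial.isRoot_of_mem_roots hα
      rw [Polynomial.IsRoot.def, hP] at h1
      simpa using h1
    have _ : Fact (Irreducible P) := ⟨hirr⟩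
    let E := AdjoinRoot P
    let pb := AdjoinRoot.powerBasis hirr.ne_zero
    have hE : finrank κ E = 3 := by
      rw [pb.finrank, AdjoinRoot.powerBasis_dim, hPd]
    have hfd : FiniteDimensional κ E := FiniteDimensional.of_finrank_pos (by rw [hE]; norm_num)
    have hfin : Finite E := Module.finite_of_finite κ
    obtain ⟨x, hx⟩ := FiniteField.norm_surjective κ E b
    obtain ⟨q, rfl⟩ := AdjoinRoot.mk_surjective x
    set r := q %ₘ P with hr
    have hqr : AdjoinRoot.mk P q = AdjoinRoot.mk P r := by
      rw [AdjoinRoot.mk_eq_mk]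
      exact ⟨q /ₘ P, by rw [hr, modByMonic_eq_sub_mul_div]; ring⟩
    have hrd : r.natDegree < 3 := by
      have h1 := Polynomial.natDegree_modByMonic_lt q hPm (by
        intro h
        rw [h, natDegree_one] at hPd
        norm_num at hPd)
      rwa [hPd] at h1
    have hr3 : r = Polynomial.C (r.coeff 0) + Polynomial.C (r.coeff 1) * X +
        Polynomial.C (r.coeff 2) * X ^ 2 := by
      conv_lhs => rw [r.as_sum_range' 3 hrd]
      rw [Finset.sum_range_succ, Finset.sum_range_succ, Finset.sum_range_one]
      simp only [← Polynomial.C_mul_X_pow_eq_monomial, pow_zero, mul_one, pow_one]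
    set θ : E := AdjoinRoot.root P with hθ
    have hθP : aeval θ P = 0 := by
      rw [hθ, AdjoinRoot.aeval_eq, AdjoinRoot.mk_self]
    have hθ3 : θ ^ 3 - t • θ ^ 2 + s • θ - n • (1 : E) = 0 := by
      change aeval θ (X ^ 3 - Polynomial.C t * X ^ 2 + Polynomial.C s * X - Polynomial.C n) = 0
        at hθP
      rw [map_sub, map_add, map_sub, map_mul, map_mul, map_pow, map_pow, aeval_X, aeval_C,
        aeval_C, aeval_C, ← Algebra.smul_def, ← Algebra.smul_def,
        Algebra.algebraMap_eq_smul_one] at hθP
      exact hθP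
    have hgen : ∀ c : κ, algebraMap κ E c ≠ θ := by
      intro c hc
      apply hroot
      refine ⟨c, (algebraMap κ E).injective ?_⟩
      rw [← hc] at hθ3
      rw [map_zero, ← hθ3]
      simp only [map_sub, map_add, map_mul, map_pow, Algebra.smul_def, mul_one]
    refine ⟨r.coeff 0, r.coeff 1, r.coeff 2, ?_⟩
    have hmk : AdjoinRoot.mk P r = algebraMap κ E (r.coeff 0) + algebraMap κ E (r.coeff 1) * θ +
        algebraMap κ E (r.coeff 2) * θ ^ 2 := by
      conv_lhs => rw [hr3]
      rw [map_add, map_add, map_mul, map_mul, map_pow]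
      rfl
    rw [← norm_pol hE hθ3 hgen, ← hx, hqr, hmk, Algebra.smul_def, Algebra.smul_def,
      Algebra.smul_def, mul_one, ← pow_two]

end fin

end Vale.Agent.P011.H738
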