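import Vale.Agent.P011.H738.LocX2

/-!
Function fields of any characteristic: finiteness of the bad places, the Hasse norm theorem for the
cubic field `K[y]`, and unitary elements of given norm which commute with a normal element.
-/

open Module Polynomial
open scoped TensorProduct

namespace Vale.Agent.P011.H738

open Vale.Agent.P011.H775 Vale.Agent.P011.H271 Vale.Agent.P011.Hey.H63

section norm

variable {K E : Type} [Field K] [Field E] [Algebra K E]

/-- The trace, the second coefficient and the determinant of the multiplication by `θ`. -/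
theorem leftMul_coeff (β : Basis (Fin 3) K E) {θ : E}
    {t s n : K} (hθ : θ ^ 3 - t • θ ^ 2 + s • θ - n • (1 : E) = 0)
    (hgen : ∀ c : K, algebraMap K E c ≠ θ) :
    (Algebra.leftMulMatrix β θ).trace = t ∧ (Algebra.leftMulMatrix β θ).adjugate.trace = s ∧
      (Algebra.leftMulMatrix β θ).det = n := by
  have hE : finrank K E = 3 := by rw [finrank_eq_card_basis β, Fintype.card_fin]
  have hfd : FiniteDimensional K E := FiniteDimensional.of_finrank_pos (by rw [hE]; norm_num)
  set M := Algebra.leftMulMatrix β θ with hM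
  have hint : IsIntegral K θ := IsIntegral.of_finite K θ
  have hinj := Algebra.leftMulMatrix_injective β
  have hP : ∀ P : K[X], P.Monic → P.natDegree = 3 → aeval θ P = 0 → minpoly K θ = P := by
    intro P hPm hPd hP0
    have h2 : (minpoly K θ).natDegree = 3 := by
      have h3 : (minpoly K θ).natDegree ∣ 3 := by
        rw [← hE, ← IntermediateField.adjoin.finrank hint]
        exact Dvd.intro _ (finrank_mul_finrank K (IntermediateField.adjoin K {θ}) E)
      rcases (Nat.dvd_prime Nat.prime_three).mp h3 with h | h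
      · obtain ⟨c, hc⟩ := minpoly.natDegree_eq_one_iff.mp h
        exact absurd hc (hgen c)
      · exact h
    exact (Polynomial.eq_of_monic_of_dvd_of_natDegree_le (minpoly.monic hint) hPm
      (minpoly.dvd K θ hP0) (by rw [hPd, h2])).symm
  have hM1 : minpoly K θ = M.charpoly := by
    refine hP _ (Matrix.charpoly_monic M) (by
      rw [Matrix.charpoly_natDegree_eq_dim, Fintype.card_fin]) ?_
    apply hinj
    rw [← Polynomial.aeval_algHom_apply, map_zero]
    exact Matrix.aeval_self_charpoly M
  have hPd : (X ^ 3 - Polynomial.C t * X ^ 2 + Polynomial.C s * X -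
      Polynomial.C n : K[X]).natDegree = 3 := by
    compute_degree!
  have hPm : (X ^ 3 - Polynomial.C t * X ^ 2 + Polynomial.C s * X - Polynomial.C n : K[X]).Monic := by
    monicity!
  have hM2 : minpoly K θ = X ^ 3 - Polynomial.C t * X ^ 2 + Polynomial.C s * X -
      Polynomial.C n := by
    refine hP _ hPm hPd ?_
    rw [map_sub, map_add, map_sub, map_mul, map_mul, map_pow, map_pow, aeval_X, aeval_C, aeval_C,
      aeval_C, ← Algebra.smul_def, ← Algebra.smul_def, Algebra.algebraMap_eq_smul_one]
    exact hθ
  rw [hM1, mat_charpoly] at hM2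
  have h0 := congrArg (fun Q => Polynomial.coeff Q 0) hM2
  have h1 := congrArg (fun Q => Polynomial.coeff Q 1) hM2
  have h2 := congrArg (fun Q => Polynomial.coeff Q 2) hM2
  simp only [coeff_sub, coeff_add, coeff_X_pow, coeff_C_mul, coeff_X, coeff_C] at h0 h1 h2
  norm_num at h0 h1 h2
  exact ⟨h2, h1, h0⟩

/-- A norm in the sense of polynomials is a local norm. -/
theorem locN_of_NX (hE : finrank K E = 3) {θ : E}
    {t s n : K} (hθ : θ ^ 3 - t • θ ^ 2 + s • θ - n • (1 : E) = 0)
    (hgen : ∀ c : K, algebraMap K E c ≠ θ) {V : Place K} {b : K}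
    (h : algebraMap K V.comp b ∈ NX (algebraMap K V.comp t) (algebraMap K V.comp s)
      (algebraMap K V.comp n)) : LocN E b V := by
  obtain ⟨c₀, c₁, c₂, hc⟩ := h
  have hfd : FiniteDimensional K E := FiniteDimensional.of_finrank_pos (by rw [hE]; norm_num)
  let β : Basis (Fin 3) K E := Module.finBasisOfFinrankEq K E hE
  obtain ⟨e1, e2, e3⟩ := leftMul_coeff β hθ hgen
  rw [locN_iff]
  let Θ : V.comp ⊗[K] E := (1 : V.comp) ⊗ₜ[K] θ
  refine ⟨c₀ • (1 : V.comp ⊗[K] E) + c₁ • Θ + c₂ • (Θ * Θ), ?_⟩
  rw [Algebra.norm_eq_matrix_det (Algebra.TensorProduct.basis V.comp β), map_add, map_add,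
    map_smul, map_smul, map_smul, map_one, map_mul]
  have hM : Algebra.leftMulMatrix (Algebra.TensorProduct.basis V.comp β) Θ =
      (Algebra.leftMulMatrix β θ).map (algebraMap K V.comp) := by
    ext i j
    rw [Matrix.map_apply, Algebra.leftMulMatrix_eq_repr_mul, Algebra.leftMulMatrix_eq_repr_mul]
    simp only [Θ, Algebra.TensorProduct.basis_apply, Algebra.TensorProduct.tmul_mul_tmul,
        mul_one, Algebra.TensorProduct.basis_repr_tmul]
    simp
  have f1 : ((Algebra.leftMulMatrix β θ).map (algebraMap K V.comp)).trace =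
      algebraMap K V.comp t := by
    rw [← e1, Matrix.trace, Matrix.trace, map_sum]
    rfl
  have f3 : ((Algebra.leftMulMatrix β θ).map (algebraMap K V.comp)).det =
      algebraMap K V.comp n := by
    rw [← e3]
    exact ((algebraMap K V.comp).map_det _).symm
  have f2 : ((Algebra.leftMulMatrix β θ).map (algebraMap K V.comp)).adjugate.trace =
      algebraMap K V.comp s := by
    rw [← e2]
    have e4 := (algebraMap K V.comp).map_adjugate (Algebra.leftMulMatrix β θ)
    rw [RingHom.mapMatrix_apply, RingHom.mapMatrix_apply] at e4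
    rw [← e4, Matrix.trace, Matrix.trace, map_sum]
    rfl
  rw [hM, det_pol, f1, f2, f3, hc]

end norm

section dv

variable {K D : Type} [Field K] [GFF K] [DivisionRing D] [Algebra K D] {C : Cub K D}

/-- **The local condition holds at almost all places.** -/
theorem LocX.finite {y : D} (hy : H929.dP C y ≠ 0) {b : K} (hb : b ≠ 0) :
    {V : Place K | ¬ LocX C y V b}.Finite := by
  by_cases h3 : (3 : K) = 0
  swap
  · refine (LocDF.finite_of_notMem C h3 (notMem_of_dP hy) hb).subset fun V hV h => ?_
    exact hV (h.locX h3)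
  have h1 : ∀ x : K, {V : Place K | ¬ V.abv x ≤ 1}.Finite := by
    intro x
    by_cases hx : x = 0
    · refine Set.Finite.subset Set.finite_empty fun V hV => ?_
      apply hV
      rw [hx, map_zero]
      exact zero_le_one
    · refine (place_finite hx).subset fun V hV => ?_
      intro h
      exact hV h.le
  obtain ⟨e, he0, he⟩ : ∃ e : K, e ≠ 0 ∧ (e = C.T y ∨ e = C.S y) := by
    rcases coeff_of_dP hy with h | h | h
    · exact absurd h3 h
    · exact ⟨_, h, Or.inl rfl⟩
    · exact ⟨_, h, Or.inr rfl⟩
  refine (((((h1 (C.T y)).union (h1 (C.S y))).union (h1 (C.N y))).union (place_finite hb)).union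
    (place_finite he0)).subset fun V hV => ?_
  by_contra hcon
  simp only [Set.mem_union, Set.mem_ofPred_eq, not_or, not_not] at hcon
  obtain ⟨⟨⟨⟨hT, hS⟩, hN⟩, hb1⟩, he1⟩ := hcon
  apply hV
  refine LocX.of_not_cube hT hS hN hb1 ?_
  rintro ⟨c, hc, e1, e2, -⟩
  rw [h3, zero_mul, sub_zero] at e1 e2
  rcases he with rfl | rfl
  · exact e1.ne he1
  · exact e2.ne he1

/-- **The Hasse norm theorem for `K[y]`**, in every characteristic. -/
theorem exists_NX (C : Cub K D) {y : D} (hy : H929.dP C y ≠ 0) {b : K}
    (h : ∀ V : Place K, LocX C y V b) :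
    ∃ c : Fin 3 → K, C.N (c 0 • (1 : D) + c 1 • y + c 2 • (y * y)) = b := by
  set P : K[X] := X ^ 3 - Polynomial.C (C.T y) * X ^ 2 + Polynomial.C (C.S y) * X -
    Polynomial.C (C.N y) with hP
  have hPd : P.natDegree = 3 := by rw [hP]; compute_degree!
  have hPm : P.Monic := by rw [hP]; monicity!
  have hroot : ∀ r : K, P.eval r ≠ 0 := by
    intro r hr
    refine notMem_of_dP hy (mem_range_of_root C (r := r) ?_)
    rw [← hr, hP]
    simp only [eval_sub, eval_add, eval_mul, eval_pow, eval_X, eval_C]
    ring
  have hirr : Irreducible P := by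
    refine irreducible_of_degree_le_three_of_not_isRoot ?_ ?_
    · rw [hPd]; decide
    · intro x hx
      exact hroot x hx
  have _ : Fact (Irreducible P) := ⟨hirr⟩
  have hsep : P.Separable := by
    rw [Polynomial.separable_iff_derivative_ne_zero hirr]
    intro h0
    have h1 : (derivative P).coeff 2 = 3 := by
      have h2 := hPm.coeff_natDegree
      rw [hPd] at h2
      rw [coeff_derivative, h2, one_mul]
      norm_num
    have h2 : (derivative P).coeff 1 = -(2 * C.T y) := by
      rw [coeff_derivative, hP]
      simp only [coeff_sub, coeff_add, coeff_X_pow, coeff_C_mul, coeff_X, coeff_C]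
      norm_num
      ring
    have h4 : (derivative P).coeff 0 = C.S y := by
      rw [coeff_derivative, hP]
      simp only [coeff_sub, coeff_add, coeff_X_pow, coeff_C_mul, coeff_X, coeff_C]
      norm_num
    rw [h0, coeff_zero] at h1 h2 h4
    rcases coeff_of_dP hy with h | h | h
    · exact h h1.symm
    · apply h
      linear_combination (C.T y) * (-h1) - h2
    · exact h h4.symm
  let E := AdjoinRoot P
  let pb := AdjoinRoot.powerBasis hirr.ne_zero
  have hE : finrank K E = 3 := by rw [pb.finrank, AdjoinRoot.powerBasis_dim, hPd]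
  have hfd : FiniteDimensional K E := FiniteDimensional.of_finrank_pos (by rw [hE]; norm_num)
  set θ : E := AdjoinRoot.root P with hθ
  have hθP : aeval θ P = 0 := by rw [hθ, AdjoinRoot.aeval_eq, AdjoinRoot.mk_self]
  have hθ3 : θ ^ 3 - C.T y • θ ^ 2 + C.S y • θ - C.N y • (1 : E) = 0 := by
    change aeval θ (X ^ 3 - Polynomial.C (C.T y) * X ^ 2 + Polynomial.C (C.S y) * X -
      Polynomial.C (C.N y)) = 0 at hθP
    rw [map_sub, map_add, map_sub, map_mul, map_mul, map_pow, map_pow, aeval_X, aeval_C,
      aeval_C, aeval_C, ← Algebra.smul_def, ← Algebra.smul_def,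
      Algebra.algebraMap_eq_smul_one] at hθP
    exact hθP
  have hgen : ∀ c : K, algebraMap K E c ≠ θ := by
    intro c hc
    apply hroot c
    rw [← hc, aeval_algebraMap_apply, _root_.map_eq_zero] at hθP
    rwa [coe_aeval_eq_eval] at hθP
  have hsepE : Algebra.IsSeparable K E := by
    have h1 : IsSeparable K θ := by
      have h2 : minpoly K θ = P := by
        refine (minpoly.eq_of_irreducible_of_monic hirr hθP hPm).symm
      rw [IsSeparable, h2]
      exact hsep
    have h2 : IntermediateField.adjoin K {θ} = ⊤ := by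
      apply IntermediateField.eq_of_le_of_finrank_eq le_top
      rw [IntermediateField.finrank_top', hE,
        IntermediateField.adjoin.finrank (IsIntegral.of_finite K θ),
        (minpoly.eq_of_irreducible_of_monic hirr hθP hPm).symm, hPd]
    have h4 := (IntermediateField.isSeparable_adjoin_simple_iff_isSeparable K E).2 h1
    exact ⟨fun x => IntermediateField.isSeparable_of_mem_isSeparable K E
      (L := IntermediateField.adjoin K {θ}) (by rw [h2]; exact IntermediateField.mem_top)⟩
  obtain ⟨e, he⟩ := Hey.hasse_norm Nat.prime_three hE b fun V =>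
    locN_of_NX hE hθ3 hgen (h V)
  obtain ⟨q, rfl⟩ := AdjoinRoot.mk_surjective e
  set r := q %ₘ P with hr
  have hqr : AdjoinRoot.mk P q = AdjoinRoot.mk P r := by
    rw [AdjoinRoot.mk_eq_mk]
    exact ⟨q /ₘ P, by rw [hr, modByMonic_eq_sub_mul_div]; ring⟩
  have hrd : r.natDegree < 3 := by
    have h1 := Polynomial.natDegree_modByMonic_lt q hPm (by
      intro h
      rw [h, natDegree_one] at hPd
      norm_num at hPd)
    rwa [hPd] at h1
  have hr3 : r = Polynomial.C (r.coeff 0) + Polynomial.C (r.coeff 1) * X +
      Polynomial.C (r.coeff 2) * X ^ 2 := by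
    conv_lhs => rw [r.as_sum_range' 3 hrd]
    rw [Finset.sum_range_succ, Finset.sum_range_succ, Finset.sum_range_one]
    simp only [← Polynomial.C_mul_X_pow_eq_monomial, pow_zero, mul_one, pow_one]
  have hmk : AdjoinRoot.mk P r = algebraMap K E (r.coeff 0) + algebraMap K E (r.coeff 1) * θ +
      algebraMap K E (r.coeff 2) * θ ^ 2 := by
    conv_lhs => rw [hr3]
    rw [map_add, map_add, map_mul, map_mul, map_pow]
    rfl
  refine ⟨![r.coeff 0, r.coeff 1, r.coeff 2], ?_⟩
  change C.N (r.coeff 0 • (1 : D) + r.coeff 1 • y + r.coeff 2 • (y * y)) = b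
  rw [N_pol, ← norm_pol hE hθ3 hgen, ← he, hqr, hmk, Algebra.smul_def, Algebra.smul_def,
    Algebra.smul_def, mul_one, ← pow_two]

omit [GFF K] in
/-- From norms to unitary elements. -/
theorem unitary_of_N (C : Cub K D) [StarRing K] [StarRing D] [FiniteDimensional K D]
    [Algebra.IsCentral K D] (hD : finrank K D = 3 ^ 2)
    (hss : ∀ c : K, star (algebraMap K D c) = algebraMap K D (star c)) {y : D}
    (hyy : Commute (star y) y) {b : K} (hb : b * star b = 1)
    (h : ∃ c : Fin 3 → K, C.N (c 0 • (1 : D) + c 1 • y + c 2 • (y * y)) = b) :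
    ∃ e : D, e * star e = 1 ∧ Commute e y ∧ C.N e = b := by
  obtain ⟨c, hc⟩ := h
  set Y := c 0 • (1 : D) + c 1 • y + c 2 • (y * y) with hY
  have hsm : ∀ (a : K) (x : D), star (a • x) = star a • star x := fun a x => by
    rw [Algebra.smul_def, star_mul, hss, Algebra.smul_def, Algebra.commutes]
  have hb0 : b ≠ 0 := left_ne_zero_of_mul_eq_one hb
  have hY0 : Y ≠ 0 := by
    intro h0
    rw [h0, C.N_zero] at hc
    exact hb0 hc.symm
  have hsY : star Y = star (c 0) • (1 : D) + star (c 1) • star y +
      star (c 2) • (star y * star y) := by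
    rw [hY, star_add, star_add, hsm, hsm, hsm, star_one, star_mul]
  have hc1 : ∀ x : D, Commute x y → Commute x Y := fun x hx => by
    rw [hY]
    exact (((Commute.one_right x).smul_right _).add_right (hx.smul_right _)).add_right
      ((hx.mul_right hx).smul_right _)
  have hc2 : ∀ x : D, Commute x (star y) → Commute x (star Y) := fun x hx => by
    rw [hsY]
    exact (((Commute.one_right x).smul_right _).add_right (hx.smul_right _)).add_right
      ((hx.mul_right hx).smul_right _)
  have h1 : Commute y Y := hc1 y (Commute.refl y)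
  have h2 : Commute y (star Y) := hc2 y hyy.symm
  have h4 : Commute (star Y) Y := hc1 _ h2.symm
  have hsY0 : star Y ≠ 0 := star_ne_zero.mpr hY0
  refine ⟨b • (star Y * Y⁻¹), ?_, ?_, ?_⟩
  · rw [hsm, star_mul, star_star, star_inv₀, smul_mul_smul_comm, hb, one_smul]
    rw [mul_assoc, ← mul_assoc Y⁻¹, ← mul_inv_rev, h4.eq, mul_inv_rev, mul_assoc,
      inv_mul_cancel₀ hY0, mul_one, mul_inv_cancel₀ hsY0]
  · exact ((h2.symm.mul_left h1.symm.inv_left₀)).smul_left b
  · have h5 := (C.star_coeff hD hss Y).2.2
    rw [C.N_smul, C.N_mul, C.N_inv, h5, hc]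
    have h6 : star b = b⁻¹ := by
      rw [← mul_right_inj' hb0, hb, mul_inv_cancel₀ hb0]
    rw [h6]
    field_simp

/-- **Unitary elements of given norm which commute with a normal element**, in every
characteristic. -/
theorem exists_unitary_NX (C : Cub K D) [StarRing K] [StarRing D] [FiniteDimensional K D]
    [Algebra.IsCentral K D] (hD : finrank K D = 3 ^ 2)
    (hss : ∀ c : K, star (algebraMap K D c) = algebraMap K D (star c)) {y : D}
    (hy : H929.dP C y ≠ 0) (hyy : Commute (star y) y) {b : K} (hb : b * star b = 1)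
    (h : ∀ V : Place K, LocX C y V b) :
    ∃ e : D, e * star e = 1 ∧ Commute e y ∧ C.N e = b :=
  unitary_of_N C hD hss hyy hb (exists_NX C hy h)

end dv

end Vale.Agent.P011.H738
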