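import Vale.Agent.P011.H738.RootF
import Vale.Agent.P011.H124.E2cF

/-!
Function fields: the common cubic field.
-/

open Module

namespace Vale.Agent.P011.H738

open Vale.Agent.P011.H775 Vale.Agent.P011.H271

variable {k K D : Type} [Field k] [Field K] [StarRing K] [DivisionRing D] [StarRing D]
  [Algebra k K] [Algebra k D] [Algebra K D] [IsScalarTower k K D] [StarModule K D]

/-- **Elements of root type**, with powers of absolute values. -/
theorem rtF (hk : IsGlobalFunctionField k) [GFF k] (hA : Anis k K D 3) (h30 : (3 : k) ≠ 0)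
    (C : Cub K D) {P : Set (Place k)} (hP : P.Finite) (hPT : ∀ v ∈ P, v ∉ Adiv k K D) (a1 : D) :
    ∃ a : D, star a = a ∧ C.T a = 0 ∧ C.S a ≠ 0 ∧ (∀ c : k, a ≠ c • a1) ∧
      ∀ v ∈ P, ∃ n e : k, algebraMap k K n = C.N a ∧ algebraMap k K e = C.S a ∧
        v.abv n ^ 2 < v.abv e ^ 3 := by
  have h3 : (3 : K) ≠ 0 := by
    rw [← map_ofNat (algebraMap k K) 3]
    exact (map_ne_zero _).mpr h30
  obtain ⟨a, h1, h2, h4, h5, h6⟩ := exists_root_type hk hA h3 C hP hPT a1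
  refine ⟨a, h1, h2, h4, h5, fun v hv => ?_⟩
  obtain ⟨n, e, h7, h8, h9⟩ := h6 v hv
  rw [map_pow, map_pow] at h9
  exact ⟨n, e, h7, h8, h9⟩

/-- **The common cubic field.** -/
theorem commonF (hk : IsGlobalFunctionField k) [GFF k] [GFF K] {d : kˣ} {s : K}
    (hS : H305.SetF k K D d s) (h30 : (3 : k) ≠ 0)
    (hdeg : finrank K D = 3 ^ 2) (C : Cub K D) {zs : Set K} (hzs : zs.Finite)
    (hz0 : ∀ z ∈ zs, z ≠ 0)
    (hzT : ∀ z ∈ zs, ∀ v ∈ Adiv k K D, ∀ V : Place K,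
      (∃ c : ℝ, 0 < c ∧ ∀ x : k, V.abv (algebraMap k K x) = v.abv x ^ c) →
        ∃ c : K, V.abv (z / c ^ 3 - 1) < 1) :
    ∃ a : D, star a = a ∧ a ∉ Set.range (algebraMap K D) ∧ C.T a = 0 ∧
      ∀ z ∈ zs, ∀ V : Place K, LocDF C a V z :=
  H124.common_ofF hS h30 hdeg C (fun hP hPT a1 => rtF hk (hS.anis hdeg) h30 C hP hPT a1) hzs hz0
    hzT

end Vale.Agent.P011.H738
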