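import Vale.Agent.P011.H738.FPlus
import Vale.Agent.P011.H738.SolvFF
import Vale.Agent.P011.H698.PlusOf

/-!
**Function fields: the finite quotients of `G(k)` are solvable, and the dichotomy for the normal
subgroups of finite index**, from the core.
-/

open Module Topology TensorProduct commutatorElement

namespace Vale.Agent.P011.H738

variable {k K A Ω : Type} [Field k] [Field K] [StarRing K] [Ring A] [StarRing A] [Algebra k K]
  [Algebra k A] [Algebra K A] [IsScalarTower k K A] [StarModule K A] [Field Ω] [Algebra K Ω]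
  {n M : ℕ}

/-- **The dichotomy**, from the core. -/
theorem q1_plus_ff (hk : IsGlobalFunctionField k) (hA : Anis k K A n) (hn : 3 ≤ n)
    (f : A →ₐ[K] Matrix (Fin n) (Fin n) Ω) (B : Basis (Fin M) k A) {T₀ : Finset (Place k)} {N₀ : ℕ}
    (hcore : H698.NoTarget f B T₀ N₀) :
    ∃ δ : SUA f →* HA A n (Adiv k K A), IsDiagonal δ ∧ DenseRange δ ∧
      ∀ (N : Subgroup (SUA f)) [N.Normal], N.index ≠ 0 → Group.IsSolvable (SUA f ⧸ N) ∧
        (IsOpenPreimage δ N ∨ ∃ Q H : Subgroup (SUA f), N ≤ Q ∧ DenseCentral δ Q H) := by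
  have := Vale.Agent.P011.H271.gff_of_isGlobal hk
  obtain ⟨δ, h1, h2, h3⟩ := q1_plus_of hk (by omega) hA f B fun N _ hi => by
    rcases H698.plus_of_FF hk hA hn f B (splitNS hA (by omega)) hcore N hi with
      h | ⟨Q, H, hQ, hH, hNQ, hQH, hHo, hp, hc, hd⟩
    · exact Or.inl h
    · refine Or.inr ⟨Q, H, hQ, hH, hHo, hNQ, hQH, hp, hc, fun V hV hQV => ?_⟩
      exact (hd V hV).trans (sup_le hQV le_rfl)
  exact ⟨δ, h1, h2, fun N _ hi => ⟨solvable_of_noTarget hk hA hn f B hcore N hi, h3 N hi⟩⟩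

end Vale.Agent.P011.H738
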