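import Vale.Agent.P011.H738.FBr4

/-!
**The group of rational points is dense in the product of the groups of points over the completions
at places of division type** (function fields), and the form of the conjecture.
-/

open Module Topology TensorProduct commutatorElement

namespace Vale.Agent.P011.H738

open Vale.Agent.P011.H271
open Vale.Agent.P011.H698 (UA ua_mul_star ua_inv ua_star_mul place_weak)

theorem denseRange_comp {k : Type} [Field k] (v : Place k) : DenseRange (algebraMap k v.comp) := by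
  intro x
  rw [Metric.mem_closure_iff]
  intro ε hε
  obtain ⟨b, hb⟩ :=
    (UniformSpace.Completion.denseRange_coe (α := WithAbs v.abv)).exists_dist_lt x hε
  exact ⟨_, ⟨WithAbs.ofAbs b, rfl⟩, hb⟩

section

variable {k K A Ω : Type} [Field k] [Field K] [StarRing K] [Ring A] [StarRing A] [Algebra k K]
  [Algebra k A] [Algebra K A] [IsScalarTower k K A] [StarModule K A] [Field Ω] [Algebra K Ω] {n : ℕ}

/-- The local data at a place of division type. -/
theorem exists_place_ext (hk : IsGlobalFunctionField k) (hn : n ≠ 0) (hA : Anis k K A n)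
    (f : A →ₐ[K] Matrix (Fin n) (Fin n) Ω) {v : Place k} (hv : v ∈ Adiv k K A)
    {σ : Av k A v →ₗ[v.comp] Av k A v} (hσ : ∀ y : A, σ (inAv k A v y) = inAv k A v (star y)) :
    ∃ (D : Type) (_ : NormedDivisionRing D) (ι : A →+* D) (pr : Av k A v →+* D),
      LocDat (k := k) f v.comp D ι ∧
      (∀ a : A, pr (inAv k A v a) = ι a) ∧
      (∀ (M : ℕ) (B : Basis (Fin M) k A), ∃ C : ℝ, 0 < C ∧ ∀ (z : Av k A v) (j : Fin M),
        ‖(avB B v).repr z j‖ ≤ C * (‖pr z‖ + ‖pr (σ z)‖)) ∧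
      (∀ y : Av k A v, NrdOne A n y →
        ∀ ε : ℝ, 0 < ε → ∃ c ∈ commutator Dˣ, ‖(c : D) - pr y‖ < ε) := by
  have := gff_of_isGlobal hk
  have := hA.finiteDimensional hn
  have := hA.nontrivial
  have := hA.central
  obtain ⟨φ, hφ⟩ := hv
  obtain ⟨D, hD1, hD2, ι, pr, h1, h2, h3, h4⟩ := @exists_local_ext k K A v.comp Ω _ _ _ _ _ _ _ _ _
    _ _ _ _ (ntComp v) _ _ _ _ _ n hA.fixed hA.star_ne (Nat.pos_of_ne_zero hn) hA.finrank_eq f φ hφ
    (denseRange_comp v)
  let pr' : Av k A v →ₐ[v.comp] D := pr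
  refine ⟨D, hD1, ι, pr'.toRingHom, h1, h2, fun M B => ?_, fun y hy ε hε => ?_⟩
  · obtain ⟨C, hC, h5⟩ := h3 M B
    refine ⟨C, hC, fun z j => ?_⟩
    have h6 := h5 (fun i => (avB B v).repr z i) j
    have h7 : (∑ i, ((avB B v).repr z i ⊗ₜ[k] B i : v.comp ⊗[k] A)) = z := by
      conv_rhs => rw [← (avB B v).sum_repr z]
      refine Finset.sum_congr rfl fun i _ => ?_
      rw [avB_apply, smul_inAv]
    have h8 : (∑ i, ((avB B v).repr z i ⊗ₜ[k] star (B i) : v.comp ⊗[k] A)) = σ z := by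
      conv_rhs => rw [← (avB B v).sum_repr z, map_sum]
      refine Finset.sum_congr rfl fun i _ => ?_
      rw [avB_apply, map_smul, hσ, smul_inAv]
    rw [h7, h8] at h6
    exact h6
  · exact h4 y (fun Ω' _ _ g => hy Ω' g) ε hε

omit [StarRing K] [StarModule K A] in
/-- The products of commutators of unitary elements have reduced norm one. -/
theorem commutator_mem_SUA (f : A →ₐ[K] Matrix (Fin n) (Fin n) Ω) {c : UA A}
    (hc : c ∈ commutator (UA A)) : (c : Aˣ) ∈ SUA f := by
  refine ⟨ua_mul_star c, ?_⟩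
  let d : UA A →* Ωˣ := (Units.map (Matrix.detMonoidHom.comp
    (f : A →* Matrix (Fin n) (Fin n) Ω))).comp (UA A).subtype
  have h1 : commutator (UA A) ≤ d.ker := Abelianization.commutator_subset_ker d
  have h2 := h1 hc
  rw [MonoidHom.mem_ker] at h2
  exact congrArg Units.val h2

/-- **Approximation** at finitely many places of division type. -/
theorem exists_near_HA (hk : IsGlobalFunctionField k) (hn : n ≠ 0) (hA : Anis k K A n)
    (f : A →ₐ[K] Matrix (Fin n) (Fin n) Ω) {S : Set (Place k)} (hS : S ⊆ Adiv k K A)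
    (T : Finset S) {M : ℕ} (B : Basis (Fin M) k A) (x : HA A n S) {ε : ℝ} (hε : 0 < ε) :
    ∃ g : SUA f, ∀ v ∈ T, ∀ i,
      ‖(avB B v.1).repr (inAv k A v.1 ((g : Aˣ) : A) - x.at v) i‖ < ε := by
  classical
  have := hA.finiteDimensional hn
  have := hA.nontrivial
  have := hA.central
  choose σ hσ using fun v : T => exists_sigma (A := A) hA.fixed (v : S).1
  choose D hD ι pr hL hpr hco hcm using fun v : T =>
    exists_place_ext hk hn hA f (hS (v : S).2) (hσ v)
  choose C hC hco using fun v : T => hco v M B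
  let y : ∀ v : T, (D v)ˣ := fun v => Units.map (pr v : Av k A (v : S).1 →* D v)
    (Subtype.val (show Gv A (v : S).1 n from x (v : S)))
  have hy : ∀ v, ((y v : (D v)ˣ) : D v) = pr v (x.at (v : S)) := fun v => rfl
  have hy' : ∀ v, (((y v)⁻¹ : (D v)ˣ) : D v) = pr v (σ v (x.at (v : S))) := fun v => by
    have h1 := Gv_inv (hσ v) (show Gv A (v : S).1 n from x (v : S)).2
    have h2 : (((y v)⁻¹ : (D v)ˣ) : D v) = pr v
      (((Subtype.val (show Gv A (v : S).1 n from x (v : S)))⁻¹ : (Av k A (v : S).1)ˣ) :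
        Av k A (v : S).1) := rfl
    rw [h2, h1]
    rfl
  have hinj : Function.Injective fun v : T => (v : S).1 := fun v w h =>
    Subtype.ext (Subtype.ext h)
  let T' : Finset (Place k) := T.image Subtype.val
  have hWA : ∀ (y : ∀ v : T, (v : S).1.comp) (η : ℝ), 0 < η →
      ∃ a : k, ∀ v : T, ‖algebraMap k (v : S).1.comp a - y v‖ < η := by
    intro y η hη
    have hT' : ∀ w : T', ∃ v : T, (v : S).1 = w := fun w => by
      obtain ⟨v, hv, hvw⟩ := Finset.mem_image.mp w.2
      exact ⟨⟨v, hv⟩, hvw⟩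
    choose e he using hT'
    obtain ⟨a, ha⟩ := place_weak T' (fun w => (he w) ▸ y (e w)) hη
    refine ⟨a, fun v => ?_⟩
    have hv : (v : S).1 ∈ T' := Finset.mem_image_of_mem _ v.2
    have h1 := ha ⟨(v : S).1, hv⟩
    have h2 : e ⟨(v : S).1, hv⟩ = v := hinj (he _)
    have h3 : ∀ (u : T) (hu : (u : S).1 = (v : S).1), u = v → (hu ▸ y u : (v : S).1.comp) = y v := by
      intro u hu huv
      subst huv
      rfl
    rw [h3 _ (he ⟨(v : S).1, hv⟩) h2] at h1
    exact h1
  obtain ⟨c, hc, h1⟩ := exists_commutator_two (k := k) (F := fun v : T => (v : S).1.comp) ι f hL hWA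
    hA.fixed hA.star_ne hA.anisotropic (y := y)
    (fun v ε hε => hcm v _ (show Gv A (v : S).1 n from x (v : S)).2.2 ε hε)
    (ε := fun v => ε / C v) (fun v => div_pos hε (hC v))
  refine ⟨⟨(c : Aˣ), commutator_mem_SUA f hc⟩, fun v hv i => ?_⟩
  have h2 := hco ⟨v, hv⟩ (inAv k A v.1 ((c : Aˣ) : A) - x.at v) i
  refine h2.trans_lt ?_
  have h3 := h1 ⟨v, hv⟩
  rw [map_sub, map_sub, map_sub, hσ, hpr, hpr]
  rw [hy, hy', lt_div_iff₀ (hC _), mul_comm] at h3
  exact h3

/-- **The rational points are dense.** -/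
theorem denseRange_diag (hk : IsGlobalFunctionField k) (hn : n ≠ 0) (hA : Anis k K A n)
    (f : A →ₐ[K] Matrix (Fin n) (Fin n) Ω) {S : Set (Place k)} (hS : S ⊆ Adiv k K A)
    [FiniteDimensional k A] {δ : SUA f →* HA A n S} (hδ : IsDiagonal δ) : DenseRange δ := by
  intro x
  rw [mem_closure_iff]
  intro O hO hx
  obtain ⟨T, ε, hε, h1⟩ := exists_ball_HA hA.fixed (Module.finBasis k A) hO hx
  obtain ⟨g, hg⟩ := exists_near_HA hk hn hA f hS T (Module.finBasis k A) x hε
  refine ⟨δ g, h1 _ fun v hv i => ?_, ⟨g, rfl⟩⟩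
  rw [hδ]
  exact hg v hv i

/-- **From elements close to one to open preimages.** -/
theorem isOpenPreimage_of_near (hk : IsGlobalFunctionField k) (hn : n ≠ 0) (hA : Anis k K A n)
    (f : A →ₐ[K] Matrix (Fin n) (Fin n) Ω) {S : Set (Place k)} (hS : S ⊆ Adiv k K A)
    [FiniteDimensional k A] {δ : SUA f →* HA A n S} (hδ : IsDiagonal δ) {M : ℕ}
    (B : Basis (Fin M) k A) {N : Subgroup (SUA f)} (hN : N.index ≠ 0)
    {T : Finset (Place k)} (hT : ∀ v ∈ T, v ∈ S) {ε : ℝ} (hε : 0 < ε)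
    (h : ∀ g : SUA f, (∀ v ∈ T, ∀ i, v.abv (B.repr (((g : Aˣ) : A) - 1) i) < ε) → g ∈ N) :
    IsOpenPreimage δ N := by
  classical
  have := isTopologicalGroup_HA (A := A) (n := n) (S := S)
  let V : Set (HA A n S) := {y | ∀ v : S, v.1 ∈ T → ∀ i,
    ‖(avB B v.1).repr (y.at v - 1) i‖ < ε}
  have hV : IsOpen V := by
    let T' : Finset S := T.attach.image fun v => ⟨v.1, hT v.1 v.2⟩
    have h1 : V = ⋂ v ∈ T', ⋂ i, {y : HA A n S | ‖(avB B v.1).repr (y.at v - 1) i‖ < ε} := by
      ext y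
      simp only [Set.mem_iInter]
      constructor
      · intro hy v hv i
        obtain ⟨w, hw, rfl⟩ := Finset.mem_image.mp hv
        exact hy _ w.2 i
      · intro hy v hv i
        exact hy v (Finset.mem_image.mpr ⟨⟨v.1, hv⟩, Finset.mem_attach _ _, rfl⟩) i
    rw [h1]
    refine isOpen_biInter_finset fun v _ => isOpen_iInter_of_finite fun i => ?_
    exact isOpen_near hA.fixed B v i ε
  have hVm : ∀ g : SUA f, δ g ∈ V → g ∈ N := by
    intro g hg
    refine h g fun v hv i => ?_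
    have h1 := hg ⟨v, hT v hv⟩ hv i
    rw [hδ, ← map_one (inAv k A v), ← map_sub, norm_avB_repr] at h1
    exact h1
  let U : Set (HA A n S) := ⋃ m : N, (fun y => (δ (m : SUA f))⁻¹ * y) ⁻¹' V
  have hU : IsOpen U := isOpen_iUnion fun m =>
    hV.preimage (continuous_const.mul continuous_id)
  refine Vale.Agent.P011.One.q1_abs δ (denseRange_diag hk hn hA f hS hδ) N hN hU ?_
  ext g
  rw [Set.mem_preimage, Set.mem_iUnion]
  constructor
  · rintro ⟨m, hm⟩
    rw [Set.mem_preimage, ← map_inv, ← map_mul] at hm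
    have h1 := N.mul_mem m.2 (hVm _ hm)
    rwa [mul_inv_cancel_left] at h1
  · intro hg
    refine ⟨⟨g, hg⟩, ?_⟩
    rw [Set.mem_preimage, inv_mul_cancel]
    intro v _ i
    have h1 : HA.at (1 : HA A n S) v = (1 : Av k A v.1) := rfl
    rw [h1, sub_self, map_zero, Finsupp.zero_apply, norm_zero]
    exact hε

/-- **From open preimages to elements close to one.** -/
theorem near_of_isOpen (hA : Anis k K A n)
    (f : A →ₐ[K] Matrix (Fin n) (Fin n) Ω) {S : Set (Place k)}
    [FiniteDimensional k A] {δ : SUA f →* HA A n S} (hδ : IsDiagonal δ) {M : ℕ}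
    (B : Basis (Fin M) k A) {W : Subgroup (HA A n S)} (hW : IsOpen (W : Set (HA A n S))) :
    ∃ T : Finset (Place k), (∀ v ∈ T, v ∈ S) ∧ ∃ ε : ℝ, 0 < ε ∧
      ∀ g : SUA f, (∀ v ∈ T, ∀ i, v.abv (B.repr (((g : Aˣ) : A) - 1) i) < ε) → g ∈ W.comap δ := by
  classical
  obtain ⟨T, ε, hε, h1⟩ := exists_ball_HA hA.fixed B hW (one_mem W)
  refine ⟨T.image Subtype.val, fun v hv => ?_, ε, hε, fun g hg => ?_⟩
  · obtain ⟨w, hw, rfl⟩ := Finset.mem_image.mp hv
    exact w.2
  · rw [Subgroup.mem_comap]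
    refine h1 _ fun v hv i => ?_
    have h2 := hg v.1 (Finset.mem_image_of_mem _ hv) i
    have h3 : HA.at (1 : HA A n S) v = (1 : Av k A v.1) := rfl
    rw [hδ, h3, ← map_one (inAv k A v.1), ← map_sub, norm_avB_repr]
    exact h2

/-- **From open preimages to elements close to one.** -/
theorem near_of_isOpenPreimage (hA : Anis k K A n)
    (f : A →ₐ[K] Matrix (Fin n) (Fin n) Ω) {S : Set (Place k)}
    [FiniteDimensional k A] {δ : SUA f →* HA A n S} (hδ : IsDiagonal δ) {M : ℕ}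
    (B : Basis (Fin M) k A) {V : Subgroup (SUA f)} (hV : IsOpenPreimage δ V) :
    ∃ T : Finset (Place k), (∀ v ∈ T, v ∈ S) ∧ ∃ ε : ℝ, 0 < ε ∧
      ∀ g : SUA f, (∀ v ∈ T, ∀ i, v.abv (B.repr (((g : Aˣ) : A) - 1) i) < ε) → g ∈ V := by
  obtain ⟨W, hW, rfl, -⟩ := hV
  exact near_of_isOpen hA f hδ B hW

/-- `H` is a normal subgroup of `G(k)`, the preimage of an open subgroup of `H_A`, and `Q` is a
normal subgroup of `G(k)` contained in `H`, of prime index in `H`, such that `H / Q` is central in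
`G(k) / Q` and `Q` is dense in `H`: every subgroup which contains `Q` and is the preimage of an open
subgroup of `H_A` contains `H`. -/
structure DenseCentral {f : A →ₐ[K] Matrix (Fin n) (Fin n) Ω} {S : Set (Place k)}
    (δ : SUA f →* HA A n S) (Q H : Subgroup (SUA f)) : Prop where
  /-- `Q` is normal -/
  normal : Q.Normal
  /-- `H` is normal -/
  normal' : H.Normal
  /-- `H` is open -/
  isOpen : IsOpenPreimage δ H
  /-- `Q` lies in `H` -/
  le : Q ≤ H
  /-- with prime index -/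
  prime : (Q.relIndex H).Prime
  /-- the quotient is central -/
  comm_mem : ∀ g : SUA f, ∀ x ∈ H, ⁅g, x⁆ ∈ Q
  /-- `Q` is dense in `H` -/
  dense : ∀ V : Subgroup (SUA f), Q ≤ V → IsOpenPreimage δ V → H ≤ V

end

end Vale.Agent.P011.H738
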