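import Vale.Agent.P011.H738.FDefs
import Vale.Agent.P011.H268.Nrd
import Vale.Agent.P011.H519.SplitPlaceK
import Mathlib.FieldTheory.IsAlgClosed.AlgebraicClosure

/-!
A homomorphism of algebras over the fixed field from a central simple algebra of degree `n` with
involution of the second kind to the `n × n` matrices over a field maps the centre to scalars; the
elements of reduced norm one have reduced norm one in the completions.
-/

open Module TensorProduct

set_option linter.unusedSectionVars false

namespace Vale.Agent.P011.H738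

section scal

variable {k K A : Type} [Field k] [Field K] [StarRing K] [Ring A] [Algebra k K] [Algebra k A]
  [Algebra K A] [IsScalarTower k K A] [Algebra.IsCentral K A] [IsSimpleRing A] {n : ℕ}

/-- The elements of `K` are combinations of one and an element which is not fixed. -/
theorem exists_comb (hfix : ∀ x : K, star x = x ↔ x ∈ Set.range (algebraMap k K)) {u : K}
    (hu : star u ≠ u) (y : K) : ∃ a b : k, y = algebraMap k K a + algebraMap k K b * u := by
  have hu' : u - star u ≠ 0 := sub_ne_zero.mpr fun h => hu h.symm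
  have hk : ∀ a : k, star (algebraMap k K a) = algebraMap k K a := fun a =>
    (hfix _).mpr ⟨a, rfl⟩
  obtain ⟨b, hb⟩ := (hfix ((y - star y) / (u - star u))).mp (by
    rw [star_div₀, star_sub, star_sub, star_star, star_star, ← neg_sub y, ← neg_sub u,
      neg_div_neg_eq])
  have hb' : y - star y = algebraMap k K b * (u - star u) := by
    rw [hb, div_mul_cancel₀ _ hu']
  obtain ⟨a, ha⟩ := (hfix (y - algebraMap k K b * u)).mp (by
    rw [star_sub, star_mul', hk]
    linear_combination -hb')
  exact ⟨a, b, by rw [ha, sub_add_cancel]⟩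

/-- Over an algebraically closed field. -/
theorem scal_closed (hfix : ∀ x : K, star x = x ↔ x ∈ Set.range (algebraMap k K)) {w : K}
    (hw : star w ≠ w) (hn : 0 < n) (hdeg : finrank K A = n ^ 2) {Ω : Type}
    [Field Ω] [Algebra k Ω] [IsAlgClosed Ω] (g : A →ₐ[k] Matrix (Fin n) (Fin n) Ω) :
    ∃ r : Ω, g (algebraMap K A w) = algebraMap Ω _ r := by
  classical
  have hKf : FiniteDimensional k K := (H519.quad hfix ⟨w, hw⟩).1
  have hAf : FiniteDimensional K A := FiniteDimensional.of_finrank_pos (by rw [hdeg]; positivity)
  have _ : Nonempty (Fin n) := ⟨⟨0, hn⟩⟩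
  let φ : K →ₐ[k] Ω := IsAlgClosed.lift
  let _ : Algebra K Ω := φ.toRingHom.toAlgebra
  have htow : IsScalarTower k K Ω := IsScalarTower.of_algebraMap_eq fun c => (φ.commutes c).symm
  obtain ⟨t, ht⟩ := (hfix (w + star w)).mp (by rw [star_add, star_star, add_comm])
  obtain ⟨m, hm⟩ := (hfix (w * star w)).mp (by rw [star_mul', star_star, mul_comm])
  -- the quadratic equation
  have hA2 : algebraMap K A w * algebraMap K A w =
      algebraMap k A t * algebraMap K A w - algebraMap k A m := by
    rw [IsScalarTower.algebraMap_apply k K A, IsScalarTower.algebraMap_apply k K A, ht, hm,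
      ← map_mul, ← map_mul, ← map_sub]
    congr 1
    ring
  have hφt : algebraMap k Ω t = φ w + φ (star w) := by rw [← φ.commutes, ht, map_add]
  have hφm : algebraMap k Ω m = φ w * φ (star w) := by rw [← φ.commutes, hm, map_mul]
  -- the eigenspace
  let T : (Fin n → Ω) →ₗ[Ω] (Fin n → Ω) := Matrix.toLin' (g (algebraMap K A w))
  have h2 : ∀ (e : k) (u : Fin n → Ω), Matrix.toLin' (algebraMap k _ e) u =
      algebraMap k Ω e • u := by
    intro e u
    rw [Matrix.toLin'_apply, Matrix.algebraMap_eq_diagonal]
    ext i
    rw [Matrix.mulVec_diagonal]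
    rfl
  have hTT : ∀ u, T (T u) = (φ w + φ (star w)) • T u - (φ w * φ (star w)) • u := by
    intro u
    change Matrix.toLin' _ (Matrix.toLin' _ u) = _
    rw [← Matrix.toLin'_mul_apply, ← map_mul, hA2, map_sub, map_mul, map_sub, LinearMap.sub_apply,
      Matrix.toLin'_mul_apply, g.commutes, g.commutes, h2, h2, hφt, hφm]
  let V : Submodule Ω (Fin n → Ω) := LinearMap.ker (T - algebraMap Ω _ (φ w))
  have hV : ∀ x : A, ∀ u ∈ V, Matrix.toLin' (g x) u ∈ V := by
    intro x u hu
    rw [LinearMap.mem_ker] at hu ⊢
    rw [LinearMap.sub_apply, Module.algebraMap_end_apply, sub_eq_zero] at hu ⊢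
    have h1 : T (Matrix.toLin' (g x) u) = Matrix.toLin' (g x) (T u) := by
      change Matrix.toLin' _ (Matrix.toLin' _ u) = Matrix.toLin' _ (Matrix.toLin' _ u)
      rw [← Matrix.toLin'_mul_apply, ← Matrix.toLin'_mul_apply, ← map_mul, ← map_mul,
        Algebra.commutes]
    rw [h1, hu, map_smul]
  have hVs : ∀ u ∈ V, T u = φ w • u := by
    intro u hu
    rw [LinearMap.mem_ker, LinearMap.sub_apply, Module.algebraMap_end_apply, sub_eq_zero] at hu
    exact hu
  by_cases hb : V = ⊥
  · refine ⟨φ (star w), ?_⟩
    have h1 : ∀ u, T u - φ (star w) • u ∈ V := by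
      intro u
      rw [LinearMap.mem_ker, LinearMap.sub_apply, Module.algebraMap_end_apply, map_sub, map_smul,
        hTT, smul_sub, smul_smul, add_smul]
      abel
    have h3 : ∀ u, T u = φ (star w) • u := by
      intro u
      have h4 := h1 u
      rw [hb, Submodule.mem_bot, sub_eq_zero] at h4
      exact h4
    apply (Matrix.toLin' (R := Ω) (m := Fin n) (n := Fin n)).injective
    refine LinearMap.ext fun u => (h3 u).trans ?_
    rw [Matrix.toLin'_apply, Matrix.algebraMap_eq_diagonal]
    ext i
    rw [Matrix.mulVec_diagonal]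
    rfl
  · refine ⟨φ w, ?_⟩
    have hnt : Nontrivial V := Submodule.nontrivial_iff_ne_bot.mpr hb
    let ρ : A →ₐ[K] Module.End Ω V :=
      { toFun := fun x => (Matrix.toLin' (g x)).restrict (hV x)
        map_one' := by
          refine LinearMap.ext fun u => Subtype.ext ?_
          rw [LinearMap.coe_restrict_apply, map_one, Matrix.toLin'_one]
          rfl
        map_mul' := fun x y => by
          refine LinearMap.ext fun u => Subtype.ext ?_
          rw [LinearMap.coe_restrict_apply, map_mul, Matrix.toLin'_mul_apply]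
          rfl
        map_zero' := by
          refine LinearMap.ext fun u => Subtype.ext ?_
          rw [LinearMap.coe_restrict_apply, map_zero, map_zero]
          rfl
        map_add' := fun x y => by
          refine LinearMap.ext fun u => Subtype.ext ?_
          rw [LinearMap.coe_restrict_apply, map_add, map_add]
          rfl
        commutes' := fun c => by
          refine LinearMap.ext fun u => Subtype.ext ?_
          rw [LinearMap.coe_restrict_apply]
          obtain ⟨a, b, hab⟩ := exists_comb hfix hw c
          have h1 : g (algebraMap K A c) = algebraMap k _ a + algebraMap k _ b *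
              g (algebraMap K A w) := by
            rw [hab, map_add, map_mul, ← IsScalarTower.algebraMap_apply k K A,
              ← IsScalarTower.algebraMap_apply k K A, map_add, map_mul, g.commutes, g.commutes]
          have h3 : φ c = algebraMap k Ω a + algebraMap k Ω b * φ w := by
            rw [hab, map_add, map_mul, φ.commutes, φ.commutes]
          have h4 : ((algebraMap K (Module.End Ω V) c u : V) : Fin n → Ω) =
              φ c • (u : Fin n → Ω) := by
            rw [Module.algebraMap_end_apply]
            ext i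
            change c • ((u : Fin n → Ω) i) = _
            rw [Algebra.smul_def]
            rfl
          have h5 : Matrix.toLin' (g (algebraMap K A w)) (u : Fin n → Ω) = φ w • (u : Fin n → Ω) :=
            hVs _ u.2
          rw [h1, h4, map_add, LinearMap.add_apply, Matrix.toLin'_mul_apply, h2, h2,
            h5, h3, add_smul, mul_smul] }
    let Θ : Ω ⊗[K] A →ₐ[Ω] Module.End Ω V :=
      Algebra.TensorProduct.lift (Algebra.ofId Ω _) ρ fun x y =>
        show Commute _ _ from Algebra.commutes x (ρ y)
    have hsimp : IsSimpleRing (Ω ⊗[K] A) := Vale.Agent.P011.H268.isSimpleRing_baseChange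
    have hinj : Function.Injective Θ.toLinearMap := RingHom.injective Θ.toRingHom
    have h1 := LinearMap.finrank_le_finrank_of_injective hinj
    rw [Module.finrank_baseChange, hdeg, Module.finrank_linearMap] at h1
    have h2 : finrank Ω V ≤ n := by
      have h3 := Submodule.finrank_le V
      rwa [Module.finrank_fin_fun] at h3
    have h3 : finrank Ω V = n := by
      refine le_antisymm h2 ?_
      by_contra h4
      rw [not_le] at h4
      nlinarith
    have h4 : V = ⊤ := Submodule.eq_top_of_finrank_eq (by rw [h3, Module.finrank_fin_fun])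
    apply (Matrix.toLin' (R := Ω) (m := Fin n) (n := Fin n)).injective
    refine LinearMap.ext fun u => (hVs u (h4 ▸ Submodule.mem_top)).trans ?_
    rw [Matrix.toLin'_apply, Matrix.algebraMap_eq_diagonal]
    ext i
    rw [Matrix.mulVec_diagonal]
    rfl

/-- **The centre maps to scalars.** -/
theorem exists_scal (hfix : ∀ x : K, star x = x ↔ x ∈ Set.range (algebraMap k K))
    (hne : ∃ x : K, star x ≠ x) (hn : 0 < n) (hdeg : finrank K A = n ^ 2) {Ω : Type}
    [Field Ω] [Algebra k Ω] (g : A →ₐ[k] Matrix (Fin n) (Fin n) Ω) :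
    ∃ ι : K →+* Ω, ∀ c : K, g (algebraMap K A c) = algebraMap Ω _ (ι c) := by
  classical
  obtain ⟨w, hw⟩ := hne
  let i0 : Fin n := ⟨0, hn⟩
  have hnE : Nonempty (Fin n) := ⟨i0⟩
  let i : Ω →ₐ[k] AlgebraicClosure Ω := IsScalarTower.toAlgHom k Ω (AlgebraicClosure Ω)
  have hent : ∀ c : K, g (algebraMap K A c) =
      algebraMap Ω (Matrix (Fin n) (Fin n) Ω) (g (algebraMap K A c) i0 i0) := by
    have h1 : g (algebraMap K A w) =
        algebraMap Ω (Matrix (Fin n) (Fin n) Ω) (g (algebraMap K A w) i0 i0) := by
      obtain ⟨r, hr⟩ := scal_closed hfix hw hn hdeg (i.mapMatrix.comp g)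
      ext a b
      have h2 := congrFun (congrFun hr a) b
      have h3 := congrFun (congrFun hr i0) i0
      rw [AlgHom.comp_apply, AlgHom.mapMatrix_apply, Matrix.map_apply,
        Matrix.algebraMap_matrix_apply] at h2 h3
      rw [if_pos rfl] at h3
      rw [Matrix.algebraMap_matrix_apply]
      apply i.toRingHom.injective
      change i _ = i _
      rw [h2]
      split_ifs with h
      · exact h3.symm
      · rw [map_zero]
    intro c
    obtain ⟨a, b, hab⟩ := exists_comb hfix hw c
    have h2 : ∀ e : k, algebraMap k (Matrix (Fin n) (Fin n) Ω) e =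
        algebraMap Ω (Matrix (Fin n) (Fin n) Ω) (algebraMap k Ω e) := fun e => rfl
    have h3 : g (algebraMap K A c) = algebraMap Ω (Matrix (Fin n) (Fin n) Ω)
        (algebraMap k Ω a + algebraMap k Ω b * g (algebraMap K A w) i0 i0) := by
      rw [map_add, map_mul, ← h1, ← h2, ← h2, hab, map_add, map_mul, map_add, map_mul,
        ← IsScalarTower.algebraMap_apply k K A, ← IsScalarTower.algebraMap_apply k K A, g.commutes,
        g.commutes]
    rw [h3]
    congr 1
  have hinj : Function.Injective (algebraMap Ω (Matrix (Fin n) (Fin n) Ω)) :=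
    (algebraMap Ω (Matrix (Fin n) (Fin n) Ω)).injective
  refine ⟨{ toFun := fun c => g (algebraMap K A c) i0 i0, map_one' := ?_, map_mul' := ?_,
            map_zero' := ?_, map_add' := ?_ }, hent⟩
  · apply hinj
    rw [← hent, map_one, map_one, map_one]
  · intro x y
    apply hinj
    rw [← hent, map_mul, map_mul, map_mul, ← hent, ← hent]
  · apply hinj
    rw [← hent, map_zero, map_zero, map_zero]
  · intro x y
    apply hinj
    rw [← hent, map_add, map_add, map_add, ← hent, ← hent]

/-- Elements of reduced norm one have determinant one under every homomorphism over `k`. -/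
theorem det_eq_one_of (hfix : ∀ x : K, star x = x ↔ x ∈ Set.range (algebraMap k K))
    (hne : ∃ x : K, star x ≠ x) (hn : 0 < n) (hdeg : finrank K A = n ^ 2) {Ω Ω' : Type}
    [Field Ω] [Algebra k Ω] (g : A →ₐ[k] Matrix (Fin n) (Fin n) Ω) [Field Ω'] [Algebra K Ω']
    (f : A →ₐ[K] Matrix (Fin n) (Fin n) Ω') {x : A} (hx : (f x).det = 1) : (g x).det = 1 := by
  have hAf : FiniteDimensional K A := FiniteDimensional.of_finrank_pos (by rw [hdeg]; positivity)
  obtain ⟨ι, hι⟩ := exists_scal hfix hne hn hdeg g
  let _ : Algebra K Ω := ι.toAlgebra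
  let g' : A →ₐ[K] Matrix (Fin n) (Fin n) Ω := { g with commutes' := fun c => hι c }
  have h1 := Vale.Agent.P011.H268.det_compare hn hdeg f g' x (ν := 1) (by rw [hx, map_one])
  rw [map_one] at h1
  exact h1

end scal

section

variable {k K A Ω : Type} [Field k] [Field K] [StarRing K] [Ring A] [StarRing A] [Algebra k K]
  [Algebra k A] [Algebra K A] [IsScalarTower k K A] [StarModule K A] [Field Ω] [Algebra K Ω]
  {n : ℕ}

/-- The elements of `G(k)` are in `G(k_v)`. -/
theorem inAv_mem (hA : Anis k K A n) (hn : n ≠ 0) (f : A →ₐ[K] Matrix (Fin n) (Fin n) Ω)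
    (v : Place k) {g : Aˣ} (hg : g ∈ SUA f) : Units.map (inAv k A v).toMonoidHom g ∈ Gv A v n := by
  have := hA.central
  have := hA.simple
  refine ⟨fun σ hσ => ?_, fun Ω' _ _ F => ?_⟩
  · change inAv k A v (g : A) * σ (inAv k A v (g : A)) = 1
    rw [hσ, ← map_mul, hg.1, map_one]
  · let _ : Algebra k Ω' := ((algebraMap v.comp Ω').comp (algebraMap k v.comp)).toAlgebra
    have ht : IsScalarTower k v.comp Ω' := IsScalarTower.of_algebraMap_eq fun _ => rfl
    let F' : v.comp ⊗[k] A →ₐ[v.comp] Matrix (Fin n) (Fin n) Ω' := F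
    let g' : A →ₐ[k] Matrix (Fin n) (Fin n) Ω' :=
      (F'.restrictScalars k).comp Algebra.TensorProduct.includeRight
    exact det_eq_one_of hA.fixed hA.star_ne (Nat.pos_of_ne_zero hn) hA.finrank_eq g' f hg.2

/-- The diagonal map. -/
theorem exists_diag (hA : Anis k K A n) (hn : n ≠ 0) (f : A →ₐ[K] Matrix (Fin n) (Fin n) Ω)
    (S : Set (Place k)) : ∃ δ : SUA f →* HA A n S, IsDiagonal δ := by
  let d : ∀ v : S, SUA f →* Gv A (v : Place k) n := fun v =>
    ((Units.map (inAv k A v).toMonoidHom).comp (SUA f).subtype).codRestrict _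
      fun g => inAv_mem hA hn f v g.2
  exact ⟨MonoidHom.pi (f := fun v : S => GTop A (v : Place k) n) fun v => d v, fun g v => rfl⟩

end

end Vale.Agent.P011.H738
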