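import Vale.Agent.P011.H738.FBr1
import Vale.Agent.P011.H738.LocDensFF

/-!
The elements of reduced norm one over the completions at finitely many places of division type are
limits of products of commutators of unitary elements.
-/

open Module Topology TensorProduct commutatorElement

namespace Vale.Agent.P011.H738

open Vale.Agent.P011.H271
open Vale.Agent.P011.H698 (UA ua_mul_star ua_inv ua_star_mul place_weak)

section

variable {k K A Ω : Type} [Field k] [Field K] [StarRing K] [Ring A] [StarRing A] [Algebra k K]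
  [Algebra k A] [Algebra K A] [IsScalarTower k K A] [StarModule K A] [FiniteDimensional K A]
  [Nontrivial A] [Algebra.IsCentral K A] [Field Ω] [Algebra K Ω] {n : ℕ}

/-- Limits of products of commutators at each place are limits of products of commutators of
unitary elements. -/
theorem mem_closure_theta {S : Type} [Finite S] {F : S → Type} [∀ v, NormedField (F v)]
    [∀ v, Algebra k (F v)] {D : S → Type} [∀ v, NormedDivisionRing (D v)]
    (ι : ∀ v, A →+* D v) (f : A →ₐ[K] Matrix (Fin n) (Fin n) Ω)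
    (L : ∀ v, LocDat (k := k) f (F v) (D v) (ι v))
    (hWA : ∀ (y : ∀ v, F v) (η : ℝ), 0 < η → ∃ a : k, ∀ v, ‖algebraMap k (F v) a - y v‖ < η)
    (fixed : ∀ x : K, star x = x ↔ x ∈ Set.range (algebraMap k K))
    (star_ne : ∃ x : K, star x ≠ x) (haniso : ∀ x : A, star x * x = 0 → x = 0)
    {y : ∀ v, (D v)ˣ}
    (hy : ∀ v, ∀ ε : ℝ, 0 < ε → ∃ c ∈ commutator (D v)ˣ, ‖(c : D v) - (y v : D v)‖ < ε) :
    y ∈ closure (theta ι '' (commutator (UA A) : Set (UA A))) := by
  have hd := denseRange_theta ι f L hWA fixed star_ne haniso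
  set C : Subgroup (∀ v, (D v)ˣ) := ((commutator (UA A)).map (theta ι)).topologicalClosure with hC
  have hCc : (C : Set (∀ v, (D v)ˣ)) = closure (theta ι '' (commutator (UA A) : Set (UA A))) := by
    rw [hC, Subgroup.topologicalClosure_coe, Subgroup.coe_map]
  have h1 : ∀ a b : ∀ v, (D v)ˣ, ⁅a, b⁆ ∈ C := by
    intro a b
    refine DenseRange.induction_on₂ (p := fun a b : ∀ v, (D v)ˣ => ⁅a, b⁆ ∈ C) hd ?_ ?_ a b
    · have h2 : IsClosed (C : Set (∀ v, (D v)ˣ)) := Subgroup.isClosed_topologicalClosure _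
      refine h2.preimage (f := fun q : (∀ v, (D v)ˣ) × (∀ v, (D v)ˣ) => ⁅q.1, q.2⁆) ?_
      simp only [commutatorElement_def]
      fun_prop
    · intro u w
      refine Subgroup.le_topologicalClosure _ ⟨⁅u, w⁆, ?_, map_commutatorElement _ _ _⟩
      exact Subgroup.commutator_mem_commutator (Subgroup.mem_top _) (Subgroup.mem_top _)
  have h2 : commutator (∀ v, (D v)ˣ) ≤ C := by
    rw [commutator_def, Subgroup.commutator_le]
    intro a _ b _
    exact h1 a b
  have h3 : ∀ c : ∀ v, (D v)ˣ, (∀ v, c v ∈ commutator (D v)ˣ) → c ∈ C := by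
    intro c hc
    apply h2
    have h4 := Subgroup.commutator_pi_pi_of_finite (fun v => (⊤ : Subgroup (D v)ˣ))
      (fun v => (⊤ : Subgroup (D v)ˣ))
    rw [Subgroup.pi_top] at h4
    rw [commutator_def, h4]
    intro v _
    exact hc v
  have hCcl : IsClosed (C : Set (∀ v, (D v)ˣ)) := Subgroup.isClosed_topologicalClosure _
  rw [← hCc, ← hCcl.closure_eq]
  have := Fintype.ofFinite S
  have hind : IsInducing (fun (y : ∀ v, (D v)ˣ) (v : S) => ((y v : (D v)ˣ) : D v)) :=
    IsInducing.piMap fun v => (Units.isEmbedding_val₀ (G₀ := D v)).isInducing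
  rw [hind.closure_eq_preimage_closure_image, Set.mem_preimage, Metric.mem_closure_iff]
  intro ε hε
  have h5 := fun v => hy v ε hε
  choose c hc hcn using h5
  refine ⟨_, ⟨c, h3 c hc, rfl⟩, ?_⟩
  rw [dist_pi_lt_iff hε]
  intro v
  rw [dist_comm, dist_eq_norm]
  exact hcn v

/-- Both the elements and their inverses can be approximated. -/
theorem exists_commutator_two {S : Type} [Finite S] {F : S → Type} [∀ v, NormedField (F v)]
    [∀ v, Algebra k (F v)] {D : S → Type} [∀ v, NormedDivisionRing (D v)]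
    (ι : ∀ v, A →+* D v) (f : A →ₐ[K] Matrix (Fin n) (Fin n) Ω)
    (L : ∀ v, LocDat (k := k) f (F v) (D v) (ι v))
    (hWA : ∀ (y : ∀ v, F v) (η : ℝ), 0 < η → ∃ a : k, ∀ v, ‖algebraMap k (F v) a - y v‖ < η)
    (fixed : ∀ x : K, star x = x ↔ x ∈ Set.range (algebraMap k K))
    (star_ne : ∃ x : K, star x ≠ x) (haniso : ∀ x : A, star x * x = 0 → x = 0)
    {y : ∀ v, (D v)ˣ}
    (hy : ∀ v, ∀ ε : ℝ, 0 < ε → ∃ c ∈ commutator (D v)ˣ, ‖(c : D v) - (y v : D v)‖ < ε)
    {ε : S → ℝ} (hε : ∀ v, 0 < ε v) :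
    ∃ c ∈ commutator (UA A), ∀ v,
      ‖ι v ((c : Aˣ) : A) - (y v : D v)‖ + ‖ι v (star ((c : Aˣ) : A)) - ((y v)⁻¹ : (D v)ˣ)‖ <
        ε v := by
  have h2 := mem_closure_theta ι f L hWA fixed star_ne haniso hy
  have h3 : ∀ᶠ z in 𝓝 y, ∀ v, ‖((z v : (D v)ˣ) : D v) - (y v : D v)‖ +
      ‖(((z v)⁻¹ : (D v)ˣ) : D v) - ((y v)⁻¹ : (D v)ˣ)‖ < ε v := by
    refine Filter.eventually_all.mpr fun v => ?_
    have h4 : Continuous fun z : ∀ v, (D v)ˣ => ‖((z v : (D v)ˣ) : D v) - (y v : D v)‖ +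
      ‖(((z v)⁻¹ : (D v)ˣ) : D v) - ((y v)⁻¹ : (D v)ˣ)‖ := by
      have h5 : Continuous fun z : ∀ v, (D v)ˣ => z v := continuous_apply v
      exact (((Units.continuous_val.comp h5).sub continuous_const).norm.add
        ((Units.continuous_val.comp h5.inv).sub continuous_const).norm)
    have h8 := h4.tendsto y
    rw [sub_self, norm_zero, sub_self, norm_zero, add_zero] at h8
    exact h8.eventually (Iio_mem_nhds (hε v))
  obtain ⟨z, hz, ⟨c, hc, rfl⟩⟩ := mem_closure_iff_nhds.mp h2 _ h3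
  refine ⟨c, hc, fun v => ?_⟩
  have h4 := hz v
  have h5 : ι v (star ((c : Aˣ) : A)) = (((theta ι c v)⁻¹ : (D v)ˣ) : D v) := by
    rw [← ua_inv, ← theta_apply ι, map_inv]
    rfl
  rw [h5]
  exact h4

end

end Vale.Agent.P011.H738
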