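import Vale.Agent.P011.H738.FBr2

/-!
The embedding of `A` in a locally compact division algebra at a place of division type, extended to
the completion of `A`.
-/

open Module Topology TensorProduct commutatorElement

namespace Vale.Agent.P011.H738

section loc

variable {K A F Ω : Type} [Field K] [Ring A] [Algebra K A] [FiniteDimensional K A] [Nontrivial A]
  [Algebra.IsCentral K A]
  [NontriviallyNormedField F] [ProperSpace F] [IsUltrametricDist F]
  [Field Ω] [Algebra K Ω] {n : ℕ}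

/-- The embedding of `A` in a locally compact division algebra at a place of division type. -/
theorem exists_local3 (hn : 0 < n) (hA : finrank K A = n ^ 2)
    (f : A →ₐ[K] Matrix (Fin n) (Fin n) Ω) (φ : K →+* F)
    (hdiv : letI := φ.toAlgebra; ∀ x : F ⊗[K] A, x ≠ 0 → IsUnit x) :
    ∃ (D : Type) (_ : NormedDivisionRing D) (_ : NormedAlgebra F D)
      (ι : A →+* D),
      (∀ (N : ℕ) (b : Basis (Fin N) K A), ∃ C : ℝ, 0 < C ∧
        ∀ x j, ‖φ (b.repr x j)‖ ≤ C * ‖ι x‖) ∧
      (∀ x : A, (f x).det = 1 → ∀ ε : ℝ, 0 < ε → ∃ c ∈ commutator Dˣ, ‖(c : D) - ι x‖ < ε) ∧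
      (∀ (z : K) (y : D), Commute (ι (algebraMap K A z)) y) ∧
      (∀ (N : ℕ) (b : Basis (Fin N) K A) (y : D) (ε : ℝ), 0 < ε → ∃ (c : Fin N → F) (δ : ℝ),
        0 < δ ∧ ∀ a : Fin N → K, (∀ i, ‖φ (a i) - c i‖ < δ) →
          ‖ι (∑ i, a i • b i) - y‖ < ε) ∧
      (∀ ε : ℝ, 0 < ε → ∃ y : D, y ≠ 0 ∧ ‖y‖ < ε) ∧
      (∀ z : K, ι (algebraMap K A z) = algebraMap F D (φ z)) ∧
      (∀ y : D, (∀ (Ω' : Type) [Field Ω'] [Algebra F Ω']
          (g : D →ₐ[F] Matrix (Fin n) (Fin n) Ω'), (g y).det = 1) →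
        ∀ ε : ℝ, 0 < ε → ∃ c ∈ commutator Dˣ, ‖(c : D) - y‖ < ε) := by
  let _ := φ.toAlgebra
  have hnt : Nontrivial (F ⊗[K] A) :=
    Algebra.TensorProduct.nontrivial_of_algebraMap_injective_of_flat_left K F A
      (FaithfulSMul.algebraMap_injective K A)
  have hcen : Algebra.IsCentral F (F ⊗[K] A) := Vale.Agent.P011.H268.isCentral_baseChange
  let hD : DivisionRing (F ⊗[K] A) :=
    DivisionRing.ofIsUnitOrEqZero fun x => by
      by_cases h : x = 0
      · exact Or.inr h
      · exact Or.inl (hdiv x h)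
  let hN : NormedDivisionRing (F ⊗[K] A) := ndNormed F (D := F ⊗[K] A)
  have hU : IsUltrametricDist (F ⊗[K] A) := ndNormed_ultra F
  have hP : ProperSpace (F ⊗[K] A) := ndNormed_proper F
  let hAlg : NormedAlgebra F (F ⊗[K] A) := { (inferInstance : Algebra F (F ⊗[K] A)) with
    norm_smul_le := fun a x => by
      change nu F (a • x) ≤ ‖a‖ * nu F x
      rw [nu_smul] }
  have hnorm : ∀ x : F ⊗[K] A, ‖x‖ = nu F x := fun x => rfl
  have hfin : finrank F (F ⊗[K] A) = n ^ 2 := by rw [Module.finrank_baseChange, hA]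
  obtain ⟨M, _, i, j, hij⟩ := Vale.Agent.P011.H268.exists_common K F Ω
  let _ := i.toAlgebra
  let _ := (j.comp (algebraMap K Ω)).toAlgebra
  have : IsScalarTower K F M := IsScalarTower.of_algebraMap_eq fun z => by
    exact (RingHom.congr_fun hij z).symm
  let j' : Ω →ₐ[K] M := { j with commutes' := fun z => rfl }
  let f0 : F ⊗[K] A →ₐ[F] Matrix (Fin n) (Fin n) M :=
    AlgHom.liftEquiv K F A (Matrix (Fin n) (Fin n) M) (j'.mapMatrix.comp f)
  refine ⟨F ⊗[K] A, hN, hAlg,
    (Algebra.TensorProduct.includeRight : A →ₐ[K] F ⊗[K] A).toRingHom, ?_, ?_, ?_, ?_, ?_, ?_, ?_⟩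
  · intro N b
    let b' : Basis (Fin N) F (F ⊗[K] A) := Algebra.TensorProduct.basis F b
    obtain ⟨C, hC, h1⟩ := le_nu F b'
    refine ⟨C, hC, fun x j => ?_⟩
    have h2 : b'.equivFun (1 ⊗ₜ[K] x) j = φ (b.repr x j) := by
      rw [Basis.equivFun_apply, Algebra.TensorProduct.basis_repr_tmul, one_smul]
      rfl
    rw [← h2]
    exact (norm_le_pi_norm _ j).trans (h1 _)
  · intro x hx ε hε
    refine exists_commutator_near hn hfin f0 ?_ hε
    have h1 : f0 (1 ⊗ₜ x) = (f x).map j := by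
      change AlgHom.liftEquiv K F A (Matrix (Fin n) (Fin n) M) (j'.mapMatrix.comp f) (1 ⊗ₜ x) = _
      rw [AlgHom.liftEquiv_tmul, one_smul]
      rfl
    change (f0 (1 ⊗ₜ x)).det = 1
    rw [h1]
    have h2 := RingHom.map_det j (f x)
    rw [hx, map_one] at h2
    exact h2.symm
  · intro z y
    change (1 ⊗ₜ[K] algebraMap K A z) * y = y * (1 ⊗ₜ[K] algebraMap K A z)
    rw [← Algebra.TensorProduct.algebraMap_apply']
    exact Algebra.commutes _ _
  · intro N b y ε hε
    let b' : Basis (Fin N) F (F ⊗[K] A) := Algebra.TensorProduct.basis F b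
    obtain ⟨C, hC, h1⟩ := nu_le F b'
    refine ⟨b'.equivFun y, ε / C, by positivity, fun a ha => ?_⟩
    have h2 : ∀ x j, b'.equivFun (1 ⊗ₜ[K] x) j = φ (b.repr x j) := by
      intro x j
      rw [Basis.equivFun_apply, Algebra.TensorProduct.basis_repr_tmul, one_smul]
      rfl
    change nu F ((1 : F) ⊗ₜ[K] (∑ i, a i • b i) - y) < ε
    have h3 : ‖b'.equivFun ((1 : F) ⊗ₜ[K] (∑ i, a i • b i) - y)‖ < ε / C := by
      rw [pi_norm_lt_iff (by positivity)]
      intro i
      rw [map_sub, Pi.sub_apply, h2, b.repr_sum_self]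
      exact ha i
    refine (h1 _).trans_lt ?_
    rwa [lt_div_iff₀ hC, mul_comm] at h3
  · intro ε hε
    obtain ⟨c, hc0, hc⟩ := NormedField.exists_norm_lt F hε
    refine ⟨algebraMap F (F ⊗[K] A) c, ?_, ?_⟩
    · exact (map_ne_zero_iff _ (algebraMap F (F ⊗[K] A)).injective).mpr (norm_pos_iff.mp hc0)
    · change nu F (algebraMap F (F ⊗[K] A) c) < ε
      rw [nu_algebraMap]
      exact hc
  · intro z
    change (1 : F) ⊗ₜ[K] algebraMap K A z = (φ z) ⊗ₜ[K] (1 : A)
    rw [Algebra.algebraMap_eq_smul_one, TensorProduct.tmul_smul, TensorProduct.smul_tmul',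
      Algebra.smul_def, mul_one]
    rfl
  · intro y hy ε hε
    exact exists_commutator_near hn hfin f0 (hy M f0) hε

end loc

section full

variable {k K A F Ω : Type} [Field k] [Field K] [StarRing K] [Ring A] [StarRing A] [Algebra k K]
  [Algebra k A] [Algebra K A] [IsScalarTower k K A] [StarModule K A] [FiniteDimensional K A]
  [Nontrivial A] [Algebra.IsCentral K A]
  [NontriviallyNormedField F] [ProperSpace F] [IsUltrametricDist F] [Algebra k F]
  [Field Ω] [Algebra K Ω] {n : ℕ}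

/-- The embedding of `A` in a locally compact division algebra at a place of division type,
extended to the completion. -/
theorem exists_local_ext (fixed : ∀ x : K, star x = x ↔ x ∈ Set.range (algebraMap k K))
    (star_ne : ∃ x : K, star x ≠ x) (hn : 0 < n) (hA : finrank K A = n ^ 2)
    (f : A →ₐ[K] Matrix (Fin n) (Fin n) Ω) (φ : K →ₐ[k] F)
    (hdiv : letI := (φ : K →+* F).toAlgebra; ∀ x : F ⊗[K] A, x ≠ 0 → IsUnit x)
    (hdense : DenseRange (algebraMap k F)) :
    ∃ (D : Type) (_ : NormedDivisionRing D) (_ : NormedAlgebra F D)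
      (ι : A →+* D) (pr : F ⊗[k] A →ₐ[F] D), LocDat (k := k) f F D ι ∧
      (∀ a : A, pr (1 ⊗ₜ a) = ι a) ∧
      (∀ (M : ℕ) (B : Basis (Fin M) k A), ∃ C : ℝ, 0 < C ∧ ∀ (c : Fin M → F) (j : Fin M),
        ‖c j‖ ≤ C * (‖pr (∑ i, c i ⊗ₜ[k] B i)‖ + ‖pr (∑ i, c i ⊗ₜ[k] star (B i))‖)) ∧
      (∀ y : F ⊗[k] A, (∀ (Ω' : Type) [Field Ω'] [Algebra F Ω']
          (g : F ⊗[k] A →ₐ[F] Matrix (Fin n) (Fin n) Ω'), (g y).det = 1) →
        ∀ ε : ℝ, 0 < ε → ∃ c ∈ commutator Dˣ, ‖(c : D) - pr y‖ < ε) := by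
  obtain ⟨D, hD1, hD2, ι, h1, h2, h3, h4, h5, h6, h7⟩ := exists_local3 hn hA f (φ : K →+* F) hdiv
  have hιk : ∀ a : k, ι (algebraMap k A a) = algebraMap F D (algebraMap k F a) := fun a => by
    rw [IsScalarTower.algebraMap_apply k K A, h6]
    congr 1
    exact φ.commutes a
  let _ : Algebra k D := ((algebraMap F D).comp (algebraMap k F)).toAlgebra' fun c x =>
    Algebra.commutes (algebraMap k F c) x
  have hT : IsScalarTower k F D := IsScalarTower.of_algebraMap_eq fun _ => rfl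
  let ι' : A →ₐ[k] D := { ι with commutes' := hιk }
  let pr : F ⊗[k] A →ₐ[F] D := AlgHom.liftEquiv k F A D ι'
  have hpr : ∀ (c : F) (a : A), pr (c ⊗ₜ a) = c • ι a := fun c a => by
    change AlgHom.liftEquiv k F A D ι' (c ⊗ₜ a) = _
    rw [AlgHom.liftEquiv_tmul]
    rfl
  have hcoord := fun M (B : Basis (Fin M) k A) => coord_of_local fixed star_ne φ ι h1 M B
  refine ⟨D, hD1, hD2, ι, pr, ⟨hcoord, h2, h3, fun N b y ε hε => ?_, h5⟩, fun a => ?_,
    fun M B => ?_, fun y hy => ?_⟩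
  · obtain ⟨c, δ, hδ, h6⟩ := h4 N b y ε hε
    refine ⟨c, δ, hδ, fun a ha => ?_⟩
    have h7 : ∑ i, a i • b i = ∑ i, algebraMap k K (a i) • b i :=
      Finset.sum_congr rfl fun i _ => by rw [algebraMap_smul]
    rw [h7]
    refine h6 _ fun i => ?_
    have h8 : (φ : K →+* F) (algebraMap k K (a i)) = algebraMap k F (a i) := φ.commutes _
    rw [h8]
    exact ha i
  · rw [hpr, one_smul]
  · obtain ⟨C, hC, h8⟩ := hcoord M B
    refine ⟨C, hC, fun c j => ?_⟩
    have hd : DenseRange (fun (a : Fin M → k) (i : Fin M) => algebraMap k F (a i)) :=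
      DenseRange.piMap fun _ => hdense
    simp only [map_sum, hpr]
    refine hd.induction_on (p := fun c : Fin M → F => ‖c j‖ ≤ C * (‖∑ i, c i • ι (B i)‖ +
      ‖∑ i, c i • ι (star (B i))‖)) c ?_ fun a => ?_
    · refine isClosed_le ?_ ?_
      · exact (continuous_apply j).norm
      · fun_prop
    · have h9 := h8 (∑ i, a i • B i) j
      have h10 : B.repr (∑ i, a i • B i) j = a j := by rw [B.repr_sum_self]
      have h11 : ∀ x : Fin M → A, ι (∑ i, a i • x i) = ∑ i, algebraMap k F (a i) • ι (x i) := by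
        intro x
        rw [map_sum]
        refine Finset.sum_congr rfl fun i _ => ?_
        rw [Algebra.smul_def, map_mul, hιk, Algebra.smul_def]
      have h12 : star (∑ i, a i • B i) = ∑ i, a i • star (B i) := by
        rw [star_sum]
        refine Finset.sum_congr rfl fun i _ => ?_
        rw [← algebraMap_smul K, star_smul, (fixed _).mpr ⟨a i, rfl⟩, algebraMap_smul]
      rw [h10, h12, h11, h11] at h9
      exact h9
  · exact h7 (pr y) fun Ω' _ _ g => hy Ω' (g.comp pr)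

end full

end Vale.Agent.P011.H738
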