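import Vale.Agent.P011.H738.FBr3
import Vale.Agent.P011.One.Q1Abs

/-!
The topology of the group of points over the completions at a set of places.
-/

open Module Topology TensorProduct

namespace Vale.Agent.P011.H738

open Vale.Agent.P011.H271

section alg

variable {k A : Type} [Field k] [Ring A] [Algebra k A] {v : Place k}

theorem smul_inAv (c : v.comp) (a : A) : c • inAv k A v a = (c ⊗ₜ[k] a : v.comp ⊗[k] A) := by
  change c • ((1 : v.comp) ⊗ₜ[k] a : v.comp ⊗[k] A) = _
  rw [TensorProduct.smul_tmul', smul_eq_mul, mul_one]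

/-- The basis of the completion. -/
noncomputable def avB {M : ℕ} (B : Basis (Fin M) k A) (v : Place k) :
    Basis (Fin M) v.comp (Av k A v) :=
  Algebra.TensorProduct.basis v.comp B

theorem avB_apply {M : ℕ} (B : Basis (Fin M) k A) (i : Fin M) :
    avB B v i = inAv k A v (B i) :=
  Algebra.TensorProduct.basis_apply B i

theorem avB_repr {M : ℕ} (B : Basis (Fin M) k A) (x : A) (i : Fin M) :
    (avB B v).repr (inAv k A v x) i = algebraMap k v.comp (B.repr x i) := by
  have h1 := Algebra.TensorProduct.basis_repr_tmul B (1 : v.comp) x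
  have h2 : (avB B v).repr (inAv k A v x) =
      (Algebra.TensorProduct.basis v.comp B).repr ((1 : v.comp) ⊗ₜ[k] x) := rfl
  rw [h2, h1, one_smul]
  rfl

theorem norm_avB_repr {M : ℕ} (B : Basis (Fin M) k A) (x : A) (i : Fin M) :
    ‖(avB B v).repr (inAv k A v x) i‖ = v.abv (B.repr x i) := by
  rw [avB_repr, norm_alg]

theorem isModuleTopologyAv : IsModuleTopology v.comp (Av k A v) := ⟨rfl⟩

theorem moduleFiniteAv [FiniteDimensional k A] : Module.Finite v.comp (Av k A v) :=
  Module.Finite.of_basis (avB (Module.finBasis k A) v)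

theorem isTopologicalRingAv [FiniteDimensional k A] : IsTopologicalRing (Av k A v) := by
  have := isModuleTopologyAv (k := k) (A := A) (v := v)
  have := moduleFiniteAv (k := k) (A := A) (v := v)
  exact IsModuleTopology.isTopologicalRing v.comp _

theorem continuous_repr {M : ℕ} (B : Basis (Fin M) k A) (i : Fin M) :
    Continuous fun x : Av k A v => (avB B v).repr x i := by
  have := isModuleTopologyAv (k := k) (A := A) (v := v)
  exact IsModuleTopology.continuous_of_linearMap ((avB B v).coord i)

/-- Neighbourhoods in the completion. -/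
theorem exists_ball {M : ℕ} (B : Basis (Fin M) k A) {O : Set (Av k A v)} (hO : IsOpen O)
    {x : Av k A v} (hx : x ∈ O) :
    ∃ ε : ℝ, 0 < ε ∧ ∀ y : Av k A v, (∀ i, ‖(avB B v).repr (y - x) i‖ < ε) → y ∈ O := by
  have := isModuleTopologyAv (k := k) (A := A) (v := v)
  have hta : ContinuousAdd (Av k A v) := IsModuleTopology.toContinuousAdd v.comp _
  let b := avB B v
  have hc : Continuous fun y : Fin M → v.comp => b.equivFun.symm y :=
    IsModuleTopology.continuous_of_linearMap b.equivFun.symm.toLinearMap
  have h2 : IsOpen ((fun y : Fin M → v.comp => b.equivFun.symm y) ⁻¹' O) := hO.preimage hc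
  have h3 : b.equivFun x ∈ (fun y : Fin M → v.comp => b.equivFun.symm y) ⁻¹' O := by
    rw [Set.mem_preimage, LinearEquiv.symm_apply_apply]
    exact hx
  obtain ⟨ε, hε, h4⟩ := Metric.isOpen_iff.mp h2 _ h3
  refine ⟨ε, hε, fun y hy => ?_⟩
  have h5 : b.equivFun y ∈ Metric.ball (b.equivFun x) ε := by
    rw [Metric.mem_ball, dist_pi_lt_iff hε]
    intro i
    rw [dist_eq_norm]
    have h6 := hy i
    rw [map_sub, Finsupp.sub_apply] at h6
    exact h6
  have h7 := h4 h5
  rwa [Set.mem_preimage, LinearEquiv.symm_apply_apply] at h7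

end alg

section group

variable {k K A : Type} [Field k] [Field K] [StarRing K] [Ring A] [StarRing A] [Algebra k K]
  [Algebra k A] [Algebra K A] [IsScalarTower k K A] [StarModule K A] {n : ℕ}

/-- The extension of the involution. -/
theorem exists_sigma (hfix : ∀ x : K, star x = x ↔ x ∈ Set.range (algebraMap k K)) (v : Place k) :
    ∃ σ : Av k A v →ₗ[v.comp] Av k A v, ∀ y : A, σ (inAv k A v y) = inAv k A v (star y) := by
  let s : A →ₗ[k] A :=
    { toFun := star
      map_add' := star_add
      map_smul' := fun a x => by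
        rw [RingHom.id_apply, ← algebraMap_smul K, star_smul, (hfix _).mpr ⟨a, rfl⟩,
          algebraMap_smul] }
  exact ⟨(s.baseChange v.comp : v.comp ⊗[k] A →ₗ[v.comp] v.comp ⊗[k] A), fun y =>
    LinearMap.baseChange_tmul _ _ _⟩

variable {v : Place k}

theorem Gv_inv {σ : Av k A v →ₗ[v.comp] Av k A v}
    (hσ : ∀ y : A, σ (inAv k A v y) = inAv k A v (star y)) {x : (Av k A v)ˣ} (hx : x ∈ Gv A v n) :
    ((x⁻¹ : (Av k A v)ˣ) : Av k A v) = σ (x : Av k A v) := by
  rw [← Units.mul_right_inj x, Units.mul_inv, hx.1 σ hσ]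

theorem isInducing_val (hfix : ∀ x : K, star x = x ↔ x ∈ Set.range (algebraMap k K))
    [FiniteDimensional k A] : IsInducing (GTop.val : GTop A v n → Av k A v) := by
  obtain ⟨σ, hσ⟩ := exists_sigma (A := A) hfix v
  have := isModuleTopologyAv (k := k) (A := A) (v := v)
  have := isTopologicalRingAv (k := k) (A := A) (v := v)
  have hval : Continuous (GTop.val : GTop A v n → Av k A v) := by
    have h2 : Continuous fun x : GTop A v n => (Subtype.val (show Gv A v n from x) : (Av k A v)ˣ) :=
      continuous_induced_dom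
    exact Units.continuous_val.comp h2
  refine ⟨le_antisymm (continuous_iff_le_induced.mp hval) ?_⟩
  let t : TopologicalSpace (GTop A v n) := TopologicalSpace.induced GTop.val inferInstance
  have h1 : @Continuous _ _ t _ (GTop.val : GTop A v n → Av k A v) := continuous_induced_dom
  have h2 : @Continuous _ _ t (instTopGTop A v n) (id : GTop A v n → GTop A v n) := by
    refine continuous_induced_rng.mpr (Units.continuous_iff.mpr ⟨h1, ?_⟩)
    have h3 : @Continuous _ _ t _ fun x : GTop A v n => σ x.val :=
      (IsModuleTopology.continuous_of_linearMap σ).comp h1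
    have h4 : (fun x : GTop A v n => (((Subtype.val (show Gv A v n from x))⁻¹ : (Av k A v)ˣ) :
        Av k A v)) = fun x : GTop A v n => σ x.val := funext fun x => Gv_inv hσ x.2
    exact h4 ▸ h3
  exact continuous_id_iff_le.mp h2

variable {S : Set (Place k)}

theorem isInducing_at (hfix : ∀ x : K, star x = x ↔ x ∈ Set.range (algebraMap k K))
    [FiniteDimensional k A] :
    IsInducing (fun (x : HA A n S) (v : S) => (x.at v : Av k A v.1)) :=
  IsInducing.piMap fun v : S => isInducing_val (v := v.1) (n := n) (A := A) hfix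

theorem isTopologicalGroup_HA [FiniteDimensional k A] : IsTopologicalGroup (HA A n S) := by
  have h0 : ∀ v : Place k, IsTopologicalRing (Av k A v) := fun v => isTopologicalRingAv
  have h1 : ∀ v : Place k, IsTopologicalGroup (GTop A v n) := fun v =>
    (inferInstance : IsTopologicalGroup (Gv A v n))
  exact (inferInstance : IsTopologicalGroup (∀ v : S, GTop A v.1 n))

/-- Neighbourhoods in the product. -/
theorem exists_ball_HA (hfix : ∀ x : K, star x = x ↔ x ∈ Set.range (algebraMap k K))
    [FiniteDimensional k A] {M : ℕ} (B : Basis (Fin M) k A) {O : Set (HA A n S)} (hO : IsOpen O)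
    {x : HA A n S} (hx : x ∈ O) :
    ∃ (T : Finset S) (ε : ℝ), 0 < ε ∧ ∀ y : HA A n S, (∀ v ∈ T, ∀ i,
      ‖(avB B v.1).repr (y.at v - x.at v) i‖ < ε) → y ∈ O := by
  classical
  obtain ⟨O', hO', rfl⟩ := (isInducing_at hfix).isOpen_iff.mp hO
  obtain ⟨F, U, hU, hUV⟩ := isOpen_pi_iff.mp hO' _ hx
  have h1 : ∀ v : S, ∃ ε : ℝ, 0 < ε ∧ (v ∈ F → ∀ y : Av k A v.1,
      (∀ i, ‖(avB B v.1).repr (y - x.at v) i‖ < ε) → y ∈ U v) := by
    intro v
    by_cases hv : v ∈ F
    · obtain ⟨ε, hε, h⟩ := exists_ball B (hU v hv).1 (hU v hv).2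
      exact ⟨ε, hε, fun _ => h⟩
    · exact ⟨1, one_pos, fun h => absurd h hv⟩
  choose ε hε hεU using h1
  obtain ⟨r, hr, hrε⟩ : ∃ r : ℝ, 0 < r ∧ ∀ v ∈ F, r ≤ ε v := by
    rcases F.eq_empty_or_nonempty with h | h
    · subst h
      exact ⟨1, one_pos, fun v hv => absurd hv (Finset.notMem_empty v)⟩
    · refine ⟨F.inf' h ε, ?_, fun v hv => Finset.inf'_le _ hv⟩
      rw [Finset.lt_inf'_iff]
      exact fun v _ => hε v
  refine ⟨F, r, hr, fun y hy => hUV ?_⟩
  intro v hv
  exact hεU v hv _ fun i => (hy v hv i).trans_le (hrε v hv)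

/-- The set of the elements close to one at a place is open. -/
theorem isOpen_near (hfix : ∀ x : K, star x = x ↔ x ∈ Set.range (algebraMap k K))
    [FiniteDimensional k A] {M : ℕ} (B : Basis (Fin M) k A) (v : S) (i : Fin M) (ε : ℝ) :
    IsOpen {y : HA A n S | ‖(avB B v.1).repr (y.at v - 1) i‖ < ε} := by
  have := isTopologicalRingAv (k := k) (A := A) (v := v.1)
  have h1 : Continuous fun y : HA A n S => y.at v :=
    (continuous_apply v).comp (isInducing_at (A := A) (n := n) (S := S) hfix).continuous
  exact isOpen_lt ((continuous_repr B i).comp (h1.sub continuous_const)).norm continuous_const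

end group

end Vale.Agent.P011.H738
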