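import Vale.Agent.P011.H738.FDefs

/-!
The statements of the final theorem over function fields, and of the result of the core and of the
reduction from which it follows.
-/

open Module TensorProduct Topology

namespace Vale.Agent.P011.H738

/-- **The final theorem** for the function field `k`, the algebra `A` of degree `n` and the
splitting `f`. -/
def FinalFor (k K A Ω : Type) [Field k] [Field K] [StarRing K] [Ring A] [StarRing A] [Algebra k K]
    [Algebra k A] [Algebra K A] [IsScalarTower k K A] [StarModule K A] [Field Ω] [Algebra K Ω]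
    {n : ℕ} (f : A →ₐ[K] Matrix (Fin n) (Fin n) Ω) : Prop :=
  ∃ δ : SUA f →* HA A n (Adiv k K A), IsDiagonal δ ∧ DenseRange δ ∧
    ∀ N : Subgroup (SUA f), N.index ≠ 0 → IsOpenPreimage δ N

/-- **The bridge** (to be delivered by the core and the reduction): every normal subgroup of finite
index of `G(k)` contains the elements of `G(k)` close to one at finitely many places. -/
def BridgeFor (k K A Ω : Type) [Field k] [Field K] [StarRing K] [Ring A] [StarRing A] [Algebra k K]
    [Algebra k A] [Algebra K A] [IsScalarTower k K A] [StarModule K A] [Field Ω] [Algebra K Ω]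
    {n : ℕ} (f : A →ₐ[K] Matrix (Fin n) (Fin n) Ω) : Prop :=
  ∀ N : Subgroup (SUA f), N.Normal → N.index ≠ 0 →
    ∀ (M : ℕ) (B : Basis (Fin M) k A), ∃ (T : Finset (Place k)) (ε : ℝ), 0 < ε ∧
      ∀ g : SUA f, (∀ v ∈ T, ∀ i, v.abv (B.repr (((g : Aˣ) : A) - 1) i) < ε) → g ∈ N

/-- The bridge over all function fields. -/
def BridgeFF : Prop :=
  ∀ (k K A Ω : Type) [Field k] [Field K] [StarRing K] [Ring A] [StarRing A] [Algebra k K]
    [Algebra k A] [Algebra K A] [IsScalarTower k K A] [StarModule K A] [Field Ω] [Algebra K Ω]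
    (n : ℕ) (f : A →ₐ[K] Matrix (Fin n) (Fin n) Ω), IsGlobalFunctionField k → 3 ≤ n →
    Anis k K A n → BridgeFor k K A Ω f

/-- The final theorem over all function fields. -/
def FinalFF : Prop :=
  ∀ (k K A Ω : Type) [Field k] [Field K] [StarRing K] [Ring A] [StarRing A] [Algebra k K]
    [Algebra k A] [Algebra K A] [IsScalarTower k K A] [StarModule K A] [Field Ω] [Algebra K Ω]
    (n : ℕ) (f : A →ₐ[K] Matrix (Fin n) (Fin n) Ω), IsGlobalFunctionField k → 3 ≤ n →
    Anis k K A n → FinalFor k K A Ω f

end Vale.Agent.P011.H738
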