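import Vale.Agent.P011.H738.LocH90

/-!
A locally compact division algebra with an involution of the second kind has degree at most two.
-/

open Module Topology

set_option linter.unusedSectionVars false

namespace Vale.Agent.P011.H738

section iso

variable {F D : Type} [NontriviallyNormedField F] [ProperSpace F] [NormedDivisionRing D]
  [NormedAlgebra F D] [FiniteDimensional F D]

/-- A linear antiautomorphism of order two is an isometry. -/
theorem norm_inv_eq (t : D →ₗ[F] D) (hmul : ∀ x y, t (x * y) = t y * t x)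
    (hinv : ∀ x, t (t x) = x) (x : D) : ‖t x‖ = ‖x‖ := by
  have key : ∀ x : D, ‖t x‖ ≤ ‖x‖ := by
    intro x
    set T := LinearMap.toContinuousLinearMap t with hT
    have h1 : ∀ y, ‖t y‖ ≤ ‖T‖ * ‖y‖ := fun y => T.le_opNorm y
    have hone : t 1 = 1 := by
      have h2 : t 1 * t 1 = t 1 := by rw [← hmul, mul_one]
      have h3 : t 1 ≠ 0 := by
        intro h
        have h4 := hinv 1
        rw [h, map_zero] at h4
        exact zero_ne_one h4
      exact mul_left_cancel₀ h3 (by rw [h2, mul_one])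
    have hpow : ∀ m : ℕ, t (x ^ m) = t x ^ m := by
      intro m
      induction m with
      | zero => rw [pow_zero, pow_zero, hone]
      | succ m ih => rw [pow_succ, hmul, ih, ← pow_succ']
    by_contra hcon
    push Not at hcon
    rcases eq_or_ne x 0 with rfl | hx0
    · rw [map_zero] at hcon
      exact lt_irrefl _ hcon
    have hxpos : 0 < ‖x‖ := norm_pos_iff.mpr hx0
    have h4 : 1 < ‖t x‖ / ‖x‖ := (one_lt_div hxpos).mpr hcon
    obtain ⟨m, hm⟩ := pow_unbounded_of_one_lt ‖T‖ h4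
    have h5 := h1 (x ^ m)
    rw [hpow, norm_pow, norm_pow] at h5
    rw [div_pow, lt_div_iff₀ (by positivity)] at hm
    exact absurd h5 (not_le.mpr hm)
  refine le_antisymm (key x) ?_
  conv_lhs => rw [← hinv x]
  exact key _

end iso

section teich

variable {D : Type*} [NormedDivisionRing D] [IsUltrametricDist D] {p N : ℕ} {ω : D}
  (T : Teich D p N ω)

include T

omit T in
theorem norm_sub_lt_of {a b c : D} {r : ℝ} (h1 : ‖a - b‖ < r) (h2 : ‖b - c‖ < r) : ‖a - c‖ < r := by
  have h : a - c = (a - b) + (b - c) := by abel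
  rw [h]
  exact (IsUltrametricDist.norm_add_le_max _ _).trans_lt (max_lt h1 h2)

/-- The residue field is commutative. -/
theorem Teich.comm_unit {u y : D} (hu : ‖u‖ = 1) (hy : ‖y‖ ≤ 1) : ‖u * y - y * u‖ < 1 := by
  rcases hy.lt_or_eq with hy1 | hy1
  · rw [sub_eq_add_neg]
    refine (IsUltrametricDist.norm_add_le_max _ _).trans_lt (max_lt ?_ ?_)
    · rw [norm_mul, hu, one_mul]; exact hy1
    · rw [norm_neg, norm_mul, hu, mul_one]; exact hy1
  · obtain ⟨a, ha⟩ := T.surj u hu
    obtain ⟨b, hb⟩ := T.surj y hy1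
    have h1 : ‖u * y - ω ^ a * y‖ < 1 := by
      rw [← sub_mul, norm_mul, hy1, mul_one]; exact ha
    have h2 : ‖ω ^ a * y - ω ^ a * ω ^ b‖ < 1 := by
      rw [← mul_sub, norm_mul, norm_pow, T.norm_eq, one_pow, one_mul]; exact hb
    have h3 : ‖ω ^ a * ω ^ b - y * ω ^ a‖ < 1 := by
      rw [← pow_add, add_comm, pow_add, ← sub_mul, norm_mul, norm_pow, T.norm_eq, one_pow, mul_one,
        norm_sub_rev]
      exact hb
    have h4 : ‖y * ω ^ a - y * u‖ < 1 := by
      rw [← mul_sub, norm_mul, hy1, one_mul, norm_sub_rev]; exact ha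
    exact norm_sub_lt_of (norm_sub_lt_of (norm_sub_lt_of h1 h2) h3) h4

/-- The powers of elements which are close. -/
theorem Teich.pow_close {x : D} {j : ℕ} (h : ‖x - ω ^ j‖ < 1) (m : ℕ) :
    ‖x ^ m - ω ^ (j * m)‖ < 1 := by
  have hx : ‖x‖ = 1 := by
    have h1 : x = ω ^ j + (x - ω ^ j) := by abel
    have h2 : ‖ω ^ j‖ = 1 := by rw [norm_pow, T.norm_eq, one_pow]
    rw [h1, IsUltrametricDist.norm_add_eq_max_of_norm_ne_norm (by rw [h2]; exact h.ne'), h2]
    exact max_eq_left h.le
  induction m with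
  | zero => rw [pow_zero, mul_zero, pow_zero, sub_self, norm_zero]; exact one_pos
  | succ m ih =>
    have h1 : ‖x ^ (m + 1) - ω ^ (j * m) * x‖ < 1 := by
      rw [pow_succ, ← sub_mul, norm_mul, hx, mul_one]
      exact ih
    have h2 : ‖ω ^ (j * m) * x - ω ^ (j * (m + 1))‖ < 1 := by
      rw [mul_add, mul_one, pow_add, ← mul_sub, norm_mul, norm_pow, T.norm_eq, one_pow, one_mul]
      exact h
    exact norm_sub_lt_of h1 h2

end teich

section two

variable {D : Type*} [NormedDivisionRing D] [IsUltrametricDist D] {p N : ℕ} {ω : D}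
  {f q : ℕ} {g : D}

/-- The degree is at most two. -/
theorem Str.le_two (S : Str p N ω f q g) (T : Teich D p N ω) (t : D → D)
    (hsub : ∀ x y, t (x - y) = t x - t y) (hmul : ∀ x y, t (x * y) = t y * t x)
    (hone : t 1 = 1) (hinv : ∀ x, t (t x) = x) (hn : ∀ x, ‖t x‖ = ‖x‖) : f ≤ 2 := by
  have hpow : ∀ (x : D) (m : ℕ), t (x ^ m) = t x ^ m := by
    intro x m
    induction m with
    | zero => rw [pow_zero, pow_zero, hone]
    | succ m ih => rw [pow_succ, hmul, ih, ← pow_succ']
  obtain ⟨j, hj⟩ := T.surj (t ω) (by rw [hn, T.norm_eq])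
  -- `j` is its own inverse
  have hjj : j * j ≡ 1 [MOD (p ^ N - 1)] := by
    refine T.modEq_of_close ?_
    rw [pow_one]
    have h1 : ‖ω ^ (j * j) - (t ω) ^ j‖ < 1 := by
      rw [norm_sub_rev]
      exact T.pow_close hj j
    have h2 : ‖(t ω) ^ j - ω‖ < 1 := by
      have h3 : (t ω) ^ j - ω = t (ω ^ j - t ω) := by rw [hsub, hpow, hinv]
      rw [h3, hn, norm_sub_rev]
      exact hj
    exact norm_sub_lt_of h1 h2
  -- the relation for the conjugate of `g`
  have hg0 := S.g_ne
  have hgpos : 0 < ‖g‖ := norm_pos_iff.mpr hg0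
  obtain ⟨m, hm⟩ := T.surj (g⁻¹ * t g) (by
    rw [norm_mul, norm_inv, hn, inv_mul_cancel₀ hgpos.ne'])
  set u := g⁻¹ * t g with hu
  have htg : t g = g * u := by rw [hu, mul_inv_cancel_left₀ hg0]
  have hun : ‖u‖ = 1 := by rw [hu, norm_mul, norm_inv, hn, inv_mul_cancel₀ hgpos.ne']
  have h1 : t g * t ω = t ω ^ q * t g := by rw [← hmul, S.rel, hmul, hpow]
  have htωn : ‖t ω‖ = 1 := by rw [hn, T.norm_eq]
  -- all of them divided by `g` on the left
  have h2 : ‖u * t ω - ω ^ m * ω ^ j‖ < 1 := by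
    have h3 : ‖u * t ω - ω ^ m * t ω‖ < 1 := by
      rw [← sub_mul, norm_mul, htωn, mul_one]; exact hm
    have h4 : ‖ω ^ m * t ω - ω ^ m * ω ^ j‖ < 1 := by
      rw [← mul_sub, norm_mul, norm_pow, T.norm_eq, one_pow, one_mul]; exact hj
    exact norm_sub_lt_of h3 h4
  have h3 : ‖g⁻¹ * (t ω ^ q * t g) - ω ^ (j * q * q) * ω ^ m‖ < 1 := by
    have h4 : ‖t ω ^ q - ω ^ (j * q)‖ < 1 := T.pow_close hj q
    have h5 : ‖g⁻¹ * (t ω ^ q * t g) - g⁻¹ * (ω ^ (j * q) * t g)‖ < 1 := by
      rw [← mul_sub, ← sub_mul, norm_mul, norm_mul, norm_inv, hn, mul_comm ‖t ω ^ q - ω ^ (j * q)‖,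
        ← mul_assoc, inv_mul_cancel₀ hgpos.ne', one_mul]
      exact h4
    have h6 : g⁻¹ * (ω ^ (j * q) * t g) = ω ^ (j * q * q) * u := by
      have h7 : ω ^ (j * q) * g = g * ω ^ (j * q * q) := by
        have h8 := T.rel_pow (a := 1) (b := q) (x := g) (by rw [pow_one]; exact S.rel) (j * q)
        rwa [one_mul, mul_comm q (j * q)] at h8
      rw [htg, ← mul_assoc (ω ^ (j * q)), h7, mul_assoc g, inv_mul_cancel_left₀ hg0]
    have h9 : ‖ω ^ (j * q * q) * u - ω ^ (j * q * q) * ω ^ m‖ < 1 := by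
      rw [← mul_sub, norm_mul, norm_pow, T.norm_eq, one_pow, one_mul]; exact hm
    rw [h6] at h5
    exact norm_sub_lt_of h5 h9
  have h4 : g⁻¹ * (t ω ^ q * t g) = u * t ω := by
    rw [← h1, htg, mul_assoc, inv_mul_cancel_left₀ hg0]
  rw [h4] at h3
  rw [norm_sub_rev] at h2
  have h5 : ‖ω ^ (m + j) - ω ^ (j * q * q + m)‖ < 1 := by
    rw [pow_add, pow_add]
    exact norm_sub_lt_of h2 h3
  have h6 := T.modEq_of_close h5
  have h7 : j ≡ j * q * q [MOD (p ^ N - 1)] := by
    rw [add_comm m j] at h6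
    exact Nat.ModEq.add_right_cancel' m h6
  have h8 : j * j ≡ (j * j) * (q * q) [MOD (p ^ N - 1)] := by
    have h9 := h7.mul_left j
    have h10 : j * (j * q * q) = (j * j) * (q * q) := by ring
    rwa [h10] at h9
  have h9 : 1 ≡ q * q [MOD (p ^ N - 1)] := by
    have h10 : (j * j) * (q * q) ≡ 1 * (q * q) [MOD (p ^ N - 1)] := hjj.mul_right _
    rw [one_mul] at h10
    exact (hjj.symm.trans h8).trans h10
  by_contra hcon
  push Not at hcon
  have h10 := S.dist 0 2 S.f_pos hcon (by rw [pow_zero, sq]; exact h9)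
  exact absurd h10 (by decide)

end two

section full

variable {F D L : Type} [Field F] [NormedDivisionRing D] [IsUltrametricDist D] [Algebra F D]
  [Field L] [Algebra F L] {p N : ℕ} {ω : D} {f q : ℕ} {g : D} {ι : L →ₐ[F] D}

/-- The dimension is the square of the degree. -/
theorem Full.finrank_sq (H : Full F p N ω f q g ι) [FiniteDimensional F D]
    [Algebra.IsCentral F D] : finrank F D = f ^ 2 := by
  have h1 := H.finrank_eq
  have h2 := H.le_finrank
  have h3 := Vale.Agent.P011.H268.splitS_indep H.S.f_pos H.spl (Module.finBasis F D)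
  have h4 := h3.fintype_card_le_finrank
  rw [Fintype.card_fin, Module.finrank_matrix, Fintype.card_fin, Module.finrank_self, mul_one]
    at h4
  have h5 : finrank F L ≤ f := by
    rw [h1] at h4
    exact Nat.le_of_mul_le_mul_left h4 H.S.f_pos
  rw [h1, le_antisymm h5 h2, sq]

end full

end Vale.Agent.P011.H738
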