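import Vale.Agent.P011.H268.Nrd

/-!
A quaternion division algebra with an involution of the second kind: the fixed algebra of the
product with the canonical involution.
-/

open Module

set_option linter.unusedSectionVars false

namespace Vale.Agent.P011.H738

section quat

variable {L Z D : Type} [Field L] [StarRing L] [DivisionRing D] [StarRing D] [Algebra L D]
  [StarModule L D] [FiniteDimensional L D] [Algebra.IsCentral L D] [Field Z] [Algebra L Z]
  (s : D →ₐ[L] Matrix (Fin 2) (Fin 2) Z) (hD : finrank L D = 2 ^ 2)

/-- The reduced trace. -/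
noncomputable def trd (x : D) : L :=
  (Vale.Agent.P011.H268.exists_trd two_pos hD s x).choose

theorem trd_spec (x : D) : (s x).trace = algebraMap L Z (trd s hD x) :=
  (Vale.Agent.P011.H268.exists_trd two_pos hD s x).choose_spec

theorem trd_add (x y : D) : trd s hD (x + y) = trd s hD x + trd s hD y := by
  apply (algebraMap L Z).injective
  rw [← trd_spec, map_add, map_add, Matrix.trace_add, trd_spec, trd_spec]

theorem trd_alg (c : L) : trd s hD (algebraMap L D c) = c + c := by
  apply (algebraMap L Z).injective
  rw [← trd_spec, AlgHom.commutes, Matrix.algebraMap_eq_diagonal, Matrix.trace_fin_two,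
    Matrix.diagonal_apply_eq, Matrix.diagonal_apply_eq, map_add]
  rfl

theorem trd_neg (x : D) : trd s hD (-x) = -trd s hD x := by
  apply (algebraMap L Z).injective
  rw [← trd_spec, map_neg, map_neg, Matrix.trace_neg, trd_spec]

theorem trd_smul (c : L) (x : D) : trd s hD (c • x) = c * trd s hD x := by
  apply (algebraMap L Z).injective
  rw [← trd_spec, map_smul, Matrix.trace_smul, trd_spec, map_mul, Algebra.smul_def]

theorem star_alg (c : L) : star (algebraMap L D c) = algebraMap L D (star c) := by
  rw [Algebra.algebraMap_eq_smul_one, star_smul, star_one, ← Algebra.algebraMap_eq_smul_one]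

theorem trd_star (x : D) : trd s hD (star x) = star (trd s hD x) := by
  obtain ⟨P, -, -, hP⟩ := Vale.Agent.P011.H268.exists_charpoly two_pos hD s x
  have h1 := Vale.Agent.P011.H268.charpoly_compare' two_pos hD s
    (Vale.Agent.P011.H268.starSplit (star_alg (L := L) (D := D)) s) x hP
  have h2 : trd s hD x = -P.coeff (2 - 1) := by
    apply (algebraMap L Z).injective
    rw [← trd_spec, Matrix.trace_eq_neg_charpoly_coeff, hP, Polynomial.coeff_map, map_neg]
    simp
  apply (algebraMap L Z).injective
  rw [← trd_spec, h2, star_neg, map_neg]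
  have h3 : (s (star x)).trace =
      (Vale.Agent.P011.H268.starSplit (star_alg (L := L) (D := D)) s x).trace :=
    (Matrix.trace_transpose (s (star x))).symm
  rw [h3, Matrix.trace_eq_neg_charpoly_coeff, h1, Polynomial.coeff_map,
    Vale.Agent.P011.H268.twS_algebraMap]
  simp only [Fintype.card_fin, Nat.add_one_sub_one]
  rfl

/-- The canonical involution. -/
noncomputable def gam (x : D) : D := algebraMap L D (trd s hD x) - x

theorem s_gam (x : D) : s (gam s hD x) = (s x).adjugate := by
  rw [gam, map_sub, AlgHom.commutes, Matrix.algebraMap_eq_diagonal]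
  have h1 := trd_spec s hD x
  rw [Matrix.trace_fin_two] at h1
  rw [Matrix.adjugate_fin_two]
  ext i j
  fin_cases i <;> fin_cases j
  · simp [← h1]
  · simp
  · simp
  · simp [← h1]

theorem gam_mul (x y : D) : gam s hD (x * y) = gam s hD y * gam s hD x := by
  apply s.toRingHom.injective
  change s _ = s _
  rw [map_mul, s_gam, s_gam, s_gam, map_mul, Matrix.adjugate_mul_distrib]

theorem gam_add (x y : D) : gam s hD (x + y) = gam s hD x + gam s hD y := by
  rw [gam, gam, gam, trd_add, map_add]
  abel

theorem gam_alg (c : L) : gam s hD (algebraMap L D c) = algebraMap L D c := by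
  rw [gam, trd_alg, map_add, add_sub_cancel_right]

theorem gam_star (x : D) : gam s hD (star x) = star (gam s hD x) := by
  rw [gam, gam, trd_star, star_sub, star_alg]

theorem trd_gam (x : D) : trd s hD (gam s hD x) = trd s hD x := by
  rw [gam, sub_eq_add_neg, trd_add, trd_alg, trd_neg]
  abel

theorem gam_gam (x : D) : gam s hD (gam s hD x) = x := by
  rw [gam, trd_gam, gam, sub_sub_cancel]

/-- The reduced norm. -/
theorem exists_mul_gam (x : D) : ∃ ν : L, x * gam s hD x = algebraMap L D ν := by
  obtain ⟨ν, hν⟩ := Vale.Agent.P011.H268.exists_nrd two_pos hD s x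
  refine ⟨ν, ?_⟩
  apply s.toRingHom.injective
  change s _ = s _
  rw [map_mul, s_gam, Matrix.mul_adjugate, hν, AlgHom.commutes, algebraMap_smul,
    ← Algebra.algebraMap_eq_smul_one]

variable {F : Type} [Field F] [Algebra F L] [Algebra F D] [IsScalarTower F L D]

/-- The fixed algebra. -/
noncomputable def Q0 (hfix : ∀ x : L, star x = x ↔ x ∈ Set.range (algebraMap F L)) :
    Subalgebra F D where
  carrier := {x | star x = gam s hD x}
  mul_mem' := by
    intro x y hx hy
    change star (x * y) = gam s hD (x * y)
    rw [star_mul, gam_mul, hx, hy]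
  add_mem' := by
    intro x y hx hy
    change star (x + y) = gam s hD (x + y)
    rw [star_add, gam_add, hx, hy]
  algebraMap_mem' := by
    intro r
    change star (algebraMap F D r) = gam s hD (algebraMap F D r)
    rw [IsScalarTower.algebraMap_apply F L D, gam_alg, star_alg, (hfix _).mpr ⟨r, rfl⟩]

variable (hfix : ∀ x : L, star x = x ↔ x ∈ Set.range (algebraMap F L))

theorem mem_Q0 {x : D} : x ∈ Q0 s hD hfix ↔ star x = gam s hD x := Iff.rfl

/-- Elements of the fixed algebra are quadratic over the small field. -/
theorem Q0_quad {x : D} (hx : x ∈ Q0 s hD hfix) : ∃ τ ν : F,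
    x + star x = algebraMap F D τ ∧ x * star x = algebraMap F D ν := by
  rw [mem_Q0] at hx
  have h1 : x + star x = algebraMap L D (trd s hD x) := by rw [hx, gam]; abel
  obtain ⟨ν, hν⟩ := exists_mul_gam s hD x
  rw [← hx] at hν
  have h2 : star (trd s hD x) = trd s hD x := by
    rw [← trd_star, hx, trd_gam]
  have h3 : star ν = ν := by
    apply (algebraMap L D).injective
    rw [← star_alg, ← hν, star_mul, star_star]
  obtain ⟨τ, hτ⟩ := (hfix _).mp h2
  obtain ⟨ν', hν'⟩ := (hfix _).mp h3
  refine ⟨τ, ν', ?_, ?_⟩
  · rw [h1, ← hτ, IsScalarTower.algebraMap_apply F L D]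
  · rw [hν, ← hν', IsScalarTower.algebraMap_apply F L D]

/-- The fixed algebra generates. -/
theorem Q0_gen {θ : L} (hθ : star θ ≠ θ) (x : D) : ∃ u ∈ Q0 s hD hfix, ∃ v ∈ Q0 s hD hfix,
    x = algebraMap L D (θ - star θ)⁻¹ * u + algebraMap L D ((θ - star θ)⁻¹ * star θ) * v := by
  have hθ0 : θ - star θ ≠ 0 := sub_ne_zero.mpr fun h => hθ h.symm
  -- the automorphism
  have hmem : ∀ y : D, y + star (gam s hD y) ∈ Q0 s hD hfix := by
    intro y
    rw [mem_Q0, star_add, star_star, gam_add, gam_star, gam_gam, add_comm]
  have h1 : star (gam s hD (algebraMap L D θ * x)) =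
      algebraMap L D (star θ) * star (gam s hD x) := by
    rw [gam_mul, gam_alg, star_mul, star_alg]
  refine ⟨algebraMap L D θ * x + star (gam s hD (algebraMap L D θ * x)), hmem _,
    -(x + star (gam s hD x)), (Q0 s hD hfix).neg_mem (hmem _), ?_⟩
  rw [h1, map_mul]
  have h2 : algebraMap L D (θ - star θ)⁻¹ * algebraMap L D (θ - star θ) = 1 := by
    rw [← map_mul, inv_mul_cancel₀ hθ0, map_one]
  have h3 : x = algebraMap L D (θ - star θ)⁻¹ *
      (algebraMap L D θ * x - algebraMap L D (star θ) * x) := by
    rw [← sub_mul, ← map_sub, ← mul_assoc, h2, one_mul]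
  conv_lhs => rw [h3]
  simp only [mul_add, mul_sub, mul_neg, mul_assoc]
  abel

end quat

end Vale.Agent.P011.H738
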