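import Vale.Agent.P011.H738.Inv1
import Vale.Agent.P011.H738.Inv2
import Mathlib.RingTheory.RootsOfUnity.PrimitiveRoots
import Mathlib.Algebra.CharP.Frobenius

/-!
A division algebra over a quadratic extension of local fields with an involution of the second kind
is commutative.
-/

open Module Topology

set_option linter.unusedSectionVars false

namespace Vale.Agent.P011.H738

section val

variable (F : Type) [NontriviallyNormedField F] [ProperSpace F] [IsUltrametricDist F]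

/-- A uniformizer. -/
theorem exists_unif : ∃ π : F, π ≠ 0 ∧ ‖π‖ < 1 ∧ ∀ c : F, c ≠ 0 → ∃ n : ℤ, ‖c‖ = ‖π‖ ^ n := by
  obtain ⟨c0, hc0⟩ := NormedField.exists_one_lt_norm F
  have hc0' : c0 ≠ 0 := norm_pos_iff.mp (one_pos.trans hc0)
  have hc1 : ‖c0⁻¹‖ < 1 := by
    rw [norm_inv]
    exact inv_lt_one_of_one_lt₀ hc0
  obtain ⟨π, hπ, hmax⟩ : ∃ π ∈ Metric.ball (0 : F) 1, ∀ z ∈ Metric.ball (0 : F) 1, ‖z‖ ≤ ‖π‖ := by
    have h1 : IsCompact (Metric.ball (0 : F) 1) := by
      refine (isCompact_closedBall (0 : F) 1).of_isClosed_subset ?_ Metric.ball_subset_closedBall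
      exact IsUltrametricDist.isClosed_ball 0 1
    obtain ⟨x, hx, hmax⟩ := h1.exists_isMaxOn ⟨0, Metric.mem_ball_self one_pos⟩
      continuous_norm.continuousOn
    exact ⟨x, hx, fun z hz => hmax hz⟩
  rw [mem_ball_zero_iff] at hπ
  have hmax' : ∀ z : F, ‖z‖ < 1 → ‖z‖ ≤ ‖π‖ := fun z hz => hmax z (mem_ball_zero_iff.mpr hz)
  have hπpos : 0 < ‖π‖ := (norm_pos_iff.mpr (inv_ne_zero hc0')).trans_le (hmax' _ hc1)
  have hπ0 : π ≠ 0 := norm_pos_iff.mp hπpos
  refine ⟨π, hπ0, hπ, fun c hc => ?_⟩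
  have hcpos : 0 < ‖c‖ := norm_pos_iff.mpr hc
  obtain ⟨n, hn1, hn2⟩ := exists_mem_Ico_zpow hcpos ((one_lt_inv₀ hπpos).mpr hπ)
  refine ⟨-n, ?_⟩
  rw [inv_zpow'] at hn1
  refine le_antisymm ?_ hn1
  have h1 : ‖c * π ^ (n + 1)‖ < 1 := by
    rw [norm_mul, norm_zpow]
    rw [inv_zpow', zpow_neg, ← one_div, lt_div_iff₀ (zpow_pos hπpos _)] at hn2
    exact hn2
  have h2 := hmax' _ h1
  rw [norm_mul, norm_zpow, zpow_add₀ hπpos.ne', zpow_one, ← mul_assoc] at h2
  have h3 : ‖c‖ * ‖π‖ ^ n ≤ 1 := by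
    by_contra hcon
    push Not at hcon
    exact absurd h2 (not_le.mpr (by nlinarith))
  rw [zpow_neg, ← one_div, le_div_iff₀ (zpow_pos hπpos _)]
  exact h3

end val

section fin

/-- The elements of the residue field fixed by the power `p ^ m`. -/
theorem exists_of_pow_eq {κ : Type} [Field κ] {ζ : κ} {m : ℕ} (hm : 1 < m)
    (hζ : IsPrimitiveRoot ζ (m - 1)) {y : κ} (hy : y ^ m = y) : y = 0 ∨ ∃ i : ℕ, y = ζ ^ i := by
  rcases eq_or_ne y 0 with h | h
  · exact Or.inl h
  · right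
    have h1 : y ^ (m - 1) = 1 := by
      have h2 : y ^ (m - 1) * y = 1 * y := by
        rw [← pow_succ, Nat.sub_add_cancel hm.le, one_mul, hy]
      exact mul_right_cancel₀ h h2
    have : NeZero (m - 1) := ⟨by omega⟩
    obtain ⟨i, -, hi⟩ := hζ.eq_pow_of_pow_eq_one h1
    exact ⟨i, hi.symm⟩

/-- A quadratic element is fixed by the square of an automorphism which fixes its coefficients. -/
theorem quad_fixed {κ : Type} [Field κ] (φ : κ →+* κ) {x t d : κ} (h : x * x - t * x + d = 0)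
    (ht : φ t = t) (hd : φ d = d) : φ (φ x) = x := by
  have h1 : φ x * φ x - t * φ x + d = 0 := by
    have := congrArg φ h
    rwa [map_add, map_sub, map_mul, map_mul, ht, hd, map_zero] at this
  have h2 : (φ x - x) * (φ x - (t - x)) = 0 := by linear_combination h1 - h
  rcases mul_eq_zero.mp h2 with h3 | h3
  · rw [sub_eq_zero] at h3
    rw [h3, h3]
  · rw [sub_eq_zero] at h3
    rw [h3, map_sub, ht, h3]
    ring

/-- The field generated by a quadratic element. -/
theorem quad_span {κ : Type} [Field κ] (φ : κ →+* κ) {a z : κ} (ha : φ (φ a) = a)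
    (hz : φ (φ z) = z) (hne : φ z ≠ z) : ∃ u v : κ, φ u = u ∧ φ v = v ∧ a = u + v * z := by
  have h0 : z - φ z ≠ 0 := sub_ne_zero.mpr hne.symm
  refine ⟨a - (a - φ a) / (z - φ z) * z, (a - φ a) / (z - φ z), ?_, ?_, by ring⟩
  · rw [map_sub, map_mul, map_div₀, map_sub, map_sub, ha, hz]
    have h1 : φ z - z ≠ 0 := sub_ne_zero.mpr hne
    field_simp
    ring
  · rw [map_div₀, map_sub, map_sub, ha, hz]
    have h1 : φ z - z ≠ 0 := sub_ne_zero.mpr hne
    field_simp
    ring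

end fin

section res

variable {F D : Type} [NontriviallyNormedField F] [ProperSpace F] [IsUltrametricDist F]
  [NormedDivisionRing D] [IsUltrametricDist D] [ProperSpace D] [NormedAlgebra F D]

/-- Quadratic elements are congruent to combinations of a quadratic element which is not congruent
to a scalar. -/
theorem near_span {z a : D} {τz νz τa νa : F} (hz1 : ‖z‖ ≤ 1) (ha1 : ‖a‖ ≤ 1) (hτz : ‖τz‖ ≤ 1)
    (hνz : ‖νz‖ ≤ 1) (hτa : ‖τa‖ ≤ 1) (hνa : ‖νa‖ ≤ 1)
    (hz : z * z - algebraMap F D τz * z + algebraMap F D νz = 0)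
    (ha : a * a - algebraMap F D τa * a + algebraMap F D νa = 0)
    (hzF : ∀ c : F, ¬ ‖z - algebraMap F D c‖ < 1) :
    ∃ u v : F, ‖a - (algebraMap F D u + algebraMap F D v * z)‖ < 1 := by
  obtain ⟨κ, _, _, π, hπs, hπ⟩ := exists_residue D
  obtain ⟨p, N, ω, T⟩ := exists_teich F
  have : Fact p.Prime := ⟨T.prime⟩
  have hnalg : ∀ c : F, ‖algebraMap F D c‖ = ‖c‖ := fun c => norm_algebraMap' D c
  have hp0 : (p : κ) = 0 := by
    have h1 : π (p : ballRing D) = 0 := by
      rw [hπ]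
      have h2 : (((p : ℕ) : ballRing D) : D) = algebraMap F D (p : F) := by
        rw [map_natCast]
        rfl
      rw [h2, hnalg]
      exact T.norm_p
    rwa [map_natCast] at h1
  have hchar : CharP κ p := by
    obtain ⟨p', hp'⟩ := CharP.exists κ
    have h1 : p' ∣ p := (CharP.cast_eq_zero_iff κ p' p).mp hp0
    rcases (Nat.dvd_prime T.prime).mp h1 with h2 | h2
    · exact absurd h2 (CharP.char_ne_one κ p')
    · rwa [h2] at hp'
  -- the scalars
  let b : ∀ c : F, ‖c‖ ≤ 1 → ballRing D := fun c hc => ⟨algebraMap F D c, by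
    change ‖algebraMap F D c‖ ≤ 1
    rw [hnalg]
    exact hc⟩
  have hbs : ∀ (c : F) (hc : ‖c‖ ≤ 1) (x : ballRing D), ‖algebraMap F D c - x‖ < 1 →
      π (b c hc) = π x := by
    intro c hc x hx
    rw [← sub_eq_zero, ← map_sub, hπ]
    exact hx
  have hωn : ∀ m : ℕ, ‖ω ^ m‖ = 1 := fun m => by rw [norm_pow, T.norm_eq, one_pow]
  set ζ : κ := π (b ω T.norm_eq.le) with hζ
  have hζpow : ∀ m : ℕ, π (b (ω ^ m) (hωn m).le) = ζ ^ m := by
    intro m
    rw [hζ, ← map_pow]
    congr 1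
    apply Subtype.ext
    change algebraMap F D (ω ^ m) = (((b ω T.norm_eq.le) ^ m : ballRing D) : D)
    rw [map_pow, SubmonoidClass.coe_pow]
  have hprim : IsPrimitiveRoot ζ (p ^ N - 1) := by
    constructor
    · rw [← hζpow]
      have h1 : b (ω ^ (p ^ N - 1)) (hωn _).le = 1 := by
        apply Subtype.ext
        change algebraMap F D (ω ^ (p ^ N - 1)) = 1
        rw [T.pow, map_one]
      rw [h1, map_one]
    · intro l hl
      apply T.inj
      rw [← hζpow, ← map_one π, ← sub_eq_zero, ← map_sub, hπ] at hl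
      have h1 : ((b (ω ^ l) (hωn l).le - 1 : ballRing D) : D) = algebraMap F D (ω ^ l - 1) := by
        rw [map_sub, map_one]
        rfl
      rwa [h1, hnalg] at hl
  let φ : κ →+* κ := iterateFrobenius κ p N
  have hφ : ∀ x, φ x = x ^ p ^ N := fun x => iterateFrobenius_def (R := κ) p N x
  have hfix : ∀ (c : F) (hc : ‖c‖ ≤ 1), φ (π (b c hc)) = π (b c hc) := by
    intro c hc
    rcases hc.lt_or_eq with h1 | h1
    · have h2 : π (b c hc) = 0 := by
        rw [hπ]
        change ‖algebraMap F D c‖ < 1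
        rw [hnalg]
        exact h1
      rw [h2, map_zero]
    · obtain ⟨m, hm⟩ := T.surj c h1
      have h2 : π (b c hc) = ζ ^ m := by
        rw [← hζpow]
        refine hbs c hc _ ?_
        change ‖algebraMap F D c - algebraMap F D (ω ^ m)‖ < 1
        rw [← map_sub, hnalg]
        exact hm
      rw [h2, hφ, ← pow_mul, mul_comm, pow_mul]
      congr 1
      have h3 : ζ ^ (p ^ N) = ζ ^ (p ^ N - 1) * ζ := by
        rw [← pow_succ, Nat.sub_add_cancel T.one_lt.le]
      rw [h3, hprim.pow_eq_one, one_mul]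
  have hlift : ∀ y : κ, φ y = y → ∃ (c : F) (hc : ‖c‖ ≤ 1), π (b c hc) = y := by
    intro y hy
    rw [hφ] at hy
    rcases exists_of_pow_eq T.one_lt hprim hy with h | ⟨i, hi⟩
    · refine ⟨0, by rw [norm_zero]; exact zero_le_one, ?_⟩
      rw [h, hπ]
      change ‖algebraMap F D 0‖ < 1
      rw [map_zero, norm_zero]
      exact one_pos
    · exact ⟨ω ^ i, (hωn i).le, by rw [hi, hζpow]⟩
  -- quadratic elements
  have hquad : ∀ (x : D) (hx : ‖x‖ ≤ 1) (τ ν : F) (_ : ‖τ‖ ≤ 1) (_ : ‖ν‖ ≤ 1),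
      x * x - algebraMap F D τ * x + algebraMap F D ν = 0 →
        φ (φ (π ⟨x, hx⟩)) = π ⟨x, hx⟩ := by
    intro x hx τ ν hτ hν h
    refine quad_fixed φ (t := π (b τ hτ)) (d := π (b ν hν)) ?_ (hfix τ hτ) (hfix ν hν)
    rw [← map_mul, ← map_mul, ← map_sub, ← map_add, hπ]
    change ‖x * x - algebraMap F D τ * x + algebraMap F D ν‖ < 1
    rw [h, norm_zero]
    exact one_pos
  have hza := hquad z hz1 τz νz hτz hνz hz
  have haa := hquad a ha1 τa νa hτa hνa ha
  have hne : φ (π ⟨z, hz1⟩) ≠ π ⟨z, hz1⟩ := by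
    intro h
    obtain ⟨c, hc, h1⟩ := hlift _ h
    apply hzF c
    rw [eq_comm, ← sub_eq_zero, ← map_sub, hπ] at h1
    exact h1
  obtain ⟨u, v, hu, hv, huv⟩ := quad_span φ haa hza hne
  obtain ⟨cu, hcu, hu'⟩ := hlift u hu
  obtain ⟨cv, hcv, hv'⟩ := hlift v hv
  refine ⟨cu, cv, ?_⟩
  rw [← hu', ← hv', ← map_mul, ← map_add, ← sub_eq_zero, ← map_sub, hπ] at huv
  exact huv

end res

end Vale.Agent.P011.H738
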