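import Vale.Agent.P011.H738.LocFull
import Vale.Agent.P011.H698.DensU
import Mathlib.GroupTheory.Commutator.Finite
import Mathlib.Topology.Algebra.Group.Basic
import Mathlib.Topology.DenseEmbedding
import Mathlib.Analysis.Normed.Field.Lemmas

/-!
Density of the unitary group, and of its commutator subgroup, at finitely many places of division
type.
-/

open Module Topology TensorProduct commutatorElement

namespace Vale.Agent.P011.H738

open Vale.Agent.P011.H698 (UA ua_mul_star ua_inv ua_star_mul two_sided cayley_unitary)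

section sym

variable {k K A : Type} [Field k] [Field K] [StarRing K] [Ring A] [StarRing A] [Algebra k K]
  [Algebra k A] [Algebra K A] [IsScalarTower k K A] [StarModule K A] [FiniteDimensional K A]

/-- A basis which consists of symmetric elements. -/
theorem exists_sym_basis (star_ne : ∃ x : K, star x ≠ x) :
    ∃ (N : ℕ) (b : Basis (Fin N) K A), ∀ i, star (b i) = b i := by
  classical
  obtain ⟨w, hw⟩ := star_ne
  have hw0 : w - star w ≠ 0 := sub_ne_zero.mpr fun h => hw h.symm
  have hspan : (⊤ : Submodule K A) ≤ Submodule.span K {x : A | star x = x} := by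
    intro x _
    have hd : star (w - star w) = -(w - star w) := by rw [star_sub, star_star, neg_sub]
    set β := (w - star w)⁻¹ • (x - star x) with hβ
    have hβs : star β = β := by
      rw [hβ, star_smul, star_inv₀, hd, star_sub, star_star, ← neg_sub x, smul_neg, inv_neg,
        neg_smul, neg_neg]
    have hαs : star (x - w • β) = x - w • β := by
      have h1 : (w - star w) • β = x - star x := by
        rw [hβ, smul_smul, mul_inv_cancel₀ hw0, one_smul]
      rw [sub_smul] at h1
      rw [star_sub, star_smul, hβs]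
      have h2 : star x = x - (w • β - star w • β) := by rw [h1]; abel
      rw [h2]
      abel
    have h3 : x = (x - w • β) + w • β := by abel
    rw [h3]
    exact Submodule.add_mem _ (Submodule.subset_span hαs)
      (Submodule.smul_mem _ _ (Submodule.subset_span hβs))
  obtain ⟨s, hs, hsp, hli⟩ := exists_linearIndependent K {x : A | star x = x}
  let b0 : Basis s K A := Basis.mk hli (by rw [Subtype.range_coe, hsp]; exact hspan)
  have hfin : Finite s := Module.Finite.finite_basis b0
  have := Fintype.ofFinite s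
  refine ⟨Fintype.card s, b0.reindex (Fintype.equivFin s), fun i => ?_⟩
  rw [Basis.reindex_apply, Basis.mk_apply]
  exact hs (Subtype.coe_prop _)

end sym

section glob

variable {k K A Ω : Type} [Field k] [Field K] [StarRing K] [Ring A] [StarRing A] [Algebra k K]
  [Algebra k A] [Algebra K A] [IsScalarTower k K A] [StarModule K A] [FiniteDimensional K A]
  [Nontrivial A] [Algebra.IsCentral K A] [Field Ω] [Algebra K Ω] {n : ℕ}

omit [Algebra.IsCentral K A] in
/-- A Cayley transform. -/
theorem exists_unitary_cayley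
    (haniso : ∀ x : A, star x * x = 0 → x = 0) {w : K} (hw : star w ≠ w) {s : A}
    (hs : star s = s) :
    ∃ u : UA A, ((u : Aˣ) : A) * (s + algebraMap K A (star w)) = s + algebraMap K A w := by
  have hsK : ∀ z : K, star (algebraMap K A z) = algebraMap K A (star z) := fun z => by
    rw [Algebra.algebraMap_eq_smul_one, star_smul, star_one, ← Algebra.algebraMap_eq_smul_one]
  have hy : ∀ a : A, (s + algebraMap K A (star w)) * a = 0 → a = 0 := by
    intro a ha
    apply haniso
    have h1 : star a * (s + algebraMap K A w) = 0 := by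
      have := congrArg star ha
      rwa [star_mul, star_add, hs, hsK, star_star, star_zero] at this
    have h2 : star a * ((algebraMap K A w - algebraMap K A (star w)) * a) = 0 := by
      have h3 : star a * ((algebraMap K A w - algebraMap K A (star w)) * a) =
          star a * (s + algebraMap K A w) * a - star a * ((s + algebraMap K A (star w)) * a) := by
        noncomm_ring
      rw [h3, h1, ha, zero_mul, mul_zero, sub_zero]
    rw [← map_sub, ← mul_assoc, ← Algebra.commutes, mul_assoc, ← Algebra.smul_def] at h2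
    exact (smul_eq_zero.mp h2).resolve_left (sub_ne_zero.mpr fun h => hw h.symm)
  obtain ⟨r, hr, hr'⟩ := two_sided (F := K) hy
  have hu := cayley_unitary hs hr hr' (W := algebraMap K A w) (fun y => Algebra.commutes _ _)
    (hsK w)
  set u : A := (s + algebraMap K A w) * r with hu0
  have hu' : star u * u = 1 := by
    obtain ⟨d, hd1, hd2⟩ := two_sided (F := K) (y := star u) (fun a ha => by
      have h1 : u * (star u * a) = 0 := by rw [ha, mul_zero]
      rwa [← mul_assoc, hu, one_mul] at h1)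
    have h1 : d = u := by
      have h2 : u * (star u * d) = u := by rw [hd2, mul_one]
      rw [← mul_assoc, hu, one_mul] at h2
      exact h2
    rw [← h1]
    rwa [h1] at hd2 ⊢
  refine ⟨⟨⟨u, star u, hu, hu'⟩, hu⟩, ?_⟩
  change u * _ = _
  rw [hu0, mul_assoc, hr, mul_one]

/-- The local data at a place of division type. -/
structure LocDat {k K A Ω : Type} [Field k] [Field K] [Ring A] [StarRing A]
    [Algebra k A] [Algebra K A] [Field Ω] [Algebra K Ω] {n : ℕ}
    (f : A →ₐ[K] Matrix (Fin n) (Fin n) Ω) (F : Type) [NormedField F] [Algebra k F]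
    (D : Type) [NormedDivisionRing D] (ι : A →+* D) : Prop where
  coord : ∀ (M : ℕ) (B : Basis (Fin M) k A), ∃ C : ℝ, 0 < C ∧
        ∀ x j, ‖algebraMap k F (B.repr x j)‖ ≤ C * (‖ι x‖ + ‖ι (star x)‖)
  comm : ∀ x : A, (f x).det = 1 → ∀ ε : ℝ, 0 < ε → ∃ c ∈ commutator Dˣ, ‖(c : D) - ι x‖ < ε
  central : ∀ (z : K) (y : D), Commute (ι (algebraMap K A z)) y
  dense : ∀ (N : ℕ) (b : Basis (Fin N) K A) (y : D) (ε : ℝ), 0 < ε → ∃ (c : Fin N → F) (δ : ℝ),
        0 < δ ∧ ∀ a : Fin N → k, (∀ i, ‖algebraMap k F (a i) - c i‖ < δ) →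
          ‖ι (∑ i, a i • b i) - y‖ < ε
  small : ∀ ε : ℝ, 0 < ε → ∃ y : D, y ≠ 0 ∧ ‖y‖ < ε

theorem exists_locDat {F : Type} [NontriviallyNormedField F] [ProperSpace F]
    [IsUltrametricDist F] [Algebra k F]
    (fixed : ∀ x : K, star x = x ↔ x ∈ Set.range (algebraMap k K))
    (star_ne : ∃ x : K, star x ≠ x) (hn : 0 < n) (hA : finrank K A = n ^ 2)
    (f : A →ₐ[K] Matrix (Fin n) (Fin n) Ω) (φ : K →ₐ[k] F)
    (hdiv : letI := (φ : K →+* F).toAlgebra; ∀ x : F ⊗[K] A, x ≠ 0 → IsUnit x) :
    ∃ (D : Type) (_ : NormedDivisionRing D) (_ : IsUltrametricDist D) (_ : ProperSpace D)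
      (ι : A →+* D), LocDat (k := k) f F D ι := by
  obtain ⟨D, hD1, hD2, hD3, ι, h1, h2, h3, h4, h5⟩ :=
    exists_local_full fixed star_ne hn hA f φ hdiv
  exact ⟨D, hD1, hD2, hD3, ι, h1, h2, h3, h4, h5⟩

/-- The map of the unitary group to the local groups. -/
noncomputable def theta {S : Type} {D : S → Type} [∀ v, NormedDivisionRing (D v)]
    (ι : ∀ v, A →+* D v) : UA A →* ∀ v, (D v)ˣ :=
  MonoidHom.pi fun v => (Units.map (ι v : A →* D v)).comp (UA A).subtype

omit [FiniteDimensional K A] [Nontrivial A] [Algebra.IsCentral K A] in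
theorem theta_apply {S : Type} {D : S → Type} [∀ v, NormedDivisionRing (D v)]
    (ι : ∀ v, A →+* D v) (u : UA A) (v : S) : ((theta ι u v : (D v)ˣ) : D v) = ι v ((u : Aˣ) : A) :=
  rfl

omit [Algebra.IsCentral K A] in
/-- **Density of the unitary group** at finitely many places of division type. -/
theorem exists_unitary_near {S : Type} [Finite S] {F : S → Type} [∀ v, NormedField (F v)]
    [∀ v, Algebra k (F v)] {D : S → Type} [∀ v, NormedDivisionRing (D v)]
    (ι : ∀ v, A →+* D v) (f : A →ₐ[K] Matrix (Fin n) (Fin n) Ω)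
    (L : ∀ v, LocDat (k := k) f (F v) (D v) (ι v))
    (hWA : ∀ (y : ∀ v, F v) (η : ℝ), 0 < η → ∃ a : k, ∀ v, ‖algebraMap k (F v) a - y v‖ < η)
    (fixed : ∀ x : K, star x = x ↔ x ∈ Set.range (algebraMap k K))
    (star_ne : ∃ x : K, star x ≠ x) (haniso : ∀ x : A, star x * x = 0 → x = 0)
    (a : ∀ v, (D v)ˣ) {ε : ℝ} (hε : 0 < ε) :
    ∃ u : UA A, ∀ v, ‖ι v ((u : Aˣ) : A) - (a v : D v)‖ < ε := by
  classical
  obtain ⟨w, hw⟩ := star_ne
  obtain ⟨N, b, hb⟩ := exists_sym_basis (A := A) ⟨w, hw⟩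
  have hw0 : w - star w ≠ 0 := sub_ne_zero.mpr fun h => hw h.symm
  -- the local images of the scalars
  have hne : ∀ v, ι v (algebraMap K A w) - ι v (algebraMap K A (star w)) ≠ 0 := by
    intro v
    rw [← map_sub, ← map_sub]
    have h1 : ι v (algebraMap K A (w - star w)) * ι v (algebraMap K A (w - star w)⁻¹) = 1 := by
      rw [← map_mul, ← map_mul, mul_inv_cancel₀ hw0, map_one, map_one]
    exact left_ne_zero_of_mul_eq_one h1
  -- targets which are not one
  have h1 : ∀ v, ∃ a' : D v, a' ≠ 0 ∧ a' ≠ 1 ∧ ‖a' - a v‖ < ε / 2 := by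
    intro v
    by_cases ha : (a v : D v) = 1
    · obtain ⟨y, hy0, hy⟩ := (L v).small (min (ε / 2) 1) (by positivity)
      refine ⟨1 + y, ?_, ?_, ?_⟩
      · intro h
        have h2 : y = -1 := by rw [← sub_eq_zero]; rw [← h]; abel
        rw [h2, norm_neg, norm_one] at hy
        exact absurd (hy.trans_le (min_le_right _ _)) (lt_irrefl _)
      · intro h
        exact hy0 (by simpa using h)
      · rw [ha, add_sub_cancel_left]
        exact hy.trans_le (min_le_left _ _)
    · exact ⟨a v, Units.ne_zero _, ha, by rw [sub_self, norm_zero]; positivity⟩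
  choose a' ha0 ha1 haa using h1
  -- the Cayley parameters
  let s : ∀ v, D v := fun v => (1 - a' v)⁻¹ *
    (a' v * ι v (algebraMap K A (star w)) - ι v (algebraMap K A w))
  have hs : ∀ v, (s v + ι v (algebraMap K A w)) * (s v + ι v (algebraMap K A (star w)))⁻¹ = a' v ∧
      s v + ι v (algebraMap K A (star w)) ≠ 0 := by
    intro v
    set W := ι v (algebraMap K A w) with hW
    set W' := ι v (algebraMap K A (star w)) with hW'
    have h1a : 1 - a' v ≠ 0 := sub_ne_zero.mpr (ha1 v).symm
    have hWne : W' - W ≠ 0 := by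
      have := hne v
      rw [← hW, ← hW'] at this
      rw [← neg_sub]
      exact neg_ne_zero.mpr this
    have hgen : ∀ X V Y : D v, X + (1 - a' v) * V = Y →
        (1 - a' v)⁻¹ * X + V = (1 - a' v)⁻¹ * Y := by
      intro X V Y h
      rw [← h, mul_add, ← mul_assoc (1 - a' v)⁻¹ (1 - a' v) V, inv_mul_cancel₀ h1a, one_mul]
    have h2 : s v + W' = (1 - a' v)⁻¹ * (W' - W) := hgen _ _ _ (by noncomm_ring)
    have h3 : s v + W = (1 - a' v)⁻¹ * (a' v * (W' - W)) := hgen _ _ _ (by noncomm_ring)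
    have h4 : s v + W' ≠ 0 := by
      rw [h2]
      exact mul_ne_zero (inv_ne_zero h1a) hWne
    refine ⟨?_, h4⟩
    rw [h2, h3, mul_inv_rev, inv_inv]
    have h5 : Commute (1 - a' v)⁻¹ (a' v) :=
      ((Commute.one_left _).sub_left (Commute.refl _)).inv_left₀
    calc (1 - a' v)⁻¹ * (a' v * (W' - W)) * ((W' - W)⁻¹ * (1 - a' v)) =
          (1 - a' v)⁻¹ * a' v * ((W' - W) * (W' - W)⁻¹) * (1 - a' v) := by
            simp only [mul_assoc]
      _ = a' v := by
            rw [mul_inv_cancel₀ hWne, mul_one, h5.eq, mul_assoc, inv_mul_cancel₀ h1a, mul_one]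
  -- continuity
  have h2 : ∀ v, ∃ η : ℝ, 0 < η ∧ ∀ y : D v, ‖y - s v‖ < η →
      ‖(y + ι v (algebraMap K A w)) * (y + ι v (algebraMap K A (star w)))⁻¹ - a' v‖ < ε / 2 := by
    intro v
    have h3 : ContinuousAt (fun y : D v => (y + ι v (algebraMap K A w)) *
        (y + ι v (algebraMap K A (star w)))⁻¹) (s v) := by
      refine ContinuousAt.mul (by fun_prop) (ContinuousAt.inv₀ (by fun_prop) (hs v).2)
    obtain ⟨η, hη, h4⟩ := Metric.continuousAt_iff.mp h3 (ε / 2) (by positivity)
    refine ⟨η, hη, fun y hy => ?_⟩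
    have h5 := h4 (by rw [dist_eq_norm]; exact hy)
    rwa [(hs v).1, dist_eq_norm] at h5
  choose η hη0 hη using h2
  have h3 := fun v => (L v).dense N b (s v) (η v) (hη0 v)
  choose c δ hδ0 hδ using h3
  obtain ⟨δ', hδ', hδ1⟩ : ∃ δ' : ℝ, 0 < δ' ∧ ∀ v, δ' < δ v := by
    have h4 : ∀ᶠ x : ℝ in 𝓝[>] 0, 0 < x ∧ ∀ v, x < δ v := by
      refine Filter.Eventually.and self_mem_nhdsWithin (Filter.eventually_all.mpr fun v => ?_)
      exact nhdsWithin_le_nhds (Iio_mem_nhds (hδ0 v))
    exact h4.exists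
  have h4 : ∀ i, ∃ x : k, ∀ v, ‖algebraMap k (F v) x - c v i‖ < δ' := fun i => hWA _ _ hδ'
  choose x hx using h4
  -- the symmetric element
  set S0 : A := ∑ i, x i • b i with hS0
  have hS0s : star S0 = S0 := by
    rw [hS0, star_sum]
    refine Finset.sum_congr rfl fun i _ => ?_
    rw [← algebraMap_smul K, star_smul, hb, (fixed _).mpr ⟨x i, rfl⟩]
  obtain ⟨u, hu⟩ := exists_unitary_cayley haniso hw hS0s
  refine ⟨u, fun v => ?_⟩
  have h5 : ‖ι v S0 - s v‖ < η v := hδ v x fun i => (hx i v).trans (hδ1 v)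
  have h6 := hη v _ h5
  have h7 : ι v S0 + ι v (algebraMap K A (star w)) ≠ 0 := by
    intro h8
    have h9 := congrArg (ι v) hu
    rw [map_mul, map_add, map_add, h8, mul_zero] at h9
    apply hne v
    have h10 : ι v (algebraMap K A w) - ι v (algebraMap K A (star w)) =
        (ι v S0 + ι v (algebraMap K A w)) - (ι v S0 + ι v (algebraMap K A (star w))) := by abel
    rw [h10, ← h9, h8, sub_zero]
  have h8 : ι v ((u : Aˣ) : A) =
      (ι v S0 + ι v (algebraMap K A w)) * (ι v S0 + ι v (algebraMap K A (star w)))⁻¹ := by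
    have h9 := congrArg (ι v) hu
    rw [map_mul, map_add, map_add] at h9
    rw [← h9, mul_inv_cancel_right₀ h7]
  rw [← h8] at h6
  have h9 : ι v ((u : Aˣ) : A) - a v = (ι v ((u : Aˣ) : A) - a' v) + (a' v - a v) := by abel
  rw [h9]
  calc ‖(ι v ((u : Aˣ) : A) - a' v) + (a' v - a v)‖ ≤ _ := norm_add_le _ _
    _ < ε / 2 + ε / 2 := add_lt_add h6 (haa v)
    _ = ε := by ring

/-- **Density of the unitary group** at finitely many places of division type. -/
theorem denseRange_theta {S : Type} [Finite S] {F : S → Type} [∀ v, NormedField (F v)]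
    [∀ v, Algebra k (F v)] {D : S → Type} [∀ v, NormedDivisionRing (D v)]
    (ι : ∀ v, A →+* D v) (f : A →ₐ[K] Matrix (Fin n) (Fin n) Ω)
    (L : ∀ v, LocDat (k := k) f (F v) (D v) (ι v))
    (hWA : ∀ (y : ∀ v, F v) (η : ℝ), 0 < η → ∃ a : k, ∀ v, ‖algebraMap k (F v) a - y v‖ < η)
    (fixed : ∀ x : K, star x = x ↔ x ∈ Set.range (algebraMap k K))
    (star_ne : ∃ x : K, star x ≠ x) (haniso : ∀ x : A, star x * x = 0 → x = 0) :
    DenseRange (theta ι : UA A → ∀ v, (D v)ˣ) := by
  have := Fintype.ofFinite S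
  intro a
  have hind : IsInducing (fun (y : ∀ v, (D v)ˣ) (v : S) => ((y v : (D v)ˣ) : D v)) :=
    IsInducing.piMap fun v => (Units.isEmbedding_val₀ (G₀ := D v)).isInducing
  rw [hind.closure_eq_preimage_closure_image, Set.mem_preimage, Metric.mem_closure_iff]
  intro ε hε
  obtain ⟨u, hu⟩ := exists_unitary_near ι f L hWA fixed star_ne haniso a hε
  refine ⟨_, ⟨theta ι u, ⟨u, rfl⟩, rfl⟩, ?_⟩
  rw [dist_pi_lt_iff hε]
  intro v
  rw [dist_comm, dist_eq_norm]
  exact hu v

/-- **The commutator subgroup of the unitary group is dense in the group of the elements of reduced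
norm one** at finitely many places of division type. -/
theorem exists_commutator_theta {S : Type} [Finite S] {F : S → Type} [∀ v, NormedField (F v)]
    [∀ v, Algebra k (F v)] {D : S → Type} [∀ v, NormedDivisionRing (D v)]
    (ι : ∀ v, A →+* D v) (f : A →ₐ[K] Matrix (Fin n) (Fin n) Ω)
    (L : ∀ v, LocDat (k := k) f (F v) (D v) (ι v))
    (hWA : ∀ (y : ∀ v, F v) (η : ℝ), 0 < η → ∃ a : k, ∀ v, ‖algebraMap k (F v) a - y v‖ < η)
    (fixed : ∀ x : K, star x = x ↔ x ∈ Set.range (algebraMap k K))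
    (star_ne : ∃ x : K, star x ≠ x) (haniso : ∀ x : A, star x * x = 0 → x = 0)
    {x : UA A} (hx : (f ((x : Aˣ) : A)).det = 1) :
    theta ι x ∈ closure (theta ι '' (commutator (UA A) : Set (UA A))) := by
  have hd := denseRange_theta ι f L hWA fixed star_ne haniso
  set C : Subgroup (∀ v, (D v)ˣ) := ((commutator (UA A)).map (theta ι)).topologicalClosure with hC
  have hCc : (C : Set (∀ v, (D v)ˣ)) = closure (theta ι '' (commutator (UA A) : Set (UA A))) := by
    rw [hC, Subgroup.topologicalClosure_coe, Subgroup.coe_map]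
  have h1 : ∀ a b : ∀ v, (D v)ˣ, ⁅a, b⁆ ∈ C := by
    intro a b
    refine DenseRange.induction_on₂ (p := fun a b : ∀ v, (D v)ˣ => ⁅a, b⁆ ∈ C) hd ?_ ?_ a b
    · have h2 : IsClosed (C : Set (∀ v, (D v)ˣ)) := Subgroup.isClosed_topologicalClosure _
      refine h2.preimage (f := fun q : (∀ v, (D v)ˣ) × (∀ v, (D v)ˣ) => ⁅q.1, q.2⁆) ?_
      simp only [commutatorElement_def]
      fun_prop
    · intro u w
      refine Subgroup.le_topologicalClosure _ ⟨⁅u, w⁆, ?_, map_commutatorElement _ _ _⟩
      exact Subgroup.commutator_mem_commutator (Subgroup.mem_top _) (Subgroup.mem_top _)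
  have h2 : commutator (∀ v, (D v)ˣ) ≤ C := by
    rw [commutator_def, Subgroup.commutator_le]
    intro a _ b _
    exact h1 a b
  have h3 : ∀ c : ∀ v, (D v)ˣ, (∀ v, c v ∈ commutator (D v)ˣ) → c ∈ C := by
    intro c hc
    apply h2
    have h4 := Subgroup.commutator_pi_pi_of_finite (fun v => (⊤ : Subgroup (D v)ˣ))
      (fun v => (⊤ : Subgroup (D v)ˣ))
    rw [Subgroup.pi_top] at h4
    rw [commutator_def, h4]
    intro v _
    exact hc v
  have hCcl : IsClosed (C : Set (∀ v, (D v)ˣ)) := Subgroup.isClosed_topologicalClosure _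
  rw [← hCc, ← hCcl.closure_eq]
  have := Fintype.ofFinite S
  have hind : IsInducing (fun (y : ∀ v, (D v)ˣ) (v : S) => ((y v : (D v)ˣ) : D v)) :=
    IsInducing.piMap fun v => (Units.isEmbedding_val₀ (G₀ := D v)).isInducing
  rw [hind.closure_eq_preimage_closure_image, Set.mem_preimage, Metric.mem_closure_iff]
  intro ε hε
  have h5 := fun v => (L v).comm _ hx ε hε
  choose c hc hcn using h5
  refine ⟨_, ⟨c, h3 c hc, rfl⟩, ?_⟩
  rw [dist_pi_lt_iff hε]
  intro v
  rw [dist_comm, dist_eq_norm]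
  exact hcn v

/-- **Elements of reduced norm one of the unitary group are close to products of commutators of
unitary elements** at finitely many places of division type. -/
theorem exists_commutator_coord {S : Type} [Finite S] {F : S → Type}
    [∀ v, NontriviallyNormedField (F v)] [∀ v, ProperSpace (F v)] [∀ v, IsUltrametricDist (F v)]
    [∀ v, Algebra k (F v)] (hn : 0 < n) (hA : finrank K A = n ^ 2)
    (f : A →ₐ[K] Matrix (Fin n) (Fin n) Ω) (φ : ∀ v, K →ₐ[k] F v)
    (hdiv : ∀ v, letI := (φ v : K →+* F v).toAlgebra; ∀ x : F v ⊗[K] A, x ≠ 0 → IsUnit x)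
    (hWA : ∀ (y : ∀ v, F v) (η : ℝ), 0 < η → ∃ a : k, ∀ v, ‖algebraMap k (F v) a - y v‖ < η)
    (fixed : ∀ x : K, star x = x ↔ x ∈ Set.range (algebraMap k K))
    (star_ne : ∃ x : K, star x ≠ x) (haniso : ∀ x : A, star x * x = 0 → x = 0)
    {M : ℕ} (B : Basis (Fin M) k A)
    {x : UA A} (hx : (f ((x : Aˣ) : A)).det = 1) {ε : ℝ} (hε : 0 < ε) :
    ∃ c ∈ commutator (UA A), ∀ v j,
      ‖algebraMap k (F v) (B.repr ((((x * c⁻¹ : UA A) : Aˣ) : A) - 1) j)‖ < ε := by
  have h0 := fun v => exists_locDat fixed star_ne hn hA f (φ v) (hdiv v)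
  choose D hD1 hD2 hD3 ι L using h0
  have h1 := fun v => (L v).coord M B
  choose C hC hcoord using h1
  have h2 := exists_commutator_theta ι f L hWA fixed star_ne haniso hx
  -- the neighbourhood
  have h3 : ∀ᶠ y in 𝓝 (theta ι x), ∀ v, C v * (‖((theta ι x v * (y v)⁻¹ : (D v)ˣ) : D v) - 1‖ +
      ‖((y v * (theta ι x v)⁻¹ : (D v)ˣ) : D v) - 1‖) < ε := by
    refine Filter.eventually_all.mpr fun v => ?_
    have h4 : Continuous fun y : ∀ v, (D v)ˣ =>
        C v * (‖((theta ι x v * (y v)⁻¹ : (D v)ˣ) : D v) - 1‖ +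
          ‖((y v * (theta ι x v)⁻¹ : (D v)ˣ) : D v) - 1‖) := by
      have h5 : Continuous fun y : ∀ v, (D v)ˣ => y v := continuous_apply v
      have h6 : Continuous fun y : ∀ v, (D v)ˣ => ((theta ι x v * (y v)⁻¹ : (D v)ˣ) : D v) :=
        Units.continuous_val.comp (h5.inv.const_mul _)
      have h7 : Continuous fun y : ∀ v, (D v)ˣ => ((y v * (theta ι x v)⁻¹ : (D v)ˣ) : D v) :=
        Units.continuous_val.comp (h5.mul_const _)
      exact ((h6.sub continuous_const).norm.add (h7.sub continuous_const).norm).const_mul _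
    have h8 := h4.tendsto (theta ι x)
    rw [mul_inv_cancel, Units.val_one, sub_self, norm_zero, add_zero, mul_zero] at h8
    exact h8.eventually (Iio_mem_nhds hε)
  obtain ⟨y, hy, ⟨c, hc, rfl⟩⟩ := mem_closure_iff_nhds.mp h2 _ h3
  refine ⟨c, hc, fun v j => ?_⟩
  refine (hcoord v _ j).trans_lt ?_
  have h9 : ι v ((((x * c⁻¹ : UA A) : Aˣ) : A) - 1) =
      ((theta ι x v * (theta ι c v)⁻¹ : (D v)ˣ) : D v) - 1 := by
    rw [map_sub, map_one, ← theta_apply ι, map_mul, map_inv]
    rfl
  have h10 : ι v (star ((((x * c⁻¹ : UA A) : Aˣ) : A) - 1)) =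
      ((theta ι c v * (theta ι x v)⁻¹ : (D v)ˣ) : D v) - 1 := by
    rw [star_sub, star_one, ← ua_inv, mul_inv_rev, inv_inv, map_sub, map_one, ← theta_apply ι,
      map_mul, map_inv]
    rfl
  rw [h9, h10]
  exact hy v

end glob

end Vale.Agent.P011.H738
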