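import Vale.Agent.P011.H738.LocZ
import Vale.Agent.P011.H268.Nrd

/-!
The splitting of a locally compact division algebra by the centralizer of a multiplicative generator
of the residue field.
-/

open Module Topology

set_option linter.unusedSectionVars false

namespace Vale.Agent.P011.H738

section

variable {F D L : Type} [Field F] [NormedDivisionRing D] [IsUltrametricDist D] [Algebra F D]
  [Field L] [Algebra F L] {p N : ℕ} {ω : D} {f q : ℕ} {g : D}

/-- Everything: the crossed product structure and the field `L`, identified with the centralizer of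
`ω` by `ι`. -/
structure Full (F : Type) {D L : Type} [Field F] [NormedDivisionRing D] [Algebra F D]
    [Field L] [Algebra F L] (p N : ℕ) (ω : D) (f q : ℕ) (g : D) (ι : L →ₐ[F] D) : Prop where
  T : Teich D p N ω
  S : Str p N ω f q g
  range : ∀ x : D, (∃ y, ι y = x) ↔ Commute ω x

namespace Full

variable {ι : L →ₐ[F] D} (H : Full F p N ω f q g ι)

include H

theorem commute (y : L) : Commute ω (ι y) := (H.range _).mp ⟨y, rfl⟩

theorem exists_coord (x : D) : ∃ a : Fin f → L, x = ∑ i : Fin f, g ^ (i : ℕ) * ι (a i) := by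
  have h1 : ∀ i : ℕ, ∃ y : L, ι y = (g ^ i)⁻¹ * cmp p N ω (q ^ i) x := fun i =>
    (H.range _).mpr (H.S.commute_cmp H.T i x)
  choose y hy using h1
  refine ⟨fun i => y i, ?_⟩
  have h2 := H.S.sum_coord H.T x
  rw [Finset.sum_range] at h2
  conv_lhs => rw [← h2]
  exact Finset.sum_congr rfl fun i _ => by rw [hy]

/-- The coordinates. -/
noncomputable def co (x : D) : Fin f → L := (H.exists_coord x).choose

theorem co_spec (x : D) : x = ∑ i : Fin f, g ^ (i : ℕ) * ι (H.co x i) := (H.exists_coord x).choose_spec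

theorem coord_eq (a : Fin f → L) (i : Fin f) :
    (g ^ (i : ℕ))⁻¹ * cmp p N ω (q ^ (i : ℕ)) (∑ i : Fin f, g ^ (i : ℕ) * ι (a i)) = ι (a i) := by
  have h1 := H.S.coord_sum H.T (z := fun j => if h : j < f then ι (a ⟨j, h⟩) else 0)
    (fun j hj => by rw [dif_pos hj]; exact H.commute _) i.2
  rw [Finset.sum_range] at h1
  simp only [Fin.is_lt, dif_pos, Fin.eta] at h1
  exact h1

theorem coord_inj {a b : Fin f → L}
    (h : ∑ i : Fin f, g ^ (i : ℕ) * ι (a i) = ∑ i : Fin f, g ^ (i : ℕ) * ι (b i)) : a = b := by
  funext i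
  apply ι.toRingHom.injective
  change ι (a i) = ι (b i)
  rw [← H.coord_eq a i, ← H.coord_eq b i, h]

theorem co_eq {x : D} {a : Fin f → L} (h : x = ∑ i : Fin f, g ^ (i : ℕ) * ι (a i)) : H.co x = a :=
  H.coord_inj (by rw [← H.co_spec, ← h])

theorem ι_co (x : D) (i : Fin f) : ι (H.co x i) = (g ^ (i : ℕ))⁻¹ * cmp p N ω (q ^ (i : ℕ)) x := by
  conv_rhs => rw [H.co_spec x]
  exact (H.coord_eq _ _).symm

theorem continuous_co (i : Fin f) : Continuous fun x => ι (H.co x i) := by
  have h1 : (fun x => ι (H.co x i)) = fun x => (g ^ (i : ℕ))⁻¹ * cmp p N ω (q ^ (i : ℕ)) x :=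
    funext fun x => H.ι_co x i
  rw [h1]
  exact continuous_const.mul (continuous_cmp _)

/-- The linear equivalence given by the coordinates. -/
noncomputable def coEquiv : D ≃ₗ[F] (Fin f → L) where
  toFun := H.co
  map_add' x y := H.co_eq (by
    conv_lhs => rw [H.co_spec x, H.co_spec y]
    rw [← Finset.sum_add_distrib]
    exact Finset.sum_congr rfl fun i _ => by rw [Pi.add_apply, map_add, mul_add])
  map_smul' r x := H.co_eq (by
    conv_lhs => rw [H.co_spec x]
    rw [Finset.smul_sum]
    exact Finset.sum_congr rfl fun i _ => by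
      rw [Pi.smul_apply, map_smul, mul_smul_comm, RingHom.id_apply])
  invFun a := ∑ i : Fin f, g ^ (i : ℕ) * ι (a i)
  left_inv x := (H.co_spec x).symm
  right_inv a := H.co_eq rfl

/-- The splitting. -/
noncomputable def spl : D →ₐ[F] Matrix (Fin f) (Fin f) L where
  toFun x := Matrix.of fun i j => H.co (x * g ^ (j : ℕ)) i
  map_one' := by
    ext i j
    rw [Matrix.of_apply, H.co_eq (a := fun i => (1 : Matrix (Fin f) (Fin f) L) i j)]
    rw [Finset.sum_eq_single j]
    · rw [Matrix.one_apply_eq, map_one, mul_one, one_mul]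
    · intro b _ hb
      rw [Matrix.one_apply_ne hb, map_zero, mul_zero]
    · intro h
      exact absurd (Finset.mem_univ j) h
  map_mul' x y := by
    ext i k
    rw [Matrix.of_apply, Matrix.mul_apply]
    rw [H.co_eq (a := fun i => ∑ j : Fin f, H.co (x * g ^ (j : ℕ)) i * H.co (y * g ^ (k : ℕ)) j)]
    · simp only [Matrix.of_apply]
    · rw [mul_assoc, H.co_spec (y * g ^ (k : ℕ)), Finset.mul_sum]
      have h1 : ∀ j ∈ Finset.univ, x * (g ^ ((j : Fin f) : ℕ) * ι (H.co (y * g ^ (k : ℕ)) j)) =
          ∑ i : Fin f, g ^ (i : ℕ) * ι (H.co (x * g ^ (j : ℕ)) i * H.co (y * g ^ (k : ℕ)) j) := by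
        intro j _
        rw [← mul_assoc]
        conv_lhs => rw [H.co_spec (x * g ^ (j : ℕ))]
        rw [Finset.sum_mul]
        exact Finset.sum_congr rfl fun i _ => by rw [map_mul, mul_assoc]
      rw [Finset.sum_congr rfl h1, Finset.sum_comm]
      refine Finset.sum_congr rfl fun i _ => ?_
      rw [← Finset.mul_sum, ← map_sum, ← H.co_spec]
  map_zero' := by
    ext i j
    rw [Matrix.of_apply, H.co_eq (a := fun _ => 0)]
    · rfl
    · simp
  map_add' x y := by
    ext i j
    rw [Matrix.of_apply, Matrix.add_apply, Matrix.of_apply, Matrix.of_apply, add_mul]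
    exact congrFun (H.coEquiv.map_add _ _) i
  commutes' r := by
    ext i j
    rw [Matrix.of_apply, H.co_eq (a := fun i => (algebraMap F (Matrix (Fin f) (Fin f) L) r) i j)]
    rw [Finset.sum_eq_single j]
    · rw [Matrix.algebraMap_matrix_apply, if_pos rfl, ι.commutes, Algebra.commutes]
    · intro b _ hb
      rw [Matrix.algebraMap_matrix_apply, if_neg hb, map_zero, mul_zero]
    · intro h
      exact absurd (Finset.mem_univ j) h

theorem spl_apply (x : D) (i j : Fin f) : H.spl x i j = H.co (x * g ^ (j : ℕ)) i := rfl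

theorem continuous_prod {X κ : Type} [TopologicalSpace X] (s : Finset κ) (a : X → κ → L)
    (h : ∀ k ∈ s, Continuous fun x => ι (a x k)) : Continuous fun x => ι (∏ k ∈ s, a x k) := by
  classical
  induction s using Finset.induction_on with
  | empty => simpa using continuous_const
  | insert k s hk ih =>
    have h1 : (fun x => ι (∏ k ∈ insert k s, a x k)) =
        fun x => ι (a x k) * ι (∏ k ∈ s, a x k) := by
      funext x
      rw [Finset.prod_insert hk, map_mul]
    rw [h1]
    exact (h k (Finset.mem_insert_self _ _)).mul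
      (ih fun k' hk' => h k' (Finset.mem_insert_of_mem hk'))

theorem continuous_det : Continuous fun x => ι (H.spl x).det := by
  have h1 : (fun x => ι (H.spl x).det) = fun x =>
      ∑ σ : Equiv.Perm (Fin f), ((Equiv.Perm.sign σ : ℤˣ) : ℤ) • ι (∏ i, H.spl x (σ i) i) := by
    funext x
    rw [Matrix.det_apply, map_sum]
    refine Finset.sum_congr rfl fun σ _ => ?_
    rw [Units.smul_def, map_zsmul]
  rw [h1]
  refine continuous_finsetSum _ fun σ _ => ?_
  refine Continuous.zsmul ?_ _
  refine H.continuous_prod _ _ fun i _ => ?_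
  exact (H.continuous_co (σ i)).comp (continuous_id.mul continuous_const)

/-- The image of the field. -/
theorem spl_ι (z : L) (d : Fin f → L) (hd : ∀ j : Fin f, ι (d j) = (g ^ (j : ℕ))⁻¹ * ι z * g ^ (j : ℕ)) :
    H.spl (ι z) = Matrix.diagonal d := by
  ext i j
  rw [H.spl_apply, H.co_eq (a := fun i => Matrix.diagonal d i j)]
  rw [Finset.sum_eq_single j]
  · rw [Matrix.diagonal_apply_eq, hd, ← mul_assoc, ← mul_assoc,
      mul_inv_cancel₀ (pow_ne_zero _ H.S.g_ne), one_mul]
  · intro b _ hb
    rw [Matrix.diagonal_apply_ne _ hb, map_zero, mul_zero]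
  · intro h
    exact absurd (Finset.mem_univ j) h

variable [FiniteDimensional F D]

theorem finrank_eq : finrank F D = f * finrank F L := by
  have h0 : FiniteDimensional F L :=
    FiniteDimensional.of_injective ι.toLinearMap ι.toRingHom.injective
  rw [H.coEquiv.finrank_eq, Module.finrank_pi_fintype, Finset.sum_const, Finset.card_univ,
    Fintype.card_fin, smul_eq_mul]

theorem le_finrank : f ≤ finrank F L := by
  have h0 : FiniteDimensional F L :=
    FiniteDimensional.of_injective ι.toLinearMap ι.toRingHom.injective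
  obtain ⟨w, hw⟩ := (H.range ω).mpr (Commute.refl ω)
  have hP0 : minpoly F w ≠ 0 := minpoly.ne_zero (Algebra.IsIntegral.isIntegral w)
  -- the conjugates are roots
  have hroot : ∀ a : ℕ, Polynomial.aeval (w ^ q ^ a) (minpoly F w) = 0 := by
    intro a
    apply ι.toRingHom.injective
    change ι _ = ι 0
    rw [map_zero]
    have hga : g ^ a ≠ 0 := pow_ne_zero _ H.S.g_ne
    have h1 : ι (Polynomial.aeval (w ^ q ^ a) (minpoly F w)) =
        Polynomial.aeval (ω ^ q ^ a) (minpoly F w) := by
      rw [← Polynomial.aeval_algHom_apply, map_pow, hw]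
    have h2 : Polynomial.aeval ω (minpoly F w) = 0 := by
      rw [← hw, Polynomial.aeval_algHom_apply, minpoly.aeval, map_zero]
    have h3 : ω ^ q ^ a = (g ^ a)⁻¹ * ω * g ^ a := by
      rw [mul_assoc, H.S.gpow H.T, ← mul_assoc, inv_mul_cancel₀ hga, one_mul]
    let c : D →ₐ[F] D :=
      { toFun := fun x => (g ^ a)⁻¹ * x * g ^ a
        map_one' := by rw [mul_one, inv_mul_cancel₀ hga]
        map_mul' := fun x y => by
          rw [mul_assoc ((g ^ a)⁻¹ * x) (g ^ a), ← mul_assoc (g ^ a) ((g ^ a)⁻¹ * y),
            ← mul_assoc (g ^ a) (g ^ a)⁻¹ y, mul_inv_cancel₀ hga, one_mul]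
          simp only [mul_assoc]
        map_zero' := by rw [mul_zero, zero_mul]
        map_add' := fun x y => by rw [mul_add, add_mul]
        commutes' := fun r => by
          rw [← Algebra.commutes r, mul_assoc, inv_mul_cancel₀ hga, mul_one] }
    have h4 : c ω = ω ^ q ^ a := h3.symm
    rw [h1, ← h4, Polynomial.aeval_algHom_apply, h2, map_zero]
  classical
  have h5 : ((Finset.range f).image fun a => w ^ q ^ a).card = f := by
    rw [Finset.card_image_of_injOn, Finset.card_range]
    intro a ha b hb hab
    rw [Finset.mem_coe, Finset.mem_range] at ha hb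
    refine H.S.dist a b ha hb (H.T.modEq_of_eq ?_)
    have h6 := congrArg ι hab
    rwa [map_pow, map_pow, hw] at h6
  have h7 : ((Finset.range f).image fun a => w ^ q ^ a).val ⊆
      ((minpoly F w).map (algebraMap F L)).roots := by
    intro y hy
    obtain ⟨a, -, rfl⟩ := Finset.mem_image.mp (Finset.mem_val.mp hy)
    rw [Polynomial.mem_roots (Polynomial.map_ne_zero hP0), Polynomial.IsRoot.def,
      Polynomial.eval_map_algebraMap]
    exact hroot a
  have h8 := Polynomial.card_le_degree_of_subset_roots h7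
  rw [h5, Polynomial.natDegree_map] at h8
  exact h8.trans (minpoly.natDegree_le w)

/-- The degree. -/
theorem eq_degree [Algebra.IsCentral F D] {n : ℕ} (hn : finrank F D = n ^ 2) : f = n := by
  have h1 := H.finrank_eq
  have h2 := H.le_finrank
  have h3 := Vale.Agent.P011.H268.splitS_indep H.S.f_pos H.spl (Module.finBasis F D)
  have h4 := h3.fintype_card_le_finrank
  rw [Fintype.card_fin, Module.finrank_matrix, Fintype.card_fin, Module.finrank_self, mul_one]
    at h4
  rw [hn] at h1 h4
  refine le_antisymm ?_ ?_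
  · have h5 : f * f ≤ n * n := by
      calc f * f ≤ f * finrank F L := Nat.mul_le_mul_left _ h2
        _ = n * n := by rw [← h1, sq]
    exact Nat.mul_self_le_mul_self_iff.mp h5
  · have h5 : n * n ≤ f * f := by rw [← sq]; exact h4
    exact Nat.mul_self_le_mul_self_iff.mp h5

end Full

end

end Vale.Agent.P011.H738
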