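import Vale.Agent.P011.H738.LocDet
import Mathlib.LinearAlgebra.LinearIndependent.Lemmas
import Mathlib.FieldTheory.Minpoly.Field
import Mathlib.LinearAlgebra.Dual.Lemmas

/-!
The centralizer of `ω` is a field, Hilbert 90 for it.
-/

open Module Topology

set_option linter.unusedSectionVars false

namespace Vale.Agent.P011.H738

section

/-- A locally compact division algebra has a crossed product structure. -/
theorem exists_full (F D : Type) [NontriviallyNormedField F] [ProperSpace F]
    [NormedDivisionRing D] [IsUltrametricDist D] [ProperSpace D] [NormedAlgebra F D]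
    [FiniteDimensional F D] :
    ∃ (p N : ℕ) (ω : D) (f q : ℕ) (g : D) (L : Type) (_ : Field L) (_ : Algebra F L)
      (ι : L →ₐ[F] D), Full F p N ω f q g ι := by
  obtain ⟨p, N, ω, T⟩ := exists_teich D
  obtain ⟨f, q, g, S⟩ := T.exists_str
  let C := Subalgebra.centralizer F ({ω} : Set D)
  have hC : ∀ x : D, x ∈ C ↔ Commute ω x := by
    intro x
    rw [Subalgebra.mem_centralizer_iff]
    constructor
    · intro h
      exact h ω rfl
    · rintro h y rfl
      exact h
  let hF : Field C :=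
    { (inferInstance : Ring C) with
      mul_comm := fun x y => Subtype.ext (T.comm F ((hC _).mp x.2) ((hC _).mp y.2)).eq
      inv := fun x => ⟨(x : D)⁻¹, (hC _).mpr ((hC _).mp x.2).inv_right₀⟩
      exists_pair_ne := ⟨0, 1, fun h => zero_ne_one (congrArg (Subtype.val : C → D) h)⟩
      mul_inv_cancel := fun x hx => Subtype.ext (mul_inv_cancel₀ fun h => hx (Subtype.ext h))
      inv_zero := Subtype.ext inv_zero
      nnqsmul := _
      nnqsmul_def := fun _ _ => rfl
      qsmul := _
      qsmul_def := fun _ _ => rfl }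
  refine ⟨p, N, ω, f, q, g, C, hF, (inferInstance : Algebra F C), C.val, T, S, fun x => ?_⟩
  rw [← hC]
  exact ⟨fun ⟨y, hy⟩ => hy ▸ y.2, fun h => ⟨⟨x, h⟩, rfl⟩⟩

variable {F D L : Type} [Field F] [NormedDivisionRing D] [IsUltrametricDist D] [Algebra F D]
  [Field L] [Algebra F L] {p N : ℕ} {ω : D} {f q : ℕ} {g : D} {ι : L →ₐ[F] D}

namespace Full

variable (H : Full F p N ω f q g ι)

include H

theorem ι_inj : Function.Injective ι := ι.toRingHom.injective

/-- The conjugation by the powers of `g`. -/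
theorem exists_sig (a : ℕ) : ∃ s : L →ₐ[F] L, ∀ z, ι (s z) = (g ^ a)⁻¹ * ι z * g ^ a := by
  have hga : g ^ a ≠ 0 := pow_ne_zero _ H.S.g_ne
  have h1 : ∀ z : L, ∃ y : L, ι y = (g ^ a)⁻¹ * ι z * g ^ a := fun z =>
    (H.range _).mpr (H.S.conj_mem' H.T (H.commute z) a)
  choose s hs using h1
  refine ⟨{ toFun := s, map_one' := ?_, map_mul' := ?_, map_zero' := ?_, map_add' := ?_,
            commutes' := ?_ }, hs⟩
  · apply ι.toRingHom.injective
    change ι _ = ι _
    rw [hs, map_one, mul_one, inv_mul_cancel₀ hga]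
  · intro x y
    apply ι.toRingHom.injective
    change ι _ = ι _
    rw [hs, map_mul, map_mul, hs, hs]
    rw [mul_assoc ((g ^ a)⁻¹ * ι x) (g ^ a), ← mul_assoc (g ^ a) ((g ^ a)⁻¹ * ι y),
      ← mul_assoc (g ^ a) (g ^ a)⁻¹ (ι y), mul_inv_cancel₀ hga, one_mul]
    simp only [mul_assoc]
  · apply ι.toRingHom.injective
    change ι _ = ι _
    rw [hs, map_zero, mul_zero, zero_mul]
  · intro x y
    apply ι.toRingHom.injective
    change ι _ = ι _
    rw [hs, map_add, map_add, hs, hs, mul_add, add_mul]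
  · intro r
    apply ι.toRingHom.injective
    change ι _ = ι _
    rw [hs, ι.commutes, ← Algebra.commutes r, mul_assoc, inv_mul_cancel₀ hga, mul_one]

/-- The conjugation by the powers of `g`. -/
noncomputable def sig (a : ℕ) : L →ₐ[F] L := (H.exists_sig a).choose

theorem ι_sig (a : ℕ) (z : L) : ι (H.sig a z) = (g ^ a)⁻¹ * ι z * g ^ a :=
  (H.exists_sig a).choose_spec z

theorem sig_sig (a b : ℕ) (z : L) : H.sig a (H.sig b z) = H.sig (b + a) z := by
  apply ι.toRingHom.injective
  change ι _ = ι _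
  rw [H.ι_sig, H.ι_sig, H.ι_sig, pow_add, mul_inv_rev]
  simp only [mul_assoc]

theorem sig_zero (z : L) : H.sig 0 z = z := by
  apply ι.toRingHom.injective
  change ι _ = ι _
  rw [H.ι_sig, pow_zero, inv_one, one_mul, mul_one]

theorem sig_f (z : L) : H.sig f z = z := by
  apply ι.toRingHom.injective
  change ι _ = ι _
  obtain ⟨y, hy⟩ := (H.range _).mpr (H.S.g_pow_f H.T)
  have h1 : ι z * g ^ f = g ^ f * ι z := by rw [← hy, ← map_mul, ← map_mul, mul_comm]
  rw [H.ι_sig, mul_assoc, h1, ← mul_assoc, inv_mul_cancel₀ (pow_ne_zero _ H.S.g_ne), one_mul]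

theorem sig_inj {a b : ℕ} (ha : a < f) (hb : b < f)
    (h : ((H.sig a : L →ₐ[F] L) : L →* L) = ((H.sig b : L →ₐ[F] L) : L →* L)) : a = b := by
  obtain ⟨w, hw⟩ := (H.range ω).mpr (Commute.refl ω)
  refine H.S.dist a b ha hb (H.T.modEq_of_eq ?_)
  have h1 : ∀ a : ℕ, ι (H.sig a w) = ω ^ q ^ a := by
    intro a
    rw [H.ι_sig, hw, mul_assoc, H.S.gpow H.T, ← mul_assoc,
      inv_mul_cancel₀ (pow_ne_zero _ H.S.g_ne), one_mul]
  have h2 : H.sig a w = H.sig b w := DFunLike.congr_fun h w
  rw [← h1, ← h1, h2]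

theorem det_ι (z : L) : (H.spl (ι z)).det = ∏ j : Fin f, H.sig j z := by
  rw [H.spl_ι z (fun j => H.sig j z) (fun j => H.ι_sig j z), Matrix.det_diagonal]

/-- **Hilbert 90.** -/
theorem hilbert90 {w : L} (hw : (H.spl (ι w)).det = 1) :
    ∃ y : L, y ≠ 0 ∧ w * H.sig 1 y = y := by
  classical
  rw [H.det_ι] at hw
  -- the cocycle
  let a : ℕ → L := fun i => ∏ j ∈ Finset.range i, H.sig j w
  have ha0 : a 0 = 1 := by simp [a]
  have haf : a f = 1 := by
    change ∏ j ∈ Finset.range f, H.sig j w = 1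
    rw [Finset.prod_range]
    exact hw
  have hsucc : ∀ i, w * H.sig 1 (a i) = a (i + 1) := by
    intro i
    change w * H.sig 1 (∏ j ∈ Finset.range i, H.sig j w) = ∏ j ∈ Finset.range (i + 1), H.sig j w
    rw [map_prod, Finset.prod_range_succ', H.sig_zero, mul_comm]
    congr 1
    exact Finset.prod_congr rfl fun j _ => by rw [H.sig_sig]
  -- independence of the characters
  let s : Fin f → (L →* L) := fun i => ((H.sig i : L →ₐ[F] L) : L →* L)
  have hs : Function.Injective s := fun i j h => Fin.ext (H.sig_inj i.2 j.2 h)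
  have hind : LinearIndependent L (fun i => (s i : L → L)) :=
    (linearIndependent_monoidHom L L).comp s hs
  obtain ⟨v, hv⟩ : ∃ v : L, ∑ i : Fin f, a i * H.sig i v ≠ 0 := by
    by_contra hcon
    push Not at hcon
    have h1 : ∑ i : Fin f, a i • (s i : L → L) = 0 := by
      funext v
      rw [Finset.sum_apply]
      exact hcon v
    have h2 := Fintype.linearIndependent_iff.mp hind (fun i => a i) h1 ⟨0, H.S.f_pos⟩
    change a 0 = 0 at h2
    rw [ha0] at h2
    exact one_ne_zero h2
  refine ⟨_, hv, ?_⟩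
  rw [← Finset.sum_range (fun i => a i * H.sig i v), map_sum, Finset.mul_sum]
  have h3 : ∀ i ∈ Finset.range f, w * H.sig 1 (a i * H.sig i v) = a (i + 1) * H.sig (i + 1) v := by
    intro i _
    rw [map_mul, ← mul_assoc, hsucc, H.sig_sig]
  rw [Finset.sum_congr rfl h3]
  have h4 := Finset.sum_range_succ' (fun i => a i * H.sig i v) f
  rw [Finset.sum_range_succ, haf, H.sig_f, ha0, H.sig_zero] at h4
  exact (add_right_cancel h4).symm

end Full

end

end Vale.Agent.P011.H738
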