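import Vale.Agent.P011.H738.LocH90
import Mathlib.GroupTheory.Abelianization.Defs
import Mathlib.GroupTheory.Commutator.Basic

/-!
Elements of reduced norm one of a locally compact division algebra are limits of products of
commutators.
-/

open Module Topology commutatorElement

set_option linter.unusedSectionVars false

namespace Vale.Agent.P011.H738

section

variable {D : Type*} [NormedDivisionRing D] [IsUltrametricDist D] {p N : ℕ} {ω : D}

omit [IsUltrametricDist D] in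
theorem norm_one_add_of_lt {D : Type*} [NormedDivisionRing D] [IsUltrametricDist D] {z : D}
    (hz : ‖z‖ < 1) : ‖1 + z‖ = 1 := by
  refine norm_eq_one_of_near ?_
  rw [add_sub_cancel_left]
  exact hz

namespace Teich

variable (T : Teich D p N ω)

include T

/-- The case in which conjugation by `y` moves the residue of `ω`. -/
theorem improve_of_ne {y : D} (hy0 : y ≠ 0) (hy : ‖y‖ < 1) (h : ¬ ‖ω * y - y * ω‖ < ‖y‖) :
    ∃ a b : Dˣ, ‖1 + y - ((⁅a, b⁆ : Dˣ) : D)‖ < ‖y‖ ∧ ‖((⁅a, b⁆ : Dˣ) : D)‖ = 1 := by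
  have hω0 := T.ne_zero
  have hypos : 0 < ‖y‖ := norm_pos_iff.mpr hy0
  obtain ⟨k, hk⟩ := T.surj (y * ω * y⁻¹) (by
    rw [norm_mul, norm_mul, norm_inv, T.norm_eq, mul_one, mul_inv_cancel₀ hypos.ne'])
  -- the power `k` is not one
  have hk1 : ‖ω ^ k * y - y * ω‖ < ‖y‖ := by
    have h1 : ω ^ k * y - y * ω = -((y * ω * y⁻¹ - ω ^ k) * y) := by
      rw [sub_mul, inv_mul_cancel_right₀ hy0]
      abel
    rw [h1, norm_neg, norm_mul]
    exact mul_lt_of_lt_one_left hypos hk
  have hk2 : ‖1 - ω * (ω⁻¹) ^ k‖ = 1 := by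
    have h1 : ‖1 - ω * (ω⁻¹) ^ k‖ ≤ 1 := by
      have h2 := IsUltrametricDist.norm_add_le_max (1 : D) (-(ω * (ω⁻¹) ^ k))
      rw [← sub_eq_add_neg, norm_neg, norm_one, norm_mul, norm_pow, norm_inv, T.norm_eq, inv_one,
        one_pow, mul_one, max_self] at h2
      exact h2
    rcases h1.lt_or_eq with hlt | heq
    · exfalso
      apply h
      have h3 : ω * y - y * ω = (ω ^ k * y - y * ω) - (1 - ω * (ω⁻¹) ^ k) * (ω ^ k * y) := by
        rw [sub_mul, one_mul, inv_pow, mul_assoc ω, inv_mul_cancel_left₀ (pow_ne_zero _ hω0)]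
        abel
      rw [h3, sub_eq_add_neg]
      refine (IsUltrametricDist.norm_add_le_max _ _).trans_lt (max_lt hk1 ?_)
      rw [norm_neg, norm_mul, norm_mul, norm_pow, T.norm_eq, one_pow, one_mul]
      exact mul_lt_of_lt_one_left hypos hlt
    · exact heq
  set ζ := 1 - ω * (ω⁻¹) ^ k with hζ
  have hζ0 : ζ ≠ 0 := norm_ne_zero_iff.mp (by rw [hk2]; exact one_ne_zero)
  set η := ζ⁻¹ with hη
  have hηn : ‖η‖ = 1 := by rw [hη, norm_inv, hk2, inv_one]
  have hηω : Commute ω η := by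
    rw [hη, hζ]
    refine Commute.inv_right₀ ((Commute.one_right ω).sub_right ?_)
    exact (Commute.refl ω).mul_right (((Commute.refl ω).inv_right₀).pow_right k)
  set z := η * y with hz
  have hzn : ‖z‖ = ‖y‖ := by rw [hz, norm_mul, hηn, one_mul]
  have hz1 : ‖1 + z‖ = 1 := norm_one_add_of_lt (by rw [hzn]; exact hy)
  have hz0 : 1 + z ≠ 0 := norm_ne_zero_iff.mp (by rw [hz1]; exact one_ne_zero)
  set z' := ω * z * ω⁻¹ with hz'
  have hzn' : ‖z'‖ = ‖y‖ := by
    rw [hz', norm_mul, norm_mul, norm_inv, T.norm_eq, inv_one, mul_one, one_mul, hzn]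
  have hz1' : ‖1 + z'‖ = 1 := norm_one_add_of_lt (by rw [hzn']; exact hy)
  have hz0' : 1 + z' ≠ 0 := norm_ne_zero_iff.mp (by rw [hz1']; exact one_ne_zero)
  have hc : ((⁅Units.mk0 (1 + z) hz0, Units.mk0 ω hω0⁆ : Dˣ) : D) = (1 + z) * (1 + z')⁻¹ := by
    rw [commutatorElement_def]
    rw [Units.val_mul, Units.val_mul, Units.val_mul, Units.val_inv_eq_inv_val,
      Units.val_inv_eq_inv_val, Units.val_mk0, Units.val_mk0, mul_assoc (1 + z), mul_assoc (1 + z)]
    congr 1
    apply eq_inv_of_mul_eq_one_left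
    have h1 : 1 + z' = ω * (1 + z) * ω⁻¹ := by
      rw [hz', mul_add, mul_one, add_mul, mul_inv_cancel₀ hω0]
    rw [h1, mul_assoc (ω * (1 + z)⁻¹), ← mul_assoc ω⁻¹, ← mul_assoc ω⁻¹ ω, inv_mul_cancel₀ hω0,
      one_mul, mul_assoc ω, ← mul_assoc (1 + z)⁻¹, inv_mul_cancel₀ hz0, one_mul,
      mul_inv_cancel₀ hω0]
  refine ⟨Units.mk0 (1 + z) hz0, Units.mk0 ω hω0, ?_, ?_⟩
  · rw [hc]
    have h1 : (1 + y - (1 + z) * (1 + z')⁻¹) * (1 + z') =
        (y - (z - z')) + y * z' := by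
      rw [sub_mul, inv_mul_cancel_right₀ hz0', mul_add, mul_one, add_mul, one_mul]
      abel
    have h2 : ‖(1 + y - (1 + z) * (1 + z')⁻¹) * (1 + z')‖ < ‖y‖ := by
      rw [h1]
      refine (IsUltrametricDist.norm_add_le_max _ _).trans_lt (max_lt ?_ ?_)
      · have h3 : y - (z - z') = η * ω * ((ω⁻¹) ^ k * ((ω ^ k * y - y * ω) * ω⁻¹)) := by
          have h4 : y = η * (ζ * y) := by
            rw [← mul_assoc, hη, inv_mul_cancel₀ hζ0, one_mul]
          have h5 : z' = η * ω * (y * ω⁻¹) := by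
            rw [hz', hz, ← mul_assoc ω, hηω.eq, mul_assoc (η * ω)]
          have h6 : (ω⁻¹) ^ k * ((ω ^ k * y - y * ω) * ω⁻¹) = y * ω⁻¹ - (ω⁻¹) ^ k * y := by
            rw [sub_mul, mul_sub, mul_inv_cancel_right₀ hω0, mul_assoc, ← mul_assoc ((ω⁻¹) ^ k),
              inv_pow, inv_mul_cancel₀ (pow_ne_zero _ hω0), one_mul]
          rw [h6, h5]
          calc y - (z - η * ω * (y * ω⁻¹)) = η * (ζ * y) - (η * y - η * ω * (y * ω⁻¹)) := by
                rw [← h4]
            _ = η * ω * (y * ω⁻¹ - (ω⁻¹) ^ k * y) := by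
                rw [hζ]
                simp only [sub_mul, mul_sub, one_mul, mul_assoc]
                abel
        rw [h3, norm_mul, norm_mul, norm_mul, norm_mul, hηn, T.norm_eq, norm_pow, norm_inv,
          T.norm_eq, inv_one, one_pow, one_mul, one_mul, one_mul, mul_one]
        exact hk1
      · rw [norm_mul, hzn']
        exact mul_lt_of_lt_one_left hypos hy
    rwa [norm_mul, hz1', mul_one] at h2
  · rw [hc, norm_mul, norm_inv, hz1, hz1', inv_one, mul_one]

/-- The case in which conjugation by `y` does not move the residue of `ω`. -/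
theorem improve_of_lt {y : D} (hy0 : y ≠ 0) (h : ‖ω * y - y * ω‖ < ‖y‖) :
    ∃ z : D, Commute ω z ∧ ‖y - z‖ < ‖y‖ := by
  have hω0 := T.ne_zero
  have hypos : 0 < ‖y‖ := norm_pos_iff.mpr hy0
  have h1 : ∀ m : ℕ, ‖ω ^ m * y - y * ω ^ m‖ < ‖y‖ := by
    intro m
    induction m with
    | zero => rw [pow_zero, one_mul, mul_one, sub_self, norm_zero]; exact hypos
    | succ m ih =>
      have h2 : ω ^ (m + 1) * y - y * ω ^ (m + 1) =
          ω * (ω ^ m * y - y * ω ^ m) + (ω * y - y * ω) * ω ^ m := by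
        rw [mul_sub, sub_mul, pow_succ']
        simp only [mul_assoc]
        abel
      rw [h2]
      refine (IsUltrametricDist.norm_add_le_max _ _).trans_lt (max_lt ?_ ?_)
      · rw [norm_mul, T.norm_eq, one_mul]
        exact ih
      · rw [norm_mul, norm_pow, T.norm_eq, one_pow, mul_one]
        exact h
  refine ⟨cmp p N ω 1 y, ?_, ?_⟩
  · have h2 := T.cmp_mem 1 y
    rw [pow_one] at h2
    exact h2
  · have h2 : y - cmp p N ω 1 y = ((p ^ N - 1 : ℕ) : D)⁻¹ *
        ∑ m ∈ Finset.range (p ^ N - 1), (y - ω ^ m * y * (ω⁻¹) ^ (1 * m)) := by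
      rw [Finset.sum_sub_distrib, mul_sub, Finset.sum_const, Finset.card_range, nsmul_eq_mul,
        ← mul_assoc, inv_mul_cancel₀ T.e_ne, one_mul]
      rfl
    rw [h2, norm_mul, norm_inv, T.norm_e, inv_one, one_mul]
    obtain ⟨m, -, hm⟩ := IsUltrametricDist.exists_norm_finsetSum_le_of_nonempty
      (Finset.nonempty_range_iff.mpr T.e_pos.ne') (fun m => y - ω ^ m * y * (ω⁻¹) ^ (1 * m))
    refine hm.trans_lt ?_
    have h3 : y - ω ^ m * y * (ω⁻¹) ^ (1 * m) = -((ω ^ m * y - y * ω ^ m) * (ω⁻¹) ^ m) := by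
      rw [one_mul, sub_mul, inv_pow, mul_inv_cancel_right₀ (pow_ne_zero _ hω0)]
      abel
    rw [h3, norm_neg, norm_mul, norm_pow, norm_inv, T.norm_eq, inv_one, one_pow, mul_one]
    exact h1 m

end Teich

end

section

variable {F D L : Type} [Field F] [NormedDivisionRing D] [IsUltrametricDist D] [Algebra F D]
  [Field L] [Algebra F L] {p N : ℕ} {ω : D} {f q : ℕ} {g : D} {ι : L →ₐ[F] D}

namespace Full

variable (H : Full F p N ω f q g ι)

include H

theorem exists_step {ρ : ℝ} (hρ : ∀ x : D, ‖x‖ < 1 → ‖x‖ ≤ ρ) {y : D} (hy : ‖y‖ < 1) :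
    ∃ c ∈ commutator Dˣ, ∃ w : L, ‖ι w‖ = 1 ∧ ∃ y' : D, ‖y'‖ ≤ ρ * ‖y‖ ∧
      1 + y = (c : D) * ι w * (1 + y') := by
  rcases eq_or_ne y 0 with rfl | hy0
  · exact ⟨1, one_mem _, 1, by rw [map_one, norm_one], 0, by simp, by simp⟩
  have hypos : 0 < ‖y‖ := norm_pos_iff.mpr hy0
  have hle : ∀ {a : D}, ‖a‖ < ‖y‖ → ‖a‖ ≤ ρ * ‖y‖ := by
    intro a ha
    have h1 : ‖a * y⁻¹‖ < 1 := by
      rw [norm_mul, norm_inv, ← div_eq_mul_inv, div_lt_one hypos]
      exact ha
    have h2 := hρ _ h1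
    rwa [norm_mul, norm_inv, ← div_eq_mul_inv, div_le_iff₀ hypos] at h2
  by_cases h : ‖ω * y - y * ω‖ < ‖y‖
  · obtain ⟨z, hz, hyz⟩ := H.T.improve_of_lt hy0 h
    obtain ⟨w, hw⟩ := (H.range z).mpr hz
    have hzn : ‖z‖ < 1 := by
      have h1 : z = y + -(y - z) := by abel
      rw [h1]
      refine (IsUltrametricDist.norm_add_le_max _ _).trans_lt (max_lt hy ?_)
      rw [norm_neg]
      exact hyz.trans hy
    have hz1 : ‖1 + z‖ = 1 := norm_one_add_of_lt hzn
    have hz0 : 1 + z ≠ 0 := norm_ne_zero_iff.mp (by rw [hz1]; exact one_ne_zero)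
    refine ⟨1, one_mem _, 1 + w, ?_, (1 + z)⁻¹ * (y - z), ?_, ?_⟩
    · rw [map_add, map_one, hw]
      exact hz1
    · rw [norm_mul, norm_inv, hz1, inv_one, one_mul]
      exact hle hyz
    · rw [map_add, map_one, hw, Units.val_one, one_mul, mul_add, mul_one, ← mul_assoc,
        mul_inv_cancel₀ hz0, one_mul]
      abel
  · obtain ⟨a, b, hab, hn⟩ := H.T.improve_of_ne hy0 hy h
    refine ⟨⁅a, b⁆, Subgroup.commutator_mem_commutator (Subgroup.mem_top a) (Subgroup.mem_top b),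
      1, by rw [map_one, norm_one], (((⁅a, b⁆ : Dˣ) : D))⁻¹ * (1 + y - ((⁅a, b⁆ : Dˣ) : D)), ?_, ?_⟩
    · rw [norm_mul, norm_inv, hn, inv_one, one_mul]
      exact hle hab
    · rw [map_one, mul_one, mul_add, mul_one, ← mul_assoc, mul_inv_cancel₀ (Units.ne_zero _),
        one_mul]
      abel

theorem exists_approx {ρ : ℝ} (hρ0 : 0 ≤ ρ) (hρ1 : ρ < 1) (hρ : ∀ x : D, ‖x‖ < 1 → ‖x‖ ≤ ρ) {x : D}
    (hx : ‖x‖ = 1) (k : ℕ) :
    ∃ c ∈ commutator Dˣ, ∃ w : L, ‖ι w‖ = 1 ∧ ∃ y : D, ‖y‖ ≤ ρ ^ (k + 1) ∧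
      x = (c : D) * ι w * (1 + y) := by
  induction k with
  | zero =>
    obtain ⟨m, hm⟩ := H.T.surj x hx
    obtain ⟨w, hw⟩ := (H.range (ω ^ m)).mpr ((Commute.refl ω).pow_right m)
    have hn : ‖ω ^ m‖ = 1 := by rw [norm_pow, H.T.norm_eq, one_pow]
    have h0 : ω ^ m ≠ 0 := pow_ne_zero _ H.T.ne_zero
    refine ⟨1, one_mem _, w, by rw [hw, hn], (ω ^ m)⁻¹ * (x - ω ^ m), ?_, ?_⟩
    · rw [norm_mul, norm_inv, hn, inv_one, one_mul, zero_add, pow_one]
      exact hρ _ hm
    · rw [Units.val_one, one_mul, hw, mul_add, mul_one, ← mul_assoc, mul_inv_cancel₀ h0, one_mul]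
      abel
  | succ k ih =>
    obtain ⟨c, hc, w, hw, y, hy, hxe⟩ := ih
    have hy1 : ‖y‖ < 1 := hy.trans_lt (pow_lt_one₀ hρ0 hρ1 (Nat.succ_ne_zero k))
    obtain ⟨c', hc', w', hw', y', hy', hye⟩ := H.exists_step hρ hy1
    have hwn : ι w ≠ 0 := norm_ne_zero_iff.mp (by rw [hw]; exact one_ne_zero)
    let u : Dˣ := Units.mk0 (ι w) hwn
    refine ⟨c * (u * c' * u⁻¹), mul_mem hc ?_, w * w', ?_, y', ?_, ?_⟩
    · exact (inferInstance : (commutator Dˣ).Normal).conj_mem c' hc' u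
    · rw [map_mul, norm_mul, hw, hw', one_mul]
    · refine hy'.trans ?_
      rw [pow_succ']
      exact mul_le_mul_of_nonneg_left hy hρ0
    · rw [hxe, hye, Units.val_mul, Units.val_mul, Units.val_mul, Units.val_inv_eq_inv_val,
        Units.val_mk0, map_mul]
      simp only [mul_assoc]
      rw [inv_mul_cancel_left₀ hwn]

/-- An element of the centralizer of reduced norm one is a commutator. -/
theorem mem_commutator_of_det {w : L} (hw : (H.spl (ι w)).det = 1) (u : Dˣ) (hu : (u : D) = ι w) :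
    u ∈ commutator Dˣ := by
  obtain ⟨y, hy0, hy⟩ := H.hilbert90 hw
  have hy0' : ι y ≠ 0 := fun h => hy0 (H.ι_inj (by rw [h, map_zero]))
  have h1 : u = ⁅Units.mk0 (ι y) hy0', (Units.mk0 g H.S.g_ne)⁻¹⁆ := by
    rw [commutatorElement_def, inv_inv]
    have h2 : ι w * (g⁻¹ * ι y * g) = ι y := by
      have h3 := congrArg ι hy
      rw [map_mul, H.ι_sig, pow_one] at h3
      exact h3
    apply Units.ext
    rw [Units.val_mul, Units.val_mul, Units.val_mul, Units.val_inv_eq_inv_val,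
      Units.val_inv_eq_inv_val, Units.val_mk0, Units.val_mk0, hu]
    have h4 : ι w = ι y * (g⁻¹ * ι y * g)⁻¹ := by
      have h5 : g⁻¹ * ι y * g ≠ 0 := mul_ne_zero (mul_ne_zero (inv_ne_zero H.S.g_ne) hy0') H.S.g_ne
      exact (eq_mul_inv_iff_mul_eq₀ h5).mpr h2
    rw [h4, mul_inv_rev, mul_inv_rev, inv_inv]
    simp only [mul_assoc]
  rw [h1]
  exact Subgroup.commutator_mem_commutator (Subgroup.mem_top _) (Subgroup.mem_top _)

theorem det_commutator {c : Dˣ} (hc : c ∈ commutator Dˣ) : (H.spl (c : D)).det = 1 := by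
  let φ : Dˣ →* Lˣ := (Units.map (Matrix.detMonoidHom : Matrix (Fin f) (Fin f) L →* L)).comp
    (Units.map (H.spl : D →* Matrix (Fin f) (Fin f) L))
  have h1 : commutator Dˣ ≤ φ.ker := Abelianization.commutator_subset_ker φ
  have h2 := h1 hc
  rw [MonoidHom.mem_ker] at h2
  exact congrArg Units.val h2

theorem norm_eq_one_of_det {x : D} (hx : (H.spl x).det = 1) : ‖x‖ = 1 := by
  have key : ∀ y : D, (H.spl y).det = 1 → ¬ ‖y‖ < 1 := by
    intro y hy hlt
    have h1 : Filter.Tendsto (fun m : ℕ => y ^ m) Filter.atTop (𝓝 0) :=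
      tendsto_pow_atTop_nhds_zero_of_norm_lt_one hlt
    have h2 := (H.continuous_det.tendsto 0).comp h1
    have h3 : ((fun x => ι (H.spl x).det) ∘ fun m : ℕ => y ^ m) = fun _ => (1 : D) := by
      funext m
      rw [Function.comp_apply, map_pow, Matrix.det_pow, hy, one_pow, map_one]
    rw [h3] at h2
    have h4 : ι (H.spl (0 : D)).det = 0 := by
      have : Nonempty (Fin f) := ⟨⟨0, H.S.f_pos⟩⟩
      rw [map_zero, Matrix.det_zero, map_zero]
    rw [h4] at h2
    exact one_ne_zero (tendsto_nhds_unique tendsto_const_nhds h2)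
  have hx0 : x ≠ 0 := by
    rintro rfl
    exact key 0 hx (by rw [norm_zero]; exact one_pos)
  rcases lt_trichotomy ‖x‖ 1 with h | h | h
  · exact absurd h (key x hx)
  · exact h
  · exfalso
    refine key x⁻¹ ?_ ?_
    · have h1 : (H.spl x⁻¹).det * (H.spl x).det = 1 := by
        rw [← Matrix.det_mul, ← map_mul, inv_mul_cancel₀ hx0, map_one, Matrix.det_one]
      rwa [hx, mul_one] at h1
    · rw [norm_inv]
      exact inv_lt_one_of_one_lt₀ h

/-- **Elements of reduced norm one are limits of products of commutators.** -/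
theorem exists_commutator_near [ProperSpace D] {x : D} (hx : (H.spl x).det = 1) {ε : ℝ}
    (hε : 0 < ε) : ∃ c ∈ commutator Dˣ, ‖(c : D) - x‖ < ε := by
  obtain ⟨ρ, hρ0, hρ1, hρ⟩ := exists_rho D
  have hxn := H.norm_eq_one_of_det hx
  choose c hc w hw y hy hxe using H.exists_approx hρ0 hρ1 hρ hxn
  -- a convergent subsequence
  have hcomp : IsCompact {z : D | Commute ω z ∧ ‖z‖ = 1} := by
    refine (isCompact_closedBall (0 : D) 1).of_isClosed_subset ?_ ?_
    · have h2 : {z : D | Commute ω z ∧ ‖z‖ = 1} = {z : D | ω * z = z * ω} ∩ {z : D | ‖z‖ = 1} := by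
        ext z
        rfl
      rw [h2]
      exact (isClosed_eq (by fun_prop) (by fun_prop)).inter (isClosed_eq (by fun_prop) (by fun_prop))
    · intro z hz
      rw [mem_closedBall_zero_iff]
      exact hz.2.le
  obtain ⟨z, ⟨hz, hzn⟩, s, hs, hlim⟩ := hcomp.tendsto_subseq (x := fun k => ι (w k))
    (fun k => ⟨H.commute _, hw k⟩)
  obtain ⟨w0, hw0⟩ := (H.range z).mpr hz
  have hy0 : Filter.Tendsto (fun k => 1 + y (s k)) Filter.atTop (𝓝 1) := by
    have h1 : Filter.Tendsto (fun k => y (s k)) Filter.atTop (𝓝 0) := by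
      refine squeeze_zero_norm (a := fun k => ρ ^ (s k + 1)) (fun k => hy (s k)) ?_
      have h2 : Filter.Tendsto (fun k : ℕ => ρ ^ (k + 1)) Filter.atTop (𝓝 0) :=
        (tendsto_pow_atTop_nhds_zero_of_lt_one hρ0 hρ1).comp (Filter.tendsto_add_atTop_nat 1)
      exact h2.comp hs.tendsto_atTop
    simpa using h1.const_add (1 : D)
  -- the limit has reduced norm one
  have hdet : (H.spl (ι w0)).det = 1 := by
    apply H.ι_inj
    have h1 : ∀ k, ι (H.spl (ι (w k) * (1 + y k))).det = 1 := by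
      intro k
      have h2 := hx
      rw [hxe k, mul_assoc, map_mul, Matrix.det_mul, H.det_commutator (hc k), one_mul] at h2
      rw [h2, map_one]
    have h3 : Filter.Tendsto (fun k => ι (w (s k)) * (1 + y (s k))) Filter.atTop (𝓝 (z * 1)) :=
      hlim.mul hy0
    have h4 := (H.continuous_det.tendsto (z * 1)).comp h3
    have h5 : ((fun x => ι (H.spl x).det) ∘ fun k => ι (w (s k)) * (1 + y (s k))) =
        fun _ => (1 : D) := by
      funext k
      exact h1 (s k)
    rw [h5, mul_one] at h4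
    rw [hw0, map_one]
    exact tendsto_nhds_unique h4 tendsto_const_nhds
  have hz0 : z ≠ 0 := norm_ne_zero_iff.mp (by rw [hzn]; exact one_ne_zero)
  have hzc : Units.mk0 z hz0 ∈ commutator Dˣ := H.mem_commutator_of_det hdet _ (by
    rw [Units.val_mk0, hw0])
  -- the sequence
  have h6 : Filter.Tendsto (fun k => (c (s k) : D) * z) Filter.atTop (𝓝 x) := by
    have h7 : ∀ k, (c k : D) * z = x * (ι (w k) * (1 + y k))⁻¹ * z := by
      intro k
      have h8 : ι (w k) * (1 + y k) ≠ 0 := by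
        intro h9
        have h10 := hxe k
        rw [mul_assoc, h9, mul_zero] at h10
        rw [h10, norm_zero] at hxn
        exact zero_ne_one hxn
      have h9 : x * (ι (w k) * (1 + y k))⁻¹ = (c k : D) := by
        conv_lhs => rw [hxe k]
        rw [mul_assoc (c k : D), mul_inv_cancel_right₀ h8]
      rw [h9]
    have h8 : Filter.Tendsto (fun k => x * (ι (w (s k)) * (1 + y (s k)))⁻¹ * z) Filter.atTop
        (𝓝 (x * (z * 1)⁻¹ * z)) :=
      (((hlim.mul hy0).inv₀ (by rwa [mul_one])).const_mul x).mul_const z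
    rw [mul_one, inv_mul_cancel_right₀ hz0] at h8
    refine h8.congr fun k => ?_
    rw [h7]
  obtain ⟨k, hk⟩ := (h6.eventually (Metric.ball_mem_nhds x hε)).exists
  refine ⟨c (s k) * Units.mk0 z hz0, mul_mem (hc _) hzc, ?_⟩
  rw [Units.val_mul, Units.val_mk0, ← dist_eq_norm]
  exact hk

end Full

/-- **Elements of reduced norm one of a locally compact division algebra are limits of products of
commutators.** -/
theorem exists_commutator_near {F D Ω : Type} [NontriviallyNormedField F] [ProperSpace F]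
    [NormedDivisionRing D] [IsUltrametricDist D] [ProperSpace D] [NormedAlgebra F D]
    [FiniteDimensional F D] [Algebra.IsCentral F D] [Field Ω] [Algebra F Ω] {n : ℕ} (hn : 0 < n)
    (hD : finrank F D = n ^ 2) (f0 : D →ₐ[F] Matrix (Fin n) (Fin n) Ω) {x : D}
    (hx : (f0 x).det = 1) {ε : ℝ} (hε : 0 < ε) : ∃ c ∈ commutator Dˣ, ‖(c : D) - x‖ < ε := by
  obtain ⟨p, N, ω, f, q, g, L, _, _, ι, H⟩ := exists_full F D
  obtain rfl := H.eq_degree hD
  refine H.exists_commutator_near ?_ hε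
  have h1 := Vale.Agent.P011.H268.det_compare hn hD f0 H.spl x (ν := 1) (by rw [hx, map_one])
  rw [h1, map_one]

end

end Vale.Agent.P011.H738
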