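import Mathlib.Analysis.Normed.Group.Ultra
import Mathlib.Analysis.Normed.Module.FiniteDimension
import Mathlib.Analysis.SpecialFunctions.Pow.Continuity
import Mathlib.Analysis.Normed.Field.Ultra
import Mathlib.LinearAlgebra.Matrix.AbsoluteValue
import Mathlib.RingTheory.Norm.Basic
import Mathlib.Algebra.Central.Defs

/-!
The multiplicative ultrametric norm of a division algebra over a locally compact ultrametric field.
-/

open Module Topology

namespace Vale.Agent.P011.H738

section

variable (F : Type) {D : Type} [NontriviallyNormedField F] [DivisionRing D] [Algebra F D]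

/-- The norm of a division algebra. -/
noncomputable def nu (x : D) : ℝ := ‖Algebra.norm F x‖ ^ (1 / (finrank F D : ℝ))

theorem nu_nonneg (x : D) : 0 ≤ nu F x := Real.rpow_nonneg (norm_nonneg _) _

theorem nu_mul (x y : D) : nu F (x * y) = nu F x * nu F y := by
  unfold nu
  rw [map_mul, norm_mul, Real.mul_rpow (norm_nonneg _) (norm_nonneg _)]

variable [FiniteDimensional F D]

theorem nu_algebraMap (a : F) : nu F (algebraMap F D a) = ‖a‖ := by
  unfold nu
  rw [Algebra.norm_algebraMap, norm_pow, ← Real.rpow_natCast, ← Real.rpow_mul (norm_nonneg _),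
    mul_one_div_cancel, Real.rpow_one]
  exact_mod_cast Module.finrank_pos.ne'

theorem nu_one : nu F (1 : D) = 1 := by
  have h := nu_algebraMap F (D := D) 1
  rwa [map_one, norm_one] at h

theorem nu_zero : nu F (0 : D) = 0 := by
  have h := nu_algebraMap F (D := D) 0
  rwa [map_zero, norm_zero] at h

theorem nu_pos {x : D} (hx : x ≠ 0) : 0 < nu F x := by
  have h1 : nu F x * nu F x⁻¹ = 1 := by rw [← nu_mul, mul_inv_cancel₀ hx, nu_one]
  refine lt_of_le_of_ne (nu_nonneg F x) fun h => ?_
  rw [← h, zero_mul] at h1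
  exact zero_ne_one h1

theorem nu_neg (x : D) : nu F (-x) = nu F x := by
  have h1 : nu F (-1 : D) = 1 := by
    have h := nu_algebraMap F (D := D) (-1)
    rwa [map_neg, map_one, norm_neg, norm_one] at h
  rw [← neg_one_mul, nu_mul, h1, one_mul]

theorem nu_smul (a : F) (x : D) : nu F (a • x) = ‖a‖ * nu F x := by
  rw [Algebra.smul_def, nu_mul, nu_algebraMap]

theorem nu_pow (x : D) (m : ℕ) : nu F (x ^ m) = nu F x ^ m := by
  induction m with
  | zero => rw [pow_zero, pow_zero, nu_one]
  | succ m ih => rw [pow_succ, pow_succ, nu_mul, ih]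

/-- The norm is at most a constant times the norm of the coordinates. -/
theorem nu_le {d : ℕ} (b : Basis (Fin d) F D) : ∃ C : ℝ, 0 < C ∧ ∀ x : D,
    nu F x ≤ C * ‖b.equivFun x‖ := by
  classical
  have hd : 0 < d := by
    rw [← Fintype.card_fin d, ← Module.finrank_eq_card_basis b]
    exact Module.finrank_pos
  have hdim : finrank F D = d := by rw [Module.finrank_eq_card_basis b, Fintype.card_fin]
  -- the entries of the matrix of the left multiplication
  obtain ⟨C, hC, hCb⟩ : ∃ C : ℝ, 0 < C ∧ ∀ (x : D) (i j : Fin d),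
      ‖Algebra.leftMulMatrix b x i j‖ ≤ C * ‖b.equivFun x‖ := by
    refine ⟨1 + ∑ k : Fin d, ∑ i : Fin d, ∑ j : Fin d, ‖Algebra.leftMulMatrix b (b k) i j‖,
      by positivity, fun x i j => ?_⟩
    have h1 : Algebra.leftMulMatrix b x i j =
        ∑ k : Fin d, b.equivFun x k * Algebra.leftMulMatrix b (b k) i j := by
      conv_lhs => rw [← b.sum_equivFun x]
      rw [map_sum, Matrix.sum_apply]
      refine Finset.sum_congr rfl fun k _ => ?_
      rw [map_smul, Matrix.smul_apply, smul_eq_mul]
    rw [h1]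
    calc ‖∑ k : Fin d, b.equivFun x k * Algebra.leftMulMatrix b (b k) i j‖
        ≤ ∑ k : Fin d, ‖b.equivFun x k * Algebra.leftMulMatrix b (b k) i j‖ := norm_sum_le _ _
      _ ≤ ∑ k : Fin d, ‖b.equivFun x‖ * ∑ i : Fin d, ∑ j : Fin d,
          ‖Algebra.leftMulMatrix b (b k) i j‖ := by
          refine Finset.sum_le_sum fun k _ => ?_
          rw [norm_mul]
          refine mul_le_mul (norm_le_pi_norm _ k) ?_ (norm_nonneg _) (norm_nonneg _)
          calc ‖Algebra.leftMulMatrix b (b k) i j‖
              ≤ ∑ j : Fin d, ‖Algebra.leftMulMatrix b (b k) i j‖ :=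
                Finset.single_le_sum (f := fun j => ‖Algebra.leftMulMatrix b (b k) i j‖)
                  (fun _ _ => norm_nonneg _) (Finset.mem_univ j)
            _ ≤ _ := Finset.single_le_sum
                (f := fun i => ∑ j : Fin d, ‖Algebra.leftMulMatrix b (b k) i j‖)
                (fun _ _ => Finset.sum_nonneg fun _ _ => norm_nonneg _) (Finset.mem_univ i)
      _ ≤ _ := by
          rw [← Finset.mul_sum, mul_comm, add_mul, one_mul]
          linarith [norm_nonneg (b.equivFun x)]
  refine ⟨(d.factorial : ℝ) ^ (1 / (d : ℝ)) * C, by positivity, fun x => ?_⟩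
  have h2 : ‖Algebra.norm F x‖ ≤ (d.factorial : ℝ) * (C * ‖b.equivFun x‖) ^ d := by
    rw [Algebra.norm_eq_matrix_det b]
    have h3 := Matrix.det_le (A := Algebra.leftMulMatrix b x)
      (abv := (⟨⟨(‖·‖), norm_mul⟩, norm_nonneg, fun _ => norm_eq_zero, norm_add_le⟩ :
        AbsoluteValue F ℝ)) (x := C * ‖b.equivFun x‖) (fun i j => hCb x i j)
    rw [Fintype.card_fin, nsmul_eq_mul] at h3
    exact h3
  unfold nu
  rw [hdim]
  calc ‖Algebra.norm F x‖ ^ (1 / (d : ℝ))
      ≤ ((d.factorial : ℝ) * (C * ‖b.equivFun x‖) ^ d) ^ (1 / (d : ℝ)) :=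
        Real.rpow_le_rpow (norm_nonneg _) h2 (by positivity)
    _ = (d.factorial : ℝ) ^ (1 / (d : ℝ)) * C * ‖b.equivFun x‖ := by
        rw [Real.mul_rpow (by positivity) (by positivity), ← Real.rpow_natCast,
          ← Real.rpow_mul (by positivity), mul_one_div_cancel (by exact_mod_cast hd.ne'),
          Real.rpow_one, mul_assoc]

theorem continuous_nu {d : ℕ} (b : Basis (Fin d) F D) :
    Continuous fun v : Fin d → F => nu F (b.equivFun.symm v) := by
  classical
  unfold nu
  refine Continuous.rpow_const ?_ fun _ => Or.inr (by positivity)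
  refine continuous_norm.comp ?_
  have h1 : (fun v : Fin d → F => Algebra.norm F (b.equivFun.symm v)) =
      fun v => (Algebra.leftMulMatrix b (b.equivFun.symm v)).det := by
    funext v
    exact Algebra.norm_eq_matrix_det b _
  rw [h1]
  refine Continuous.matrix_det ?_
  refine continuous_pi fun i => continuous_pi fun j => ?_
  have h2 : (fun v : Fin d → F => Algebra.leftMulMatrix b (b.equivFun.symm v) i j) =
      fun v => ∑ k, v k * Algebra.leftMulMatrix b (b k) i j := by
    funext v
    rw [b.equivFun_symm_apply, map_sum, Matrix.sum_apply]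
    refine Finset.sum_congr rfl fun k _ => ?_
    rw [map_smul, Matrix.smul_apply, smul_eq_mul]
  rw [h2]
  fun_prop

variable [ProperSpace F]

/-- The norm of the coordinates is at most a constant times the norm. -/
theorem le_nu {d : ℕ} (b : Basis (Fin d) F D) : ∃ C : ℝ, 0 < C ∧ ∀ x : D,
    ‖b.equivFun x‖ ≤ C * nu F x := by
  have hd : 0 < d := by
    rw [← Fintype.card_fin d, ← Module.finrank_eq_card_basis b]
    exact Module.finrank_pos
  have hne : Nonempty (Fin d) := ⟨⟨0, hd⟩⟩
  have hcomp : IsCompact (Metric.sphere (0 : Fin d → F) 1) := isCompact_sphere 0 1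
  have hnes : (Metric.sphere (0 : Fin d → F) 1).Nonempty := by
    refine ⟨fun _ => 1, ?_⟩
    rw [mem_sphere_zero_iff_norm, pi_norm_const, norm_one]
  obtain ⟨v, hv, hmin⟩ := hcomp.exists_isMinOn hnes (continuous_nu F b).continuousOn
  have hv0 : v ≠ 0 := by
    intro h
    rw [h, mem_sphere_zero_iff_norm, norm_zero] at hv
    exact zero_ne_one hv
  obtain ⟨c, hc⟩ : ∃ c : ℝ, c = nu F (b.equivFun.symm v) := ⟨_, rfl⟩
  have hc0 : 0 < c := by
    rw [hc]
    exact nu_pos F fun h => hv0 (by rwa [LinearEquiv.map_eq_zero_iff] at h)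
  refine ⟨c⁻¹, inv_pos.mpr hc0, fun x => ?_⟩
  rcases eq_or_ne x 0 with hx | hx
  · rw [hx, map_zero, norm_zero, nu_zero, mul_zero]
  · -- a coordinate of maximal norm
    obtain ⟨j, hj⟩ : ∃ j, ‖b.equivFun x‖ = ‖b.equivFun x j‖ := by
      obtain ⟨j, _, hj⟩ := Finset.exists_mem_eq_sup' (Finset.univ_nonempty (α := Fin d))
        (fun i => ‖b.equivFun x i‖)
      refine ⟨j, le_antisymm ?_ (norm_le_pi_norm _ j)⟩
      rw [pi_norm_le_iff_of_nonneg (norm_nonneg _)]
      intro i
      rw [← hj]
      exact Finset.le_sup' (fun i => ‖b.equivFun x i‖) (Finset.mem_univ i)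
    have hx1 : b.equivFun x ≠ 0 := fun h => hx (by rwa [LinearEquiv.map_eq_zero_iff] at h)
    have hj0 : 0 < ‖b.equivFun x j‖ := by rw [← hj]; exact norm_pos_iff.mpr hx1
    have h0 : (b.equivFun x j)⁻¹ • b.equivFun x ∈ Metric.sphere (0 : Fin d → F) 1 := by
      rw [mem_sphere_zero_iff_norm, norm_smul, norm_inv, hj, inv_mul_cancel₀ hj0.ne']
    have h1 : nu F (b.equivFun.symm v) ≤ nu F (b.equivFun.symm
        ((b.equivFun x j)⁻¹ • b.equivFun x)) := hmin h0
    have h2 : c ≤ ‖b.equivFun x j‖⁻¹ * nu F x := by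
      rw [hc]
      refine h1.trans_eq ?_
      rw [map_smul, LinearEquiv.symm_apply_apply, nu_smul, norm_inv]
    rw [hj]
    rw [inv_mul_eq_div, le_div_iff₀ hj0] at h2
    rw [inv_mul_eq_div, le_div_iff₀ hc0, mul_comm]
    exact h2

variable [IsUltrametricDist F]

/-- Sums of any length. -/
theorem exists_sum_le : ∃ B : ℝ, 0 < B ∧ ∀ (s : Finset ℕ) (y : ℕ → D) (t : ℝ), 0 ≤ t →
    (∀ i ∈ s, nu F (y i) ≤ t) → nu F (∑ i ∈ s, y i) ≤ B * t := by
  let b := Module.finBasis F D
  obtain ⟨C, hC, h1⟩ := nu_le F b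
  obtain ⟨C', hC', h2⟩ := le_nu F b
  refine ⟨C * C', by positivity, fun s y t ht hy => ?_⟩
  refine (h1 _).trans ?_
  rw [mul_assoc]
  refine mul_le_mul_of_nonneg_left ?_ hC.le
  rw [pi_norm_le_iff_of_nonneg (by positivity)]
  intro j
  rw [map_sum, Finset.sum_apply]
  refine IsUltrametricDist.norm_sum_le_of_forall_le_of_nonneg (by positivity) fun i hi => ?_
  exact (norm_le_pi_norm _ j).trans ((h2 _).trans (mul_le_mul_of_nonneg_left (hy i hi) hC'.le))

theorem nu_natCast_le (m : ℕ) : nu F (m : D) ≤ 1 := by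
  rw [← map_natCast (algebraMap F D), nu_algebraMap]
  exact IsUltrametricDist.norm_natCast_le_one F m

theorem nu_one_add_le {x : D} (hx : nu F x ≤ 1) : nu F (1 + x) ≤ 1 := by
  obtain ⟨B, hB, h1⟩ := exists_sum_le F (D := D)
  by_contra hcon
  push Not at hcon
  obtain ⟨m, hm⟩ := pow_unbounded_of_one_lt B hcon
  have h2 : (1 + x) ^ m = ∑ i ∈ Finset.range (m + 1), x ^ i * (m.choose i : D) := by
    rw [add_comm, (Commute.one_right x).add_pow]
    refine Finset.sum_congr rfl fun i _ => ?_
    rw [one_pow, mul_one]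
  have h3 := h1 (Finset.range (m + 1)) (fun i => x ^ i * (m.choose i : D)) 1 zero_le_one
    (fun i _ => by
      rw [nu_mul, nu_pow]
      exact mul_le_one₀ (pow_le_one₀ (nu_nonneg F x) hx) (nu_nonneg F _) (nu_natCast_le F _))
  rw [← h2, nu_pow, mul_one] at h3
  exact absurd (hm.trans_le h3) (lt_irrefl _)

theorem nu_add_le (x y : D) : nu F (x + y) ≤ max (nu F x) (nu F y) := by
  wlog h : nu F y ≤ nu F x with H
  · rw [add_comm, max_comm]
    exact H (F := F) y x (not_le.mp h).le
  rw [max_eq_left h]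
  rcases eq_or_ne x 0 with hx | hx
  · rw [hx, nu_zero] at h
    have hy : y = 0 := by
      by_contra hy
      exact absurd (nu_pos F hy) (not_lt.mpr h)
    rw [hx, hy, add_zero]
  · have h1 : x + y = x * (1 + x⁻¹ * y) := by rw [mul_add, mul_one, mul_inv_cancel_left₀ hx]
    have h2 : nu F (x⁻¹ * y) ≤ 1 := by
      rw [nu_mul]
      have h3 : nu F x⁻¹ * nu F x = 1 := by rw [← nu_mul, inv_mul_cancel₀ hx, nu_one]
      calc nu F x⁻¹ * nu F y ≤ nu F x⁻¹ * nu F x := mul_le_mul_of_nonneg_left h (nu_nonneg F _)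
        _ = 1 := h3
    rw [h1, nu_mul]
    exact mul_le_of_le_one_right (nu_nonneg F _) (nu_one_add_le F h2)

/-- The structure of a normed division ring. -/
@[reducible] noncomputable def ndNormed : NormedDivisionRing D :=
  { (inferInstance : DivisionRing D) with
    norm := nu F
    dist := fun x y => nu F (x - y)
    dist_self := fun x => by
      rw [sub_self, nu_zero]
    dist_comm := fun x y => by
      rw [← neg_sub, nu_neg]
    dist_triangle := fun x y z => by
      have h1 : x - z = (x - y) + (y - z) := by abel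
      rw [h1]
      refine (nu_add_le F _ _).trans (max_le ?_ ?_)
      · exact le_add_of_nonneg_right (nu_nonneg F _)
      · exact le_add_of_nonneg_left (nu_nonneg F _)
    eq_of_dist_eq_zero := fun {x y} h => by
      by_contra hne
      exact absurd (nu_pos F (sub_ne_zero.mpr hne)) (by
        rw [show nu F (x - y) = 0 from h]
        exact lt_irrefl _)
    dist_eq := fun x y => by
      change nu F (x - y) = nu F (-x + y)
      rw [← nu_neg F (x - y)]
      congr 1
      abel
    norm_mul := nu_mul F }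

end

end Vale.Agent.P011.H738
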