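import Vale.Agent.P011.H738.LocTeich
import Mathlib.Analysis.Normed.Module.FiniteDimension
import Mathlib.Topology.Algebra.Module.FiniteDimension
import Mathlib.Algebra.Algebra.Subalgebra.Lattice
import Mathlib.Data.Nat.ModEq

/-!
The structure of a locally compact ultrametric division ring: it is a cyclic crossed product of the
centralizer of a multiplicative generator of the residue field.
-/

open Module Topology

set_option linter.unusedSectionVars false

namespace Vale.Agent.P011.H738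

section

variable {D : Type*} [NormedDivisionRing D] [IsUltrametricDist D] {p N : ℕ} {ω : D}

namespace Teich

variable (T : Teich D p N ω)

include T

theorem one_lt : 1 < p ^ N := Nat.one_lt_pow T.pos T.prime.one_lt

theorem e_pos : 0 < p ^ N - 1 := Nat.sub_pos_of_lt T.one_lt

theorem ne_zero : ω ≠ 0 := by
  intro h
  have h1 := T.pow
  rw [h, zero_pow T.e_pos.ne'] at h1
  exact zero_ne_one h1

theorem norm_eq : ‖ω‖ = 1 := by
  have h1 : ‖ω‖ ^ (p ^ N - 1) = 1 := by rw [← norm_pow, T.pow, norm_one]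
  exact (pow_eq_one_iff_of_nonneg (norm_nonneg _) T.e_pos.ne').mp h1

theorem pow_mod (a : ℕ) : ω ^ (a % (p ^ N - 1)) = ω ^ a := by
  conv_rhs => rw [← Nat.mod_add_div a (p ^ N - 1), pow_add, pow_mul, T.pow, one_pow, mul_one]

theorem pow_eq_of_modEq {a b : ℕ} (h : a ≡ b [MOD (p ^ N - 1)]) : ω ^ a = ω ^ b := by
  rw [← T.pow_mod a, ← T.pow_mod b]
  exact congrArg (ω ^ ·) h

theorem modEq_of_close {a b : ℕ} (h : ‖ω ^ a - ω ^ b‖ < 1) : a ≡ b [MOD (p ^ N - 1)] := by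
  wlog hab : b ≤ a with H
  · rw [norm_sub_rev] at h
    exact (H T h (not_le.mp hab).le).symm
  · have h1 : ω ^ a - ω ^ b = ω ^ b * (ω ^ (a - b) - 1) := by
      rw [mul_sub, mul_one, ← pow_add, Nat.add_sub_cancel' hab]
    rw [h1, norm_mul, norm_pow, T.norm_eq, one_pow, one_mul] at h
    exact ((Nat.modEq_iff_dvd' hab).mpr (T.inj _ h)).symm

theorem modEq_of_eq {a b : ℕ} (h : ω ^ a = ω ^ b) : a ≡ b [MOD (p ^ N - 1)] := by
  refine T.modEq_of_close ?_
  rw [h, sub_self, norm_zero]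
  exact one_pos

theorem norm_e : ‖((p ^ N - 1 : ℕ) : D)‖ = 1 := by
  rw [Nat.cast_sub T.one_lt.le, Nat.cast_one, Nat.cast_pow]
  have h1 : ‖(p : D) ^ N‖ < 1 := by
    rw [norm_pow]
    exact pow_lt_one₀ (norm_nonneg _) T.norm_p T.pos
  have h2 : (p : D) ^ N - 1 = -(1 - (p : D) ^ N) := by abel
  rw [h2, norm_neg]
  refine norm_eq_one_of_near ?_
  have h3 : (1 : D) - (p : D) ^ N - 1 = -((p : D) ^ N) := by abel
  rw [h3, norm_neg]
  exact h1

theorem e_ne : ((p ^ N - 1 : ℕ) : D) ≠ 0 := norm_ne_zero_iff.mp (by rw [T.norm_e]; exact one_ne_zero)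

/-- Orthogonality. -/
theorem sum_pow_eq {a b : ℕ} :
    (∑ m ∈ Finset.range (p ^ N - 1), ω ^ (a * m) * (ω⁻¹) ^ (b * m)) =
      if a ≡ b [MOD (p ^ N - 1)] then ((p ^ N - 1 : ℕ) : D) else 0 := by
  have hcomm : Commute (ω ^ a) ((ω⁻¹) ^ b) := ((Commute.refl ω).inv_right₀).pow_pow a b
  have h1 : ∀ m, ω ^ (a * m) * (ω⁻¹) ^ (b * m) = (ω ^ a * (ω⁻¹) ^ b) ^ m := by
    intro m
    rw [hcomm.mul_pow, pow_mul, pow_mul]
  rw [Finset.sum_congr rfl fun m _ => h1 m]
  split_ifs with h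
  · have h2 : ω ^ a * (ω⁻¹) ^ b = 1 := by
      rw [T.pow_eq_of_modEq h, inv_pow, mul_inv_cancel₀ (pow_ne_zero _ T.ne_zero)]
    rw [h2]
    simp
  · set y := ω ^ a * (ω⁻¹) ^ b with hy
    have h2 : y - 1 ≠ 0 := by
      intro h3
      rw [sub_eq_zero] at h3
      apply h
      apply T.modEq_of_eq
      have h4 : ω ^ a = y * ω ^ b := by
        rw [hy, mul_assoc, inv_pow, inv_mul_cancel₀ (pow_ne_zero _ T.ne_zero), mul_one]
      rw [h4, h3, one_mul]
    have h3 : (∑ m ∈ Finset.range (p ^ N - 1), y ^ m) * (y - 1) = 0 := by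
      rw [geom_sum_mul, hy, hcomm.mul_pow, ← pow_mul, ← pow_mul, mul_comm a, mul_comm b, pow_mul,
        pow_mul, T.pow, one_pow, inv_pow, T.pow, inv_one, one_pow, mul_one, sub_self]
    exact (mul_eq_zero.mp h3).resolve_right h2

end Teich

/-- The component of `x` on which conjugation by `ω` is the power `j`. -/
noncomputable def cmp (p N : ℕ) (ω : D) (j : ℕ) (x : D) : D :=
  ((p ^ N - 1 : ℕ) : D)⁻¹ * ∑ m ∈ Finset.range (p ^ N - 1), ω ^ m * x * (ω⁻¹) ^ (j * m)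

omit [IsUltrametricDist D] in
theorem cmp_add (j : ℕ) (x y : D) : cmp p N ω j (x + y) = cmp p N ω j x + cmp p N ω j y := by
  unfold cmp
  rw [← mul_add, ← Finset.sum_add_distrib]
  congr 1
  exact Finset.sum_congr rfl fun m _ => by rw [mul_add, add_mul]

omit [IsUltrametricDist D] in
theorem cmp_sum (j : ℕ) {ι : Type*} (s : Finset ι) (x : ι → D) :
    cmp p N ω j (∑ i ∈ s, x i) = ∑ i ∈ s, cmp p N ω j (x i) := by
  classical
  induction s using Finset.induction_on with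
  | empty => simp [cmp]
  | insert i s hi ih => rw [Finset.sum_insert hi, Finset.sum_insert hi, cmp_add, ih]

omit [IsUltrametricDist D] in
theorem continuous_cmp (j : ℕ) : Continuous (cmp p N ω j) := by
  unfold cmp
  fun_prop

namespace Teich

variable (T : Teich D p N ω)

include T

theorem cmp_mem (j : ℕ) (x : D) : ω * cmp p N ω j x = cmp p N ω j x * ω ^ j := by
  unfold cmp
  rw [← mul_assoc, ((Nat.cast_commute _ ω).inv_left₀).eq.symm, mul_assoc, mul_assoc]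
  congr 1
  rw [Finset.mul_sum, Finset.sum_mul]
  have hz : ω ^ j * (ω⁻¹) ^ j = 1 := by
    rw [inv_pow, mul_inv_cancel₀ (pow_ne_zero _ T.ne_zero)]
  have h1 : ∀ m, ω * (ω ^ m * x * (ω⁻¹) ^ (j * m)) = (ω ^ (m + 1) * x * (ω⁻¹) ^ (j * (m + 1))) *
      ω ^ j := by
    intro m
    rw [mul_add, mul_one, pow_add (ω⁻¹), mul_assoc (ω ^ (m + 1) * x), mul_assoc ((ω⁻¹) ^ (j * m)),
      inv_pow ω j, inv_mul_cancel₀ (pow_ne_zero _ T.ne_zero), mul_one, pow_succ']
    simp only [mul_assoc]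
  rw [Finset.sum_congr rfl fun m _ => h1 m]
  have h2 := Finset.sum_range_succ (fun m => (ω ^ m * x * (ω⁻¹) ^ (j * m)) * ω ^ j) (p ^ N - 1)
  have h3 := Finset.sum_range_succ' (fun m => (ω ^ m * x * (ω⁻¹) ^ (j * m)) * ω ^ j) (p ^ N - 1)
  rw [h2] at h3
  have h4 : (ω ^ (p ^ N - 1) * x * (ω⁻¹) ^ (j * (p ^ N - 1))) * ω ^ j =
      (ω ^ 0 * x * (ω⁻¹) ^ (j * 0)) * ω ^ j := by
    rw [T.pow, pow_zero, mul_comm j (p ^ N - 1), pow_mul, inv_pow, T.pow, inv_one, one_pow,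
      mul_zero, pow_zero]
  rw [h4] at h3
  exact (add_right_cancel h3).symm

theorem cmp_of_mem {j : ℕ} {x : D} (i : ℕ) (hx : ω * x = x * ω ^ j) :
    cmp p N ω i x = if j ≡ i [MOD (p ^ N - 1)] then x else 0 := by
  have h1 : ∀ m, ω ^ m * x = x * ω ^ (j * m) := by
    intro m
    induction m with
    | zero => rw [pow_zero, one_mul, mul_zero, pow_zero, mul_one]
    | succ m ih => rw [pow_succ, mul_assoc, hx, ← mul_assoc, ih, mul_assoc, ← pow_add, mul_add,
        mul_one]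
  unfold cmp
  have h2 : ∀ m ∈ Finset.range (p ^ N - 1), ω ^ m * x * (ω⁻¹) ^ (i * m) =
      x * (ω ^ (j * m) * (ω⁻¹) ^ (i * m)) := by
    intro m _
    rw [h1, mul_assoc]
  rw [Finset.sum_congr rfl h2, ← Finset.mul_sum, T.sum_pow_eq]
  split_ifs
  · rw [← mul_assoc, ((Nat.cast_commute _ x).inv_left₀).eq, mul_assoc, inv_mul_cancel₀ T.e_ne,
      mul_one]
  · rw [mul_zero, mul_zero]

theorem cmp_congr {i j : ℕ} (h : i ≡ j [MOD (p ^ N - 1)]) (x : D) :
    cmp p N ω i x = cmp p N ω j x := by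
  unfold cmp
  congr 1
  refine Finset.sum_congr rfl fun m _ => ?_
  congr 1
  rw [pow_mul, pow_mul, inv_pow ω i, inv_pow ω j, T.pow_eq_of_modEq h]

theorem sum_cmp (x : D) : ∑ j ∈ Finset.range (p ^ N - 1), cmp p N ω j x = x := by
  unfold cmp
  rw [← Finset.mul_sum, Finset.sum_comm]
  have h1 : ∀ m ∈ Finset.range (p ^ N - 1),
      (∑ j ∈ Finset.range (p ^ N - 1), ω ^ m * x * (ω⁻¹) ^ (j * m)) =
        if m = 0 then ((p ^ N - 1 : ℕ) : D) * x else 0 := by
    intro m hm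
    rw [← Finset.mul_sum]
    have h2 := T.sum_pow_eq (a := 0) (b := m)
    have h3 : ∀ j ∈ Finset.range (p ^ N - 1), ω ^ (0 * j) * (ω⁻¹) ^ (m * j) = (ω⁻¹) ^ (j * m) := by
      intro j _
      rw [zero_mul, pow_zero, one_mul, mul_comm]
    rw [Finset.sum_congr rfl h3] at h2
    rw [h2]
    by_cases h0 : m = 0
    · subst h0
      rw [if_pos rfl, if_pos (Nat.ModEq.refl 0), pow_zero, one_mul]
      exact ((Nat.cast_commute _ x).eq).symm
    · rw [if_neg h0, if_neg, mul_zero]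
      intro h4
      have h5 : (0 : ℕ) % (p ^ N - 1) = m % (p ^ N - 1) := h4
      rw [Nat.zero_mod, Nat.mod_eq_of_lt (Finset.mem_range.mp hm)] at h5
      exact h0 h5.symm
  rw [Finset.sum_congr rfl h1, Finset.sum_ite_eq' , if_pos (Finset.mem_range.mpr T.e_pos),
    ← mul_assoc, inv_mul_cancel₀ T.e_ne, one_mul]

/-- The powers which occur are powers of `p`. -/
theorem exists_pow_of_ne {j : ℕ} {x : D} (hx0 : x ≠ 0) (hx : ω * x = x * ω ^ j) :
    ∃ i : ℕ, j ≡ p ^ i [MOD (p ^ N - 1)] := by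
  obtain ⟨i, hi⟩ := T.aut x hx0
  refine ⟨i, T.modEq_of_close ?_⟩
  have h1 : x⁻¹ * ω * x = ω ^ j := by
    rw [mul_assoc, hx, ← mul_assoc, inv_mul_cancel₀ hx0, one_mul]
  rwa [h1] at hi

/-- If `ω' = ω ^ s'` with `s` inverse to `s'`, relations pass from `ω'` to `ω`. -/
theorem rel_pow {a b : ℕ} {x : D} (h : ω ^ a * x = x * ω ^ b) (s : ℕ) :
    ω ^ (a * s) * x = x * ω ^ (b * s) := by
  induction s with
  | zero => simp
  | succ s ih =>
    rw [mul_add, mul_one, pow_add, mul_assoc, h, ← mul_assoc, ih, mul_assoc, ← pow_add, mul_add,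
      mul_one]

theorem pow_pN (k : ℕ) : ω ^ (p ^ N) ^ k = ω := by
  have h1 : (p ^ N) ^ k ≡ 1 [MOD (p ^ N - 1)] := by
    have h2 : p ^ N ≡ 1 [MOD (p ^ N - 1)] := by
      have h3 : (p ^ N - 1) ∣ p ^ N - 1 := dvd_rfl
      exact ((Nat.modEq_iff_dvd' T.one_lt.le).mpr h3).symm
    simpa using h2.pow k
  rw [T.pow_eq_of_modEq h1, pow_one]

/-- The structure of `D` as a cyclic crossed product. -/
theorem exists_struct : ∃ (f q : ℕ) (g : D), 0 < f ∧ g ≠ 0 ∧ ω * g = g * ω ^ q ∧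
    p ^ N = q ^ f ∧ 1 < q ∧
    (∀ a b, a < f → b < f → q ^ a ≡ q ^ b [MOD (p ^ N - 1)] → a = b) ∧
    ∀ x : D, ∑ a ∈ Finset.range f, cmp p N ω (q ^ a) x = x := by
  classical
  -- the smallest power
  let P : ℕ → Prop := fun r => 0 < r ∧ ∃ x : D, x ≠ 0 ∧ ω * x = x * ω ^ p ^ r
  have hP : ∃ r, P r := ⟨N, Nat.pos_of_ne_zero T.pos, 1, one_ne_zero, by
    rw [mul_one, one_mul]
    have h1 := T.pow_pN 1
    rw [pow_one] at h1
    exact h1.symm⟩
  set r := Nat.find hP with hr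
  obtain ⟨hr0, g, hg0, hg⟩ : P r := Nat.find_spec hP
  have hmin : ∀ b, 0 < b → b < r → ¬ ∃ x : D, x ≠ 0 ∧ ω * x = x * ω ^ p ^ b :=
    fun b hb hbr h => Nat.find_min hP hbr ⟨hb, h⟩
  -- powers of `g`
  have hgp : ∀ a : ℕ, ω * g ^ a = g ^ a * ω ^ (p ^ r) ^ a := by
    intro a
    induction a with
    | zero => simp
    | succ a ih =>
      have h1 := T.rel_pow (a := 1) (b := p ^ r) (x := g) (by rw [pow_one]; exact hg)
        ((p ^ r) ^ a)
      rw [one_mul] at h1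
      rw [pow_succ, ← mul_assoc, ih, mul_assoc, h1, ← mul_assoc, ← pow_succ, ← pow_succ']
  have hdiv : ∀ i (x : D), x ≠ 0 → ω * x = x * ω ^ p ^ i → r ∣ i := by
    intro i x hx0 hx
    by_contra hri
    have hb0 : 0 < i % r := Nat.pos_of_ne_zero fun h => hri (Nat.dvd_of_mod_eq_zero h)
    refine hmin (i % r) hb0 (Nat.mod_lt _ hr0) ⟨(g ^ (i / r))⁻¹ * x,
      mul_ne_zero (inv_ne_zero (pow_ne_zero _ hg0)) hx0, ?_⟩
    have hga0 : g ^ (i / r) ≠ 0 := pow_ne_zero _ hg0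
    set a := i / r with ha
    set b := i % r with hb
    have hi : i = r * a + b := (Nat.div_add_mod i r).symm
    set y := (g ^ a)⁻¹ * x with hy
    have hxy : x = g ^ a * y := by rw [hy, ← mul_assoc, mul_inv_cancel₀ hga0, one_mul]
    have h1 : ω ^ (p ^ r) ^ a * y = y * ω ^ p ^ i := by
      have h2 : g ^ a * (ω ^ (p ^ r) ^ a * y) = g ^ a * (y * ω ^ p ^ i) := by
        rw [← mul_assoc, ← hgp, mul_assoc, ← hxy, ← mul_assoc, ← hxy]
        exact hx
      exact mul_left_cancel₀ hga0 h2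
    have h3 := T.rel_pow h1 (p ^ (N * (r * a) - r * a))
    have h4 : (p ^ r) ^ a * p ^ (N * (r * a) - r * a) = (p ^ N) ^ (r * a) := by
      rw [← pow_mul, ← pow_mul, ← pow_add, Nat.add_sub_cancel'
        (Nat.le_mul_of_pos_left _ (Nat.pos_of_ne_zero T.pos))]
    have h5 : p ^ i * p ^ (N * (r * a) - r * a) = p ^ b * (p ^ N) ^ (r * a) := by
      rw [hi, pow_add, mul_right_comm, pow_mul, h4, mul_comm]
    rw [h4, T.pow_pN, h5, mul_comm (p ^ b), pow_mul, T.pow_pN] at h3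
    exact h3
  have hrN : r ∣ N := hdiv N 1 one_ne_zero (by
    rw [mul_one, one_mul]
    have h1 := T.pow_pN 1
    rw [pow_one] at h1
    exact h1.symm)
  obtain ⟨f, hf⟩ := hrN
  have hf0 : 0 < f := Nat.pos_of_ne_zero fun h => T.pos (by rw [hf, h, mul_zero])
  have hq1 : 1 < p ^ r := Nat.one_lt_pow hr0.ne' T.prime.one_lt
  have hQ : p ^ N = (p ^ r) ^ f := by rw [hf, pow_mul]
  -- injectivity
  have hkey : ∀ a b, a < b → b < f → (p ^ r) ^ a % (p ^ N - 1) ≠ (p ^ r) ^ b % (p ^ N - 1) := by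
    intro a b hlt hb hab
    have h1 : (p ^ r) ^ a ≡ (p ^ r) ^ b [MOD (p ^ N - 1)] := hab
    have h2 : (p ^ N - 1) ∣ (p ^ r) ^ b - (p ^ r) ^ a :=
      (Nat.modEq_iff_dvd' (Nat.pow_le_pow_right (by omega) hlt.le)).mp h1
    have h3 : (p ^ r) ^ b - (p ^ r) ^ a = (p ^ r) ^ a * ((p ^ r) ^ (b - a) - 1) := by
      rw [Nat.mul_sub, mul_one, ← pow_add, Nat.add_sub_cancel' hlt.le]
    rw [h3] at h2
    have h4 : Nat.Coprime (p ^ N - 1) ((p ^ r) ^ a) := by
      rw [← pow_mul]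
      refine Nat.Coprime.pow_right _ ?_
      rw [Nat.coprime_comm, T.prime.coprime_iff_not_dvd]
      intro h5
      have h6 : p ∣ p ^ N := dvd_pow_self p T.pos
      have h7 : p ∣ p ^ N - (p ^ N - 1) := Nat.dvd_sub h6 h5
      rw [Nat.sub_sub_self T.one_lt.le] at h7
      exact T.prime.one_lt.ne' (Nat.dvd_one.mp h7)
    have h5 := h4.dvd_of_dvd_mul_left h2
    have h6 : 1 < (p ^ r) ^ (b - a) := Nat.one_lt_pow (by omega) hq1
    have h7 := Nat.le_of_dvd (by omega) h5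
    have h8 : (p ^ r) ^ (b - a) < p ^ N := by
      rw [hQ]
      exact Nat.pow_lt_pow_right hq1 (by omega)
    omega
  have hinj : Set.InjOn (fun a => (p ^ r) ^ a % (p ^ N - 1)) (Finset.range f : Set ℕ) := by
    intro a ha b hb hab
    rw [Finset.mem_coe, Finset.mem_range] at ha hb
    rcases lt_trichotomy a b with h | h | h
    · exact absurd hab (hkey a b h hb)
    · exact h
    · exact absurd hab.symm (hkey b a h ha)
  refine ⟨f, p ^ r, g, hf0, hg0, hg, hQ, hq1, fun a b ha hb hab =>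
    hinj (Finset.mem_coe.mpr (Finset.mem_range.mpr ha))
      (Finset.mem_coe.mpr (Finset.mem_range.mpr hb)) hab, fun x => ?_⟩
  conv_rhs => rw [← T.sum_cmp x]
  have h1 : ∑ a ∈ Finset.range f, cmp p N ω ((p ^ r) ^ a) x =
      ∑ a ∈ Finset.range f, cmp p N ω ((p ^ r) ^ a % (p ^ N - 1)) x :=
    Finset.sum_congr rfl fun a _ => T.cmp_congr (Nat.mod_modEq _ _).symm x
  rw [h1, ← Finset.sum_image (f := fun j => cmp p N ω j x) hinj]
  refine Finset.sum_subset ?_ ?_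
  · intro j hj
    obtain ⟨a, -, rfl⟩ := Finset.mem_image.mp hj
    exact Finset.mem_range.mpr (Nat.mod_lt _ T.e_pos)
  · intro j hj hj'
    by_contra hne
    apply hj'
    obtain ⟨i, hi⟩ := T.exists_pow_of_ne hne (T.cmp_mem j x)
    have h2 : ω * cmp p N ω j x = cmp p N ω j x * ω ^ p ^ i := by
      rw [T.cmp_mem, T.pow_eq_of_modEq hi]
    obtain ⟨c, hc⟩ := hdiv i _ hne h2
    refine Finset.mem_image.mpr ⟨c % f, Finset.mem_range.mpr (Nat.mod_lt _ hf0), ?_⟩
    have h3 : (p ^ r) ^ (c % f) ≡ j [MOD (p ^ N - 1)] := by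
      refine Nat.ModEq.trans ?_ hi.symm
      have h4 : p ^ i = (p ^ r) ^ (c % f) * (p ^ N) ^ (c / f) := by
        rw [hc, pow_mul p r c, hQ, ← pow_mul (p ^ r) f, ← pow_add, Nat.mod_add_div]
      rw [h4]
      have h5 : (p ^ N) ^ (c / f) ≡ 1 [MOD (p ^ N - 1)] := by
        refine T.modEq_of_eq ?_
        rw [T.pow_pN, pow_one]
      simpa using (h5.mul_left ((p ^ r) ^ (c % f))).symm
    have h6 : (p ^ r) ^ (c % f) % (p ^ N - 1) = j % (p ^ N - 1) := h3
    rw [h6, Nat.mod_eq_of_lt (Finset.mem_range.mp hj)]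

end Teich

end

end Vale.Agent.P011.H738
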