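import Vale.Agent.P011.H738.Prosolv
import Mathlib.RingTheory.Congruence.Hom
import Mathlib.FieldTheory.Finite.Basic
import Mathlib.RingTheory.IntegralDomain
import Mathlib.Algebra.CharP.Algebra

/-!
The multiplicative representatives of the residue field of a locally compact ultrametric division
ring.
-/

open Module Topology

namespace Vale.Agent.P011.H738

universe u

/-- Endomorphisms of finite fields are powers of the Frobenius map. -/
theorem ringHom_eq_pow {κ : Type*} [Field κ] [Finite κ] (p : ℕ) [Fact p.Prime] [CharP κ p]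
    (τ : κ →+* κ) : ∃ i : ℕ, ∀ a, τ a = a ^ p ^ i := by
  let _ : Algebra (ZMod p) κ := (ZMod.castHom (dvd_refl p) κ).toAlgebra
  have hb : Function.Bijective τ := Finite.injective_iff_bijective.mp τ.injective
  let e : κ ≃+* κ := RingEquiv.ofBijective τ hb
  let e' : κ ≃ₐ[ZMod p] κ := AlgEquiv.ofRingEquiv (f := e) (by
    intro x
    exact RingHom.congr_fun (Subsingleton.elim
      ((e : κ →+* κ).comp (algebraMap (ZMod p) κ)) (algebraMap (ZMod p) κ)) x)
  have : Algebra.IsAlgebraic (ZMod p) κ := Algebra.IsAlgebraic.of_finite _ _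
  obtain ⟨n, hn⟩ := (FiniteField.bijective_frobeniusAlgEquivOfAlgebraic_pow (ZMod p) κ).2 e'
  refine ⟨n, fun a => ?_⟩
  have h1 : e' a = τ a := rfl
  rw [← h1, ← hn]
  have h2 : ∀ m : ℕ, ((FiniteField.frobeniusAlgEquivOfAlgebraic (ZMod p) κ) ^ m) a = a ^ p ^ m := by
    intro m
    induction m with
    | zero => simp
    | succ m ih =>
      rw [pow_succ', AlgEquiv.mul_apply, ih, FiniteField.coe_frobeniusAlgEquivOfAlgebraic,
        ZMod.card]
      change (a ^ p ^ m) ^ p = _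
      rw [← pow_mul, ← pow_succ]
  exact h2 n

section

variable {D : Type*} [NormedDivisionRing D] [IsUltrametricDist D] [ProperSpace D]

/-- The residue field. -/
theorem exists_residue (D : Type u) [NormedDivisionRing D] [IsUltrametricDist D] [ProperSpace D] :
    ∃ (κ : Type u) (_ : Field κ) (_ : Finite κ) (π : ballRing D →+* κ),
      Function.Surjective π ∧ ∀ x, π x = 0 ↔ ‖(x : D)‖ < 1 := by
  have h1 := finite_quot (D := D)
  have hnt : Nontrivial (ballCon D).Quotient := by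
    refine ⟨((0 : ballRing D) : (ballCon D).Quotient), ((1 : ballRing D) : (ballCon D).Quotient),
      fun h => ?_⟩
    have h2 := (RingCon.eq (ballCon D)).mp h
    rw [ballCon_iff] at h2
    simp at h2
  have hnz : NoZeroDivisors (ballCon D).Quotient := by
    refine ⟨fun {a b} => ?_⟩
    refine Quotient.inductionOn₂ a b fun a b h => ?_
    have h2 : ballCon D (a * b) 0 := (RingCon.eq (ballCon D)).mp h
    rw [ballCon_iff] at h2
    simp only [Subring.coe_mul, ZeroMemClass.coe_zero, sub_zero, norm_mul] at h2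
    by_contra hcon
    push Not at hcon
    have h3 : ¬ ballCon D a 0 := fun h => hcon.1 ((RingCon.eq (ballCon D)).mpr h)
    have h4 : ¬ ballCon D b 0 := fun h => hcon.2 ((RingCon.eq (ballCon D)).mpr h)
    rw [ballCon_iff, ZeroMemClass.coe_zero, sub_zero, not_lt] at h3 h4
    exact absurd h2 (not_lt.mpr (one_le_mul_of_one_le_of_one_le h3 h4))
  have hdom : IsDomain (ballCon D).Quotient := NoZeroDivisors.to_isDomain _
  have hf := Finite.isDomain_to_isField (ballCon D).Quotient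
  refine ⟨(ballCon D).Quotient, hf.toField, h1, (ballCon D).mk', (ballCon D).mk'_surjective,
    fun x => ?_⟩
  have h2 : (ballCon D).mk' x = (ballCon D).mk' 0 ↔ ballCon D x 0 := RingCon.eq (ballCon D)
  rw [map_zero] at h2
  rw [ballCon_iff, ZeroMemClass.coe_zero, sub_zero] at h2
  exact h2

omit [ProperSpace D] in
theorem norm_pow_sub_one_le {y : D} (hy : ‖y - 1‖ < 1) (i : ℕ) : ‖y ^ i - 1‖ ≤ ‖y - 1‖ := by
  have h1 := norm_eq_one_of_near hy
  induction i with
  | zero => rw [pow_zero, sub_self, norm_zero]; exact norm_nonneg _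
  | succ i ih =>
    have h2 : y ^ (i + 1) - 1 = (y ^ i - 1) * y + (y - 1) := by
      rw [pow_succ, sub_mul, one_mul]
      abel
    rw [h2]
    refine (IsUltrametricDist.norm_add_le_max _ _).trans (max_le ?_ le_rfl)
    rw [norm_mul, h1, mul_one]
    exact ih

omit [ProperSpace D] in
/-- Raising to the power `p` contracts. -/
theorem norm_pow_prime_le {ρ : ℝ} {p : ℕ} (hp : ‖(p : D)‖ ≤ ρ) (hρ : ρ < 1) {y : D}
    (hy : ‖y - 1‖ ≤ ρ) : ‖y ^ p - 1‖ ≤ ρ * ‖y - 1‖ := by
  have h1 : y ^ p - 1 = (∑ i ∈ Finset.range p, y ^ i) * (y - 1) := (geom_sum_mul y p).symm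
  rw [h1, norm_mul]
  refine mul_le_mul_of_nonneg_right ?_ (norm_nonneg _)
  have h2 : (∑ i ∈ Finset.range p, y ^ i) = (p : D) + ∑ i ∈ Finset.range p, (y ^ i - 1) := by
    rw [Finset.sum_sub_distrib, Finset.sum_const, Finset.card_range, nsmul_eq_mul, mul_one]
    abel
  rw [h2]
  refine (IsUltrametricDist.norm_add_le_max _ _).trans (max_le hp ?_)
  have hρ0 : 0 ≤ ρ := (norm_nonneg _).trans hp
  refine IsUltrametricDist.norm_sum_le_of_forall_le_of_nonneg hρ0 fun i _ => ?_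
  exact (norm_pow_sub_one_le (hy.trans_lt hρ) i).trans hy

omit [ProperSpace D] in
theorem norm_pow_prime_pow_le {ρ : ℝ} {p : ℕ} (hp : ‖(p : D)‖ ≤ ρ) (hρ : ρ < 1) {y : D}
    (hy : ‖y - 1‖ ≤ ρ) (k : ℕ) : ‖y ^ p ^ k - 1‖ ≤ ρ ^ k * ‖y - 1‖ := by
  have hρ0 : 0 ≤ ρ := (norm_nonneg _).trans hp
  induction k with
  | zero => rw [pow_zero, pow_one, pow_zero, one_mul]
  | succ k ih =>
    have h1 : ‖y ^ p ^ k - 1‖ ≤ ρ := (norm_pow_sub_one_le (hy.trans_lt hρ) _).trans hy
    have h2 := norm_pow_prime_le hp hρ h1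
    rw [← pow_mul, ← pow_succ] at h2
    refine h2.trans ?_
    rw [pow_succ', mul_assoc]
    exact mul_le_mul_of_nonneg_left ih hρ0

/-- A multiplicative generator of the residue field. -/
structure Teich (D : Type*) [NormedDivisionRing D] (p N : ℕ) (ω : D) : Prop where
  prime : p.Prime
  pos : N ≠ 0
  norm_p : ‖(p : D)‖ < 1
  pow : ω ^ (p ^ N - 1) = 1
  surj : ∀ x : D, ‖x‖ = 1 → ∃ m : ℕ, ‖x - ω ^ m‖ < 1
  inj : ∀ m : ℕ, ‖ω ^ m - 1‖ < 1 → (p ^ N - 1) ∣ m
  aut : ∀ x : D, x ≠ 0 → ∃ i : ℕ, ‖x⁻¹ * ω * x - ω ^ p ^ i‖ < 1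

/-- Conjugation as an endomorphism of the ring of the elements of norm at most one. -/
noncomputable def conjBall (x : D) (hx : x ≠ 0) : ballRing D →+* ballRing D where
  toFun y := ⟨x⁻¹ * y * x, by
    change ‖x⁻¹ * (y : D) * x‖ ≤ 1
    rw [norm_mul, norm_mul, norm_inv, mul_right_comm, inv_mul_cancel₀ (norm_ne_zero_iff.mpr hx),
      one_mul]
    exact y.2⟩
  map_one' := Subtype.ext (by
    change x⁻¹ * ((1 : ballRing D) : D) * x = ((1 : ballRing D) : D)
    rw [OneMemClass.coe_one, mul_one, inv_mul_cancel₀ hx])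
  map_mul' y z := Subtype.ext (by
    change x⁻¹ * ((y * z : ballRing D) : D) * x = (x⁻¹ * y * x) * (x⁻¹ * z * x)
    rw [Subring.coe_mul, mul_assoc (x⁻¹ * (y : D)) x, ← mul_assoc x, ← mul_assoc x,
      mul_inv_cancel₀ hx, one_mul]
    simp only [mul_assoc])
  map_zero' := Subtype.ext (by
    change x⁻¹ * ((0 : ballRing D) : D) * x = ((0 : ballRing D) : D)
    rw [ZeroMemClass.coe_zero, mul_zero, zero_mul])
  map_add' y z := Subtype.ext (by
    change x⁻¹ * ((y + z : ballRing D) : D) * x = x⁻¹ * y * x + x⁻¹ * z * x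
    rw [Subring.coe_add, mul_add, add_mul])

theorem pow_aux {R : Type*} [Ring R] (x : R) {Q : ℕ} (hQ : 1 ≤ Q) (m : ℕ) :
    x ^ Q ^ (m + 1) - x ^ Q ^ m = x ^ Q ^ m * ((x ^ (Q - 1)) ^ Q ^ m - 1) := by
  have e : Q ^ (m + 1) = Q ^ m + (Q - 1) * Q ^ m := by
    obtain ⟨r, rfl⟩ : ∃ r, Q = r + 1 := ⟨Q - 1, by omega⟩
    rw [Nat.add_sub_cancel, pow_succ]
    ring
  rw [e, pow_add, pow_mul, mul_sub, mul_one]

theorem exists_teich (D : Type u) [NormedDivisionRing D] [IsUltrametricDist D] [ProperSpace D] :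
    ∃ (p N : ℕ) (ω : D), Teich D p N ω := by
  obtain ⟨κ, _, _, π, hπ, hπ0⟩ := exists_residue D
  have _ := Fintype.ofFinite κ
  obtain ⟨p, hcp⟩ := CharP.exists κ
  obtain ⟨N, hp, hN⟩ := FiniteField.card κ p
  have : Fact p.Prime := ⟨hp⟩
  have hπsub : ∀ x y : ballRing D, π x = π y ↔ ‖(x : D) - y‖ < 1 := by
    intro x y
    rw [← sub_eq_zero, ← map_sub, hπ0, AddSubgroupClass.coe_sub]
  have hnp : ‖(p : D)‖ < 1 := by
    have h1 : π (p : ballRing D) = 0 := by rw [map_natCast, CharP.cast_eq_zero]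
    have h2 := (hπ0 _).mp h1
    rwa [Subring.coe_natCast] at h2
  obtain ⟨ρ, hρ0, hρ1, hρ⟩ := exists_rho D
  have hpρ := hρ _ hnp
  obtain ⟨ζ, hζ⟩ := IsCyclic.exists_generator (α := κˣ)
  obtain ⟨x0, hx0⟩ := hπ (ζ : κ)
  have hQ : 1 < p ^ (N : ℕ) := Nat.one_lt_pow N.pos.ne' hp.one_lt
  have hunit : ∀ x : ballRing D, ‖(x : D)‖ = 1 ↔ π x ≠ 0 := by
    intro x
    rw [Ne, hπ0, not_lt]
    exact ⟨fun h => h.ge, fun h => le_antisymm x.2 h⟩
  have hx1 : ‖(x0 : D)‖ = 1 := by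
    rw [hunit, hx0]
    exact ζ.ne_zero
  set Q := p ^ (N : ℕ) with hQdef
  have hcard : orderOf ζ = Q - 1 := by
    rw [orderOf_eq_card_of_forall_mem_zpowers hζ, Nat.card_units, Nat.card_eq_fintype_card, hN]
  -- the sequence
  set y : D := (x0 : D) ^ (Q - 1) with hy
  have hy1 : ‖y - 1‖ < 1 := by
    have h1 : π (x0 ^ (Q - 1)) = π 1 := by
      rw [map_pow, hx0, map_one, ← Units.val_pow_eq_pow_val, ← hcard, pow_orderOf_eq_one,
        Units.val_one]
    have h2 := (hπsub _ _).mp h1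
    rwa [Subring.coe_pow, Subring.coe_one] at h2
  have hyρ := hρ _ hy1
  let s : ℕ → D := fun m => (x0 : D) ^ Q ^ m
  have hs1 : ∀ m, ‖s m‖ = 1 := fun m => by
    change ‖(x0 : D) ^ Q ^ m‖ = 1
    rw [norm_pow, hx1, one_pow]
  have hstep : ∀ m, ‖s (m + 1) - s m‖ ≤ ρ ^ m * ρ := by
    intro m
    have h1 : s (m + 1) - s m = s m * (y ^ Q ^ m - 1) := by
      exact pow_aux (x0 : D) hQ.le m
    have h2 : y ^ Q ^ m = y ^ p ^ ((N : ℕ) * m) := congrArg (y ^ ·) (pow_mul p N m).symm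
    rw [h1, norm_mul, hs1, one_mul, h2]
    refine (norm_pow_prime_pow_le hpρ hρ1 hyρ _).trans ?_
    refine mul_le_mul ?_ hyρ (norm_nonneg _) (pow_nonneg hρ0 _)
    exact pow_le_pow_of_le_one hρ0 hρ1.le (Nat.le_mul_of_pos_left _ N.pos)
  have hcau : CauchySeq s := by
    refine cauchySeq_of_le_geometric ρ ρ hρ1 fun m => ?_
    rw [dist_eq_norm, norm_sub_rev, mul_comm]
    exact hstep m
  obtain ⟨ω, hω⟩ := cauchySeq_tendsto_of_complete hcau
  have hs0 : ∀ m, ‖s m - x0‖ ≤ ρ := by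
    intro m
    induction m with
    | zero =>
      change ‖(x0 : D) ^ Q ^ 0 - x0‖ ≤ ρ
      rw [pow_zero, pow_one, sub_self, norm_zero]
      exact hρ0
    | succ m ih =>
      have h1 : s (m + 1) - x0 = (s (m + 1) - s m) + (s m - x0) := by abel
      rw [h1]
      refine (IsUltrametricDist.norm_add_le_max _ _).trans (max_le ((hstep m).trans ?_) ih)
      exact mul_le_of_le_one_left hρ0 (pow_le_one₀ hρ0 hρ1.le)
  have hωx : ‖ω - x0‖ < 1 := by
    have h1 : Filter.Tendsto (fun m => ‖s m - x0‖) Filter.atTop (𝓝 ‖ω - x0‖) :=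
      (hω.sub_const _).norm
    exact (le_of_tendsto' h1 hs0).trans_lt hρ1
  have hω1 : ‖ω‖ = 1 := by
    have h1 : Filter.Tendsto (fun m => ‖s m‖) Filter.atTop (𝓝 ‖ω‖) := hω.norm
    have h2 : (fun m => ‖s m‖) = fun _ => (1 : ℝ) := funext hs1
    rw [h2] at h1
    exact tendsto_nhds_unique tendsto_const_nhds h1 |>.symm
  have hω0 : ω ≠ 0 := norm_ne_zero_iff.mp (by rw [hω1]; exact one_ne_zero)
  have hωQ : ω ^ Q = ω := by
    have h1 : Filter.Tendsto (fun m => s m ^ Q) Filter.atTop (𝓝 (ω ^ Q)) := hω.pow Q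
    have h2 : (fun m => s m ^ Q) = fun m => s (m + 1) := by
      funext m
      change ((x0 : D) ^ Q ^ m) ^ Q = (x0 : D) ^ Q ^ (m + 1)
      rw [← pow_mul, ← pow_succ]
    rw [h2] at h1
    exact tendsto_nhds_unique h1 ((Filter.tendsto_add_atTop_iff_nat 1).mpr hω)
  have hωball : ω ∈ ballRing D := hω1.le
  have hπω : π ⟨ω, hωball⟩ = ζ := by
    rw [← hx0, hπsub]
    exact hωx
  refine ⟨p, N, ω, hp, N.pos.ne', hnp, ?_, ?_, ?_, ?_⟩
  · have h1 : ω * ω ^ (Q - 1) = ω * 1 := by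
      rw [← pow_succ', Nat.sub_add_cancel hQ.le, hωQ, mul_one]
    exact mul_left_cancel₀ hω0 h1
  · intro x hx
    have h1 : π ⟨x, hx.le⟩ ≠ 0 := (hunit _).mp hx
    obtain ⟨m, hm⟩ := (mem_powers_iff_mem_zpowers (x := ζ) (y := Units.mk0 _ h1)).mpr (hζ _)
    refine ⟨m, ?_⟩
    have h2 : π ⟨x, hx.le⟩ = π (⟨ω, hωball⟩ ^ m) := by
      rw [map_pow, hπω, ← Units.val_pow_eq_pow_val]
      exact (congrArg Units.val hm).symm
    have h3 := (hπsub _ _).mp h2
    rwa [Subring.coe_pow] at h3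
  · intro m hm
    have h1 : π (⟨ω, hωball⟩ ^ m) = π 1 := by
      rw [hπsub, Subring.coe_pow, Subring.coe_one]
      exact hm
    rw [map_pow, hπω, map_one, ← Units.val_pow_eq_pow_val, Units.val_eq_one] at h1
    rw [← hcard]
    exact orderOf_dvd_of_pow_eq_one h1
  · intro x hx
    let τ0 : ballRing D →+* κ := π.comp (conjBall x hx)
    have hker : ∀ a b : ballRing D, π a = π b → τ0 a = τ0 b := by
      intro a b hab
      rw [hπsub] at hab
      change π (conjBall x hx a) = π (conjBall x hx b)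
      rw [hπsub]
      change ‖x⁻¹ * (a : D) * x - x⁻¹ * (b : D) * x‖ < 1
      rw [← sub_mul, ← mul_sub, norm_mul, norm_mul, norm_inv, mul_right_comm,
        inv_mul_cancel₀ (norm_ne_zero_iff.mpr hx), one_mul]
      exact hab
    let g : κ → ballRing D := fun a => (hπ a).choose
    have hg : ∀ a, π (g a) = a := fun a => (hπ a).choose_spec
    let τ : κ →+* κ :=
      { toFun := fun a => τ0 (g a)
        map_one' := by
          rw [hker (g 1) 1 (by rw [hg, map_one]), map_one]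
        map_mul' := fun a b => by
          rw [hker (g (a * b)) (g a * g b) (by rw [hg, map_mul, hg, hg]), map_mul]
        map_zero' := by
          rw [hker (g 0) 0 (by rw [hg, map_zero]), map_zero]
        map_add' := fun a b => by
          rw [hker (g (a + b)) (g a + g b) (by rw [hg, map_add, hg, hg]), map_add] }
    obtain ⟨i, hi⟩ := ringHom_eq_pow p τ
    refine ⟨i, ?_⟩
    have h1 : τ0 ⟨ω, hωball⟩ = π (⟨ω, hωball⟩ ^ p ^ i) := by
      rw [map_pow, ← hi]
      exact hker _ _ (hg _).symm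
    have h2 := (hπsub _ _).mp h1
    rwa [Subring.coe_pow] at h2

end

end Vale.Agent.P011.H738
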