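import Vale.Agent.P011.H738.LocDF2
import Vale.Agent.P011.H929.DP

/-!
Norms from the cubic algebra `L[y]` over a complete ultrametric field `L`, in every characteristic.
-/

open Module Polynomial Topology Filter

namespace Vale.Agent.P011.H738

open Vale.Agent.P011.H775 Vale.Agent.P011.H271 Vale.Agent.P011.Hey.H63

section alg

variable {L : Type} [Field L]

/-- The norms of the elements `c₀ + c₁ y + c₂ y ^ 2`, where `y` is a root of
`X ^ 3 - t X ^ 2 + s X - n`. -/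
def NX (t s n : L) : Set L := {β | ∃ c₀ c₁ c₂ : L, RR c₀ c₁ c₂ t s n = β}

theorem mem_NX {t s n : L} (c₀ c₁ c₂ : L) : RR c₀ c₁ c₂ t s n ∈ NX t s n := ⟨_, _, _, rfl⟩

/-- The companion matrix. -/
def cm (t s n : L) : Matrix (Fin 3) (Fin 3) L := !![0, 0, n; 1, 0, -s; 0, 1, t]

theorem cm_trace (t s n : L) : (cm t s n).trace = t := by
  simp [cm, Matrix.trace_fin_three]

theorem cm_det (t s n : L) : (cm t s n).det = n := by
  simp [cm, Matrix.det_fin_three]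

theorem cm_adj (t s n : L) : (cm t s n).adjugate.trace = s := by
  simp [cm, Matrix.adjugate_fin_three, Matrix.trace_fin_three]

theorem det_cm (t s n a b c : L) :
    (a • (1 : Matrix (Fin 3) (Fin 3) L) + b • cm t s n + c • (cm t s n * cm t s n)).det =
      RR a b c t s n := by
  rw [det_pol, cm_trace, cm_det, cm_adj]

theorem cm_cube (t s n : L) : cm t s n * cm t s n * cm t s n =
    t • (cm t s n * cm t s n) - s • cm t s n + n • (1 : Matrix (Fin 3) (Fin 3) L) := by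
  have h := (cubMat L).cayley (cm t s n)
  have h1 : (cubMat L).T (cm t s n) = t := cm_trace t s n
  have h2 : (cubMat L).S (cm t s n) = s := cm_adj t s n
  have h3 : (cubMat L).N (cm t s n) = n := cm_det t s n
  rw [h1, h2, h3] at h
  rw [← sub_eq_zero, ← h]
  abel

/-- The norms are closed under multiplication. -/
theorem NX.mul {t s n β γ : L} (h : β ∈ NX t s n) (h' : γ ∈ NX t s n) : β * γ ∈ NX t s n := by
  obtain ⟨c₀, c₁, c₂, rfl⟩ := h
  obtain ⟨d₀, d₁, d₂, rfl⟩ := h'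
  rw [← det_cm, ← det_cm, ← Matrix.det_mul]
  set M := cm t s n with hM
  have h3 := cm_cube t s n
  rw [← hM] at h3
  have h4 : M * M * (M * M) = (t ^ 2 - s) • (M * M) + (n - t * s) • M +
      (t * n) • (1 : Matrix (Fin 3) (Fin 3) L) := by
    rw [← mul_assoc, h3, add_mul, sub_mul, smul_mul_assoc, smul_mul_assoc, smul_mul_assoc, one_mul,
      h3]
    module
  have e : (c₀ • (1 : Matrix (Fin 3) (Fin 3) L) + c₁ • M + c₂ • (M * M)) *
      (d₀ • (1 : Matrix (Fin 3) (Fin 3) L) + d₁ • M + d₂ • (M * M)) =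
      (c₀ * d₀) • (1 : Matrix (Fin 3) (Fin 3) L) + (c₀ * d₁ + c₁ * d₀) • M +
      (c₀ * d₂ + c₁ * d₁ + c₂ * d₀) • (M * M) + (c₁ * d₂ + c₂ * d₁) • (M * M * M) +
      (c₂ * d₂) • (M * M * (M * M)) := by
    simp only [add_mul, mul_add, smul_mul_assoc, mul_smul_comm, one_mul, mul_one, mul_assoc]
    module
  rw [e, h3, h4]
  have e2 : (c₀ * d₀) • (1 : Matrix (Fin 3) (Fin 3) L) + (c₀ * d₁ + c₁ * d₀) • M +
      (c₀ * d₂ + c₁ * d₁ + c₂ * d₀) • (M * M) + (c₁ * d₂ + c₂ * d₁) •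
        (t • (M * M) - s • M + n • (1 : Matrix (Fin 3) (Fin 3) L)) +
      (c₂ * d₂) • ((t ^ 2 - s) • (M * M) + (n - t * s) • M +
        (t * n) • (1 : Matrix (Fin 3) (Fin 3) L)) =
      (c₀ * d₀ + (c₁ * d₂ + c₂ * d₁) * n + c₂ * d₂ * (t * n)) •
        (1 : Matrix (Fin 3) (Fin 3) L) +
      (c₀ * d₁ + c₁ * d₀ - (c₁ * d₂ + c₂ * d₁) * s + c₂ * d₂ * (n - t * s)) • M +
      (c₀ * d₂ + c₁ * d₁ + c₂ * d₀ + (c₁ * d₂ + c₂ * d₁) * t + c₂ * d₂ * (t ^ 2 - s)) •
        (M * M) := by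
    module
  rw [e2, det_cm]
  exact mem_NX _ _ _

theorem NX.cube (t s n a : L) : a ^ 3 ∈ NX t s n := ⟨a, 0, 0, by simp only [RR]; ring⟩

theorem NX.one (t s n : L) : (1 : L) ∈ NX t s n := by
  have h := NX.cube t s n 1
  rwa [one_pow] at h

theorem NX.zero (t s n : L) : (0 : L) ∈ NX t s n := by
  have h := NX.cube t s n 0
  rwa [zero_pow three_ne_zero] at h

theorem NX.inv {t s n β : L} (h : β ∈ NX t s n) : β⁻¹ ∈ NX t s n := by
  by_cases h0 : β = 0
  · rw [h0, inv_zero]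
    exact NX.zero t s n
  · have e : β⁻¹ = β⁻¹ ^ 3 * (β * β) := by field_simp
    rw [e]
    exact NX.mul (NX.cube t s n _) (NX.mul h h)

theorem NX.div {t s n β γ : L} (h : β ∈ NX t s n) (h' : γ ∈ NX t s n) : β / γ ∈ NX t s n := by
  rw [div_eq_mul_inv]
  exact NX.mul h (NX.inv h')

/-- The algebra has a component with a simple root: everything is a norm. -/
theorem NX.of_root {t s n : L} {α : L} (hα : α ^ 3 - t * α ^ 2 + s * α - n = 0)
    (hd : 3 * α ^ 2 - 2 * t * α + s ≠ 0) (β : L) : β ∈ NX t s n := by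
  set σ := t - α with hσ
  set p := s - α * σ with hp
  have hd' : α ^ 2 - σ * α + p ≠ 0 := by
    have e : α ^ 2 - σ * α + p = 3 * α ^ 2 - 2 * t * α + s := by rw [hp, hσ]; ring
    rw [e]
    exact hd
  refine ⟨1 + (β - 1) / (α ^ 2 - σ * α + p) * p, -((β - 1) / (α ^ 2 - σ * α + p)) * σ,
    (β - 1) / (α ^ 2 - σ * α + p), ?_⟩
  have ht : t = α + σ := by rw [hσ]; ring
  have hs : s = α * σ + p := by rw [hp]; ring
  have hn : n = α * p := by
    rw [hp, hσ]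
    linear_combination -hα
  rw [ht, hs, hn, RR_root, div_mul_cancel₀ _ hd']
  ring

/-- The norm of `1 + z w` for `w = 1, y, y ^ 2`. -/
theorem NX.line_one (t s n z : L) : 1 + 3 * z + 3 * z ^ 2 + 1 * z ^ 3 ∈ NX t s n :=
  ⟨1 + z, 0, 0, by simp only [RR]; ring⟩

theorem NX.line_y (t s n z : L) : 1 + t * z + s * z ^ 2 + n * z ^ 3 ∈ NX t s n :=
  ⟨1, z, 0, by simp only [RR]; ring⟩

theorem NX.line_sq (t s n z : L) :
    1 + (t ^ 2 - 2 * s) * z + (s ^ 2 - 2 * t * n) * z ^ 2 + n ^ 2 * z ^ 3 ∈ NX t s n :=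
  ⟨1, 0, z, by simp only [RR]; ring⟩

end alg

section complete

variable {L : Type} [NormedField L] [IsUltrametricDist L] [CompleteSpace L]

/-- Hensel's lemma for a cubic polynomial. -/
theorem exists_root_zero {a₀ a₁ a₂ a₃ : L} (h0 : ‖a₀‖ < 1) (h1 : ‖a₁‖ = 1)
    (h2 : ‖a₂‖ ≤ 1) (h3 : ‖a₃‖ ≤ 1) :
    ∃ z : L, ‖z‖ < 1 ∧ a₀ + a₁ * z + a₂ * z ^ 2 + a₃ * z ^ 3 = 0 := by
  let b₀ : OK L := ⟨a₀, h0.le⟩
  let b₁ : OK L := ⟨a₁, h1.le⟩
  let b₂ : OK L := ⟨a₂, h2⟩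
  let b₃ : OK L := ⟨a₃, h3⟩
  obtain ⟨z, hz, hz0⟩ := hensel (K := L)
    (Polynomial.C b₀ + Polynomial.C b₁ * X + Polynomial.C b₂ * X ^ 2 + Polynomial.C b₃ * X ^ 3)
    (by
      simp only [coeff_add, coeff_C_mul, coeff_X_pow, coeff_X, coeff_C]
      norm_num
      exact h0)
    (by
      simp only [coeff_add, coeff_C_mul, coeff_X_pow, coeff_X, coeff_C]
      norm_num
      exact h1)
  refine ⟨z, hz, ?_⟩
  have h4 := congrArg (fun x : OK L => (x : L)) hz0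
  simp only [eval_add, eval_mul, eval_C, eval_X, eval_pow] at h4
  exact h4

/-- **One-units are norms** if the trace form is not zero modulo the maximal ideal. -/
theorem NX.of_one_unit {t s n u : L} (ht : ‖t‖ ≤ 1) (hs : ‖s‖ ≤ 1) (hn : ‖n‖ ≤ 1)
    (hu : ‖u - 1‖ < 1) (h : ‖(3 : L)‖ = 1 ∨ ‖t‖ = 1 ∨ ‖t ^ 2 - 2 * s‖ = 1) : u ∈ NX t s n := by
  have hu' : ‖1 - u‖ < 1 := by rw [norm_sub_rev]; exact hu
  have h2 : ∀ x : L, ‖x‖ ≤ 1 → ‖2 * x‖ ≤ 1 := fun x hx => (norm_two_mul_le x).trans hx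
  rcases h with h | h | h
  · obtain ⟨z, -, hz⟩ := exists_root_zero (a₀ := 1 - u) (a₁ := 3) (a₂ := 3) (a₃ := 1) hu' h h.le
      norm_one.le
    have e : u = 1 + 3 * z + 3 * z ^ 2 + 1 * z ^ 3 := by linear_combination -hz
    rw [e]
    exact NX.line_one t s n z
  · obtain ⟨z, -, hz⟩ := exists_root_zero (a₀ := 1 - u) (a₁ := t) (a₂ := s) (a₃ := n) hu' h hs hn
    have e : u = 1 + t * z + s * z ^ 2 + n * z ^ 3 := by linear_combination -hz
    rw [e]
    exact NX.line_y t s n z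
  · obtain ⟨z, -, hz⟩ := exists_root_zero (a₀ := 1 - u) (a₁ := t ^ 2 - 2 * s)
      (a₂ := s ^ 2 - 2 * t * n) (a₃ := n ^ 2) hu' h (by
        rw [sub_eq_add_neg]
        refine (IsUltrametricDist.norm_add_le_max _ _).trans (max_le ?_ ?_)
        · rw [norm_pow]
          exact pow_le_one₀ (norm_nonneg _) hs
        · rw [norm_neg, mul_assoc]
          refine h2 _ ?_
          rw [norm_mul]
          exact mul_le_one₀ ht (norm_nonneg _) hn) (by
        rw [norm_pow]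
        exact pow_le_one₀ (norm_nonneg _) hn)
    have e : u = 1 + (t ^ 2 - 2 * s) * z + (s ^ 2 - 2 * t * n) * z ^ 2 + n ^ 2 * z ^ 3 := by
      linear_combination -hz
    rw [e]
    exact NX.line_sq t s n z

/-- The elements close to one are norms, uniformly near a point. -/
theorem NX.near_of {τ σ ν : L × L × L → L} (hτ : Continuous τ) (hσ : Continuous σ)
    (hν : Continuous ν)
    (hmem : ∀ (p : L × L × L) (z : L), 1 + τ p * z + σ p * z ^ 2 + ν p * z ^ 3 ∈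
      NX p.1 p.2.1 p.2.2) {p₀ : L × L × L} (h0 : τ p₀ ≠ 0) :
    ∀ᶠ q : (L × L × L) × L in 𝓝 (p₀, 1), q.2 ∈ NX q.1.1 q.1.2.1 q.1.2.2 := by
  have hc1 : Tendsto (fun q : (L × L × L) × L => σ q.1 * (q.2 - 1) / τ q.1 ^ 2)
      (𝓝 (p₀, 1)) (𝓝 0) := by
    have h1 : ContinuousAt (fun q : (L × L × L) × L => σ q.1 * (q.2 - 1) / τ q.1 ^ 2) (p₀, 1) := by
      refine ContinuousAt.div ?_ ?_ (pow_ne_zero 2 h0)
      · exact ((hσ.comp continuous_fst).mul (continuous_snd.sub continuous_const)).continuousAt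
      · exact ((hτ.comp continuous_fst).pow 2).continuousAt
    have h2 := h1.tendsto
    simp only [sub_self, mul_zero, zero_div] at h2
    exact h2
  have hc2 : Tendsto (fun q : (L × L × L) × L => ν q.1 * (q.2 - 1) ^ 2 / τ q.1 ^ 3)
      (𝓝 (p₀, 1)) (𝓝 0) := by
    have h1 : ContinuousAt (fun q : (L × L × L) × L => ν q.1 * (q.2 - 1) ^ 2 / τ q.1 ^ 3)
        (p₀, 1) := by
      refine ContinuousAt.div ?_ ?_ (pow_ne_zero 3 h0)
      · exact ((hν.comp continuous_fst).mul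
          ((continuous_snd.sub continuous_const).pow 2)).continuousAt
      · exact ((hτ.comp continuous_fst).pow 3).continuousAt
    have h2 := h1.tendsto
    simp only [sub_self, ne_eq, OfNat.ofNat_ne_zero, not_false_eq_true, zero_pow, mul_zero,
      zero_div] at h2
    exact h2
  have e1 : ∀ᶠ q : (L × L × L) × L in 𝓝 (p₀, 1), ‖σ q.1 * (q.2 - 1) / τ q.1 ^ 2‖ < 1 := by
    have := hc1.norm
    rw [norm_zero] at this
    exact this.eventually_lt_const one_pos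
  have e2 : ∀ᶠ q : (L × L × L) × L in 𝓝 (p₀, 1), ‖ν q.1 * (q.2 - 1) ^ 2 / τ q.1 ^ 3‖ < 1 := by
    have := hc2.norm
    rw [norm_zero] at this
    exact this.eventually_lt_const one_pos
  have e3 : ∀ᶠ q : (L × L × L) × L in 𝓝 (p₀, 1), τ q.1 ≠ 0 :=
    (hτ.comp continuous_fst).continuousAt.eventually_ne h0
  filter_upwards [e1, e2, e3] with q h1 h2 h3
  obtain ⟨p, u⟩ := q
  change u ∈ NX p.1 p.2.1 p.2.2
  change ‖σ p * (u - 1) / τ p ^ 2‖ < 1 at h1
  change ‖ν p * (u - 1) ^ 2 / τ p ^ 3‖ < 1 at h2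
  change τ p ≠ 0 at h3
  set a := σ p * (u - 1) / τ p ^ 2 with ha
  set b := ν p * (u - 1) ^ 2 / τ p ^ 3 with hb
  -- a root of `-1 + x + a x ^ 2 + b x ^ 3` near one, `x = 1 + w`
  have hw : ∃ w : L, ‖w‖ < 1 ∧ (a + b) + (1 + 2 * a + 3 * b) * w + (a + 3 * b) * w ^ 2 +
      b * w ^ 3 = 0 := by
    refine exists_root_zero (norm_add_lt h1 h2) ?_ ?_ h2.le
    · rw [add_assoc]
      exact norm_one_add' (norm_add_lt ((norm_two_mul_le _).trans_lt h1)
        ((norm_three_mul_le _).trans_lt h2))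
    · exact (norm_add_lt h1 ((norm_three_mul_le _).trans_lt h2)).le
  obtain ⟨w, -, hw⟩ := hw
  have hx : -1 + (1 + w) + a * (1 + w) ^ 2 + b * (1 + w) ^ 3 = 0 := by linear_combination hw
  have h4 := hmem p ((u - 1) / τ p * (1 + w))
  have e : u = 1 + τ p * ((u - 1) / τ p * (1 + w)) + σ p * ((u - 1) / τ p * (1 + w)) ^ 2 +
      ν p * ((u - 1) / τ p * (1 + w)) ^ 3 := by
    have e5 : 1 + τ p * ((u - 1) / τ p * (1 + w)) + σ p * ((u - 1) / τ p * (1 + w)) ^ 2 +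
        ν p * ((u - 1) / τ p * (1 + w)) ^ 3 =
        1 + (u - 1) * ((1 + w) + a * (1 + w) ^ 2 + b * (1 + w) ^ 3) := by
      rw [ha, hb]
      field_simp
      ring
    rw [e5]
    linear_combination (-(u - 1)) * hx
  rw [e]
  exact h4

/-- **The elements close to one are norms**, uniformly near a point. -/
theorem NX.near {t s n : L} (h : (3 : L) ≠ 0 ∨ t ≠ 0 ∨ s ≠ 0) :
    ∀ᶠ q : (L × L × L) × L in 𝓝 ((t, s, n), 1), q.2 ∈ NX q.1.1 q.1.2.1 q.1.2.2 := by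
  have h' : (3 : L) ≠ 0 ∨ t ≠ 0 ∨ t ^ 2 - 2 * s ≠ 0 := by
    by_contra hcon
    push Not at hcon
    obtain ⟨h1, h2, h3⟩ := hcon
    rcases h with h | h | h
    · exact h h1
    · exact h h2
    · apply h
      have h4 : (2 : L) * s = 0 := by
        rw [h2] at h3
        linear_combination -h3
      linear_combination s * h1 - h4
  rcases h' with h | h | h
  · refine NX.near_of (τ := fun _ => 3) (σ := fun _ => 3) (ν := fun _ => 1) continuous_const
      continuous_const continuous_const (fun p z => NX.line_one _ _ _ z) h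
  · refine NX.near_of (τ := fun p => p.1) (σ := fun p => p.2.1) (ν := fun p => p.2.2)
      continuous_fst (continuous_fst.comp continuous_snd) (continuous_snd.comp continuous_snd)
      (fun p z => NX.line_y _ _ _ z) h
  · refine NX.near_of (τ := fun p => p.1 ^ 2 - 2 * p.2.1)
      (σ := fun p => p.2.1 ^ 2 - 2 * p.1 * p.2.2) (ν := fun p => p.2.2 ^ 2)
      (by fun_prop) (by fun_prop) (by fun_prop) (fun p z => NX.line_sq _ _ _ z) h

/-- **Openness of the norms.** -/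
theorem NX.eventually {t s n β : L} (hβ : β ≠ 0) (hm : β ∈ NX t s n)
    (h : (3 : L) ≠ 0 ∨ t ≠ 0 ∨ s ≠ 0) :
    ∀ᶠ q : (L × L × L) × L in 𝓝 ((t, s, n), β), q.2 ∈ NX q.1.1 q.1.2.1 q.1.2.2 := by
  obtain ⟨c₀, c₁, c₂, hc⟩ := hm
  let F : (L × L × L) × L → (L × L × L) × L := fun q =>
    (q.1, q.2 / RR c₀ c₁ c₂ q.1.1 q.1.2.1 q.1.2.2)
  have hR : Continuous fun q : (L × L × L) × L => RR c₀ c₁ c₂ q.1.1 q.1.2.1 q.1.2.2 := by
    unfold RR
    fun_prop
  have hF : ContinuousAt F ((t, s, n), β) := by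
    refine ContinuousAt.prodMk continuous_fst.continuousAt ?_
    refine ContinuousAt.div continuous_snd.continuousAt hR.continuousAt ?_
    rw [hc]
    exact hβ
  have hF0 : F ((t, s, n), β) = ((t, s, n), 1) := by
    change ((t, s, n), β / RR c₀ c₁ c₂ t s n) = _
    rw [hc, div_self hβ]
  have h1 : ∀ᶠ q in 𝓝 ((t, s, n), β), (F q).2 ∈ NX (F q).1.1 (F q).1.2.1 (F q).1.2.2 := by
    have h2 := hF.tendsto
    rw [hF0] at h2
    exact h2.eventually (NX.near h)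
  have h3 : ∀ᶠ q : (L × L × L) × L in 𝓝 ((t, s, n), β),
      RR c₀ c₁ c₂ q.1.1 q.1.2.1 q.1.2.2 ≠ 0 :=
    hR.continuousAt.eventually_ne (by
      change RR c₀ c₁ c₂ t s n ≠ 0
      rw [hc]
      exact hβ)
  filter_upwards [h1, h3] with q h4 h5
  have h6 : q.2 / RR c₀ c₁ c₂ q.1.1 q.1.2.1 q.1.2.2 ∈ NX q.1.1 q.1.2.1 q.1.2.2 := h4
  have h7 := NX.mul h6 (mem_NX (t := q.1.1) (s := q.1.2.1) (n := q.1.2.2) c₀ c₁ c₂)
  rwa [div_mul_cancel₀ _ h5] at h7

/-- **Openness of the norms**, with a number. -/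
theorem NX.open {t s n β : L} (hβ : β ≠ 0) (hm : β ∈ NX t s n)
    (h : (3 : L) ≠ 0 ∨ t ≠ 0 ∨ s ≠ 0) :
    ∃ ε : ℝ, 0 < ε ∧ ∀ t' s' n' β' : L, ‖t' - t‖ < ε → ‖s' - s‖ < ε → ‖n' - n‖ < ε →
      ‖β' - β‖ < ε → β' ∈ NX t' s' n' := by
  obtain ⟨ε, hε, hb⟩ := Metric.eventually_nhds_iff.mp (NX.eventually hβ hm h)
  refine ⟨ε, hε, fun t' s' n' β' h1 h2 h3 h4 => hb (y := ((t', s', n'), β')) ?_⟩
  rw [Prod.dist_eq, Prod.dist_eq, Prod.dist_eq, max_lt_iff, max_lt_iff, max_lt_iff, dist_eq_norm,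
    dist_eq_norm, dist_eq_norm, dist_eq_norm]
  exact ⟨⟨h1, h2, h3⟩, h4⟩

/-- Hensel's lemma for a cubic polynomial at one. -/
theorem exists_root_one' {a₀ a₁ a₂ a₃ : L} (h2 : ‖a₂‖ ≤ 1) (h3 : ‖a₃‖ ≤ 1) (hs : ‖a₀ + a₁ + a₂ + a₃‖ < 1)
    (hd : ‖a₁ + 2 * a₂ + 3 * a₃‖ = 1) :
    ∃ z : L, ‖z - 1‖ < 1 ∧ a₀ + a₁ * z + a₂ * z ^ 2 + a₃ * z ^ 3 = 0 := by
  obtain ⟨z, hz, hz0⟩ := exists_root_zero (a₀ := a₀ + a₁ + a₂ + a₃) (a₁ := a₁ + 2 * a₂ + 3 * a₃)
    (a₂ := a₂ + 3 * a₃) (a₃ := a₃) hs hd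
    ((IsUltrametricDist.norm_add_le_max _ _).trans (max_le h2 ((norm_three_mul_le _).trans h3))) h3
  refine ⟨1 + z, by rw [add_sub_cancel_left]; exact hz, ?_⟩
  linear_combination hz0

/-- **The trace is large**: everything is a norm. -/
theorem NX.of_big_T {t s n : L} (h1 : ‖s‖ < ‖t‖ ^ 2) (h2 : ‖n‖ < ‖t‖ ^ 3) (β : L) :
    β ∈ NX t s n := by
  have ht0 : t ≠ 0 := by
    intro h0
    rw [h0, norm_zero, zero_pow three_ne_zero] at h2
    exact absurd h2 (not_lt.mpr (norm_nonneg _))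
  have htp : 0 < ‖t‖ := norm_pos_iff.mpr ht0
  have hs1 : ‖s / t ^ 2‖ < 1 := by
    rw [norm_div, norm_pow, div_lt_one (by positivity)]
    exact h1
  have hn1 : ‖-(n / t ^ 3)‖ < 1 := by
    rw [norm_neg, norm_div, norm_pow, div_lt_one (by positivity)]
    exact h2
  obtain ⟨z, hz, hz0⟩ := exists_root_one' (a₀ := -(n / t ^ 3)) (a₁ := s / t ^ 2) (a₂ := -1)
    (a₃ := 1) (by rw [norm_neg, norm_one]) (by rw [norm_one]) (by
      have h : -(n / t ^ 3) + s / t ^ 2 + -1 + 1 = -(n / t ^ 3) + s / t ^ 2 := by ring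
      rw [h]
      exact norm_add_lt hn1 hs1) (by
      have h : s / t ^ 2 + 2 * -1 + 3 * 1 = 1 + s / t ^ 2 := by ring
      rw [h]
      exact norm_one_add' hs1)
  refine NX.of_root (α := t * z) ?_ ?_ β
  · have h : (t * z) ^ 3 - t * (t * z) ^ 2 + s * (t * z) - n =
        t ^ 3 * (-(n / t ^ 3) + s / t ^ 2 * z + -1 * z ^ 2 + 1 * z ^ 3) := by
      field_simp
      ring
    rw [h, hz0, mul_zero]
  · have h : 3 * (t * z) ^ 2 - 2 * t * (t * z) + s =
        t ^ 2 * (1 + (3 * (z - 1) ^ 2 + (2 * (2 * (z - 1)) + s / t ^ 2))) := by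
      field_simp
      ring
    rw [h]
    refine mul_ne_zero (pow_ne_zero 2 ht0) ?_
    rw [← norm_ne_zero_iff, norm_one_add']
    · exact one_ne_zero
    · have hz2 : ‖(z - 1) ^ 2‖ < 1 := by
        rw [norm_pow]
        exact pow_lt_one₀ (norm_nonneg _) hz two_ne_zero
      exact norm_add_lt ((norm_three_mul_le _).trans_lt hz2)
        (norm_add_lt (((norm_two_mul_le _).trans (norm_two_mul_le _)).trans_lt hz) hs1)

/-- **The second coefficient is large**: everything is a norm. -/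
theorem NX.of_big_S {t s n : L} (h1 : ‖n‖ * ‖t‖ < ‖s‖ ^ 2) (h2 : ‖n‖ ^ 2 < ‖s‖ ^ 3) (β : L) :
    β ∈ NX t s n := by
  have hs0 : s ≠ 0 := by
    intro h0
    rw [h0, norm_zero, zero_pow three_ne_zero] at h2
    exact absurd h2 (not_lt.mpr (by positivity))
  have hsp : 0 < ‖s‖ := norm_pos_iff.mpr hs0
  have hn1 : ‖-(n * t / s ^ 2)‖ < 1 := by
    rw [norm_neg, norm_div, norm_mul, norm_pow, div_lt_one (by positivity)]
    exact h1
  have hn2 : ‖n ^ 2 / s ^ 3‖ < 1 := by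
    rw [norm_div, norm_pow, norm_pow, div_lt_one (by positivity)]
    exact h2
  obtain ⟨z, hz, hz0⟩ := exists_root_one' (a₀ := -1) (a₁ := 1) (a₂ := -(n * t / s ^ 2))
    (a₃ := n ^ 2 / s ^ 3) hn1.le hn2.le (by
      have h : -1 + 1 + -(n * t / s ^ 2) + n ^ 2 / s ^ 3 = -(n * t / s ^ 2) + n ^ 2 / s ^ 3 := by
        ring
      rw [h]
      exact norm_add_lt hn1 hn2) (by
      rw [add_assoc]
      exact norm_one_add' (norm_add_lt ((norm_two_mul_le _).trans_lt hn1)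
        ((norm_three_mul_le _).trans_lt hn2)))
  refine NX.of_root (α := n / s * z) ?_ ?_ β
  · have h : (n / s * z) ^ 3 - t * (n / s * z) ^ 2 + s * (n / s * z) - n =
        n * (-1 + 1 * z + -(n * t / s ^ 2) * z ^ 2 + n ^ 2 / s ^ 3 * z ^ 3) := by
      field_simp
      ring
    rw [h, hz0, mul_zero]
  · have h : 3 * (n / s * z) ^ 2 - 2 * t * (n / s * z) + s =
        s * (1 + (3 * (n ^ 2 / s ^ 3 * z ^ 2) + 2 * (-(n * t / s ^ 2) * z))) := by
      field_simp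
      ring
    rw [h]
    refine mul_ne_zero hs0 ?_
    have hz1 : ‖z‖ = 1 := by
      have h3 : z = 1 + (z - 1) := by ring
      rw [h3]
      exact norm_one_add' hz
    rw [← norm_ne_zero_iff, norm_one_add']
    · exact one_ne_zero
    · refine norm_add_lt ((norm_three_mul_le _).trans_lt ?_) ((norm_two_mul_le _).trans_lt ?_)
      · rw [norm_mul, norm_pow, hz1, one_pow, mul_one]
        exact hn2
      · rw [norm_mul, hz1, mul_one]
        exact hn1

end complete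

end Vale.Agent.P011.H738
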