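import Vale.Agent.P011.H738.LocX1

/-!
Function fields of any characteristic: local norms from the cubic field `K[y]`.
-/

open Module Polynomial Topology Filter
open scoped TensorProduct

namespace Vale.Agent.P011.H738

open Vale.Agent.P011.H775 Vale.Agent.P011.H271 Vale.Agent.P011.Hey.H63

section defs

variable {K D : Type} [Field K] [Ring D] [Algebra K D]

/-- `b` is a norm from `K_V[y]`. -/
def LocX (C : Cub K D) (y : D) (V : Place K) (b : K) : Prop :=
  algebraMap K V.comp b ∈ NX (algebraMap K V.comp (C.T y)) (algebraMap K V.comp (C.S y))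
    (algebraMap K V.comp (C.N y))

variable {C : Cub K D} {y : D} {V : Place K} {b : K}

theorem LocX.mul {b' : K} (h : LocX C y V b) (h' : LocX C y V b') : LocX C y V (b * b') := by
  rw [LocX, map_mul]
  exact NX.mul h h'

theorem LocX.inv (h : LocX C y V b) : LocX C y V b⁻¹ := by
  rw [LocX, map_inv₀]
  exact NX.inv h

/-- A norm from `K[y]` is a norm. -/
theorem LocX.of_RR (c₀ c₁ c₂ : K) : LocX C y V (RR c₀ c₁ c₂ (C.T y) (C.S y) (C.N y)) := by
  rw [LocX, map_RR]
  exact mem_NX _ _ _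

theorem LocX.of_N (c : Fin 3 → K) :
    LocX C y V (C.N (c 0 • (1 : D) + c 1 • y + c 2 • (y * y))) := by
  rw [N_pol]
  exact LocX.of_RR _ _ _

theorem LocX.of_cube (c : K) : LocX C y V (c ^ 3) := by
  rw [LocX, map_pow]
  exact NX.cube _ _ _ _

/-- **A simple root** in the completion. -/
theorem LocX.of_root {α : V.comp}
    (hα : α ^ 3 - algebraMap K V.comp (C.T y) * α ^ 2 + algebraMap K V.comp (C.S y) * α -
      algebraMap K V.comp (C.N y) = 0)
    (hd : 3 * α ^ 2 - 2 * algebraMap K V.comp (C.T y) * α + algebraMap K V.comp (C.S y) ≠ 0) :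
    LocX C y V b := NX.of_root hα hd _

/-- **Criterion (b1)**: the trace is large. -/
theorem LocX.of_big_T (hS : V.abv (C.S y) < V.abv (C.T y) ^ 2)
    (hN : V.abv (C.N y) < V.abv (C.T y) ^ 3) : LocX C y V b := by
  refine NX.of_big_T ?_ ?_ _
  · rw [norm_alg, norm_alg]
    exact hS
  · rw [norm_alg, norm_alg]
    exact hN

/-- **Criterion (b2)**: the second coefficient is large. -/
theorem LocX.of_big_S (h1 : V.abv (C.N y) * V.abv (C.T y) < V.abv (C.S y) ^ 2)
    (h2 : V.abv (C.N y) ^ 2 < V.abv (C.S y) ^ 3) : LocX C y V b := by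
  refine NX.of_big_S ?_ ?_ _
  · rw [norm_alg, norm_alg, norm_alg]
    exact h1
  · rw [norm_alg, norm_alg]
    exact h2

/-- **Criterion (b)**: norm one and trace or second coefficient not integral. -/
theorem LocX.of_big (hN : C.N y = 1) (h : 1 < V.abv (C.T y) ∨ 1 < V.abv (C.S y)) :
    LocX C y V b := by
  by_cases h1 : 1 < V.abv (C.T y) ∧ V.abv (C.S y) < V.abv (C.T y) ^ 2
  · refine LocX.of_big_T h1.2 ?_
    rw [hN, map_one]
    exact one_lt_pow₀ h1.1 (by norm_num)
  · have h2 : 1 < V.abv (C.S y) ∧ V.abv (C.T y) < V.abv (C.S y) ^ 2 := by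
      by_cases h3 : 1 < V.abv (C.T y)
      · have h4 : V.abv (C.T y) ^ 2 ≤ V.abv (C.S y) := by
          by_contra h5
          exact h1 ⟨h3, not_le.mp h5⟩
        have h5 : V.abv (C.T y) < V.abv (C.T y) ^ 2 := by nlinarith
        have h6 : 1 < V.abv (C.S y) := by nlinarith
        exact ⟨h6, by nlinarith⟩
      · have h4 : 1 < V.abv (C.S y) := h.resolve_left h3
        exact ⟨h4, by nlinarith⟩
    refine LocX.of_big_S ?_ ?_
    · rw [hN, map_one, one_mul]
      exact h2.2
    · rw [hN, map_one, one_pow]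
      exact one_lt_pow₀ h2.1 (by norm_num)

/-- **Criterion (c)**: trace zero. -/
theorem LocX.of_trace_zero (hT : C.T y = 0) (h : V.abv (C.N y) ^ 2 < V.abv (C.S y) ^ 3) :
    LocX C y V b := by
  refine LocX.of_big_S ?_ h
  rw [hT, map_zero, mul_zero]
  have h1 : V.abv (C.S y) ≠ 0 := by
    intro h0
    rw [h0] at h
    norm_num at h
    exact absurd h (not_lt.mpr (by positivity))
  positivity

/-- The exact condition implies the approximate one. -/
theorem LocX.locDF (hb : b ≠ 0) (h : LocX C y V b) : LocDF C y V b := by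
  obtain ⟨c₀, c₁, c₂, hc⟩ := h
  set ι := algebraMap K V.comp with hι
  set t := ι (C.T y) with ht
  set s := ι (C.S y) with hs
  set n := ι (C.N y) with hn
  let F : (V.comp × V.comp × V.comp) → V.comp := fun c => RR c.1 c.2.1 c.2.2 t s n
  have hF : Continuous F := by
    simp only [F, RR]
    fun_prop
  have hb0 : 0 < ‖ι b‖ := by
    rw [norm_alg]
    exact V.abv.pos hb
  have h2 : ∀ᶠ c in nhds ((c₀, c₁, c₂) : V.comp × V.comp × V.comp), ‖F c - ι b‖ < ‖ι b‖ := by
    have h3 : Continuous fun c => ‖F c - ι b‖ := (hF.sub continuous_const).norm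
    have h4 := h3.tendsto (c₀, c₁, c₂)
    have h5 : F (c₀, c₁, c₂) = ι b := hc
    rw [h5, sub_self, norm_zero] at h4
    exact h4.eventually (Iio_mem_nhds hb0)
  rw [Metric.eventually_nhds_iff] at h2
  obtain ⟨ε, hε, h3⟩ := h2
  obtain ⟨d₀, h4⟩ := dense_alg V c₀ hε
  obtain ⟨d₁, h5⟩ := dense_alg V c₁ hε
  obtain ⟨d₂, h6⟩ := dense_alg V c₂ hε
  refine LocDF.of_RR (c₀ := d₀) (c₁ := d₁) (c₂ := d₂) ?_
  have h7 := h3 (y := (ι d₀, ι d₁, ι d₂)) (by
    rw [Prod.dist_eq, Prod.dist_eq, max_lt_iff, max_lt_iff, dist_comm, dist_eq_norm, dist_comm,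
      dist_eq_norm, dist_comm (ι d₂), dist_eq_norm]
    exact ⟨h4, h5, h6⟩)
  have h8 : F (ι d₀, ι d₁, ι d₂) = ι (RR d₀ d₁ d₂ (C.T y) (C.S y) (C.N y)) :=
    (map_RR ι _ _ _ _ _ _).symm
  rw [h8, ← map_sub, norm_alg, norm_alg] at h7
  exact h7

end defs

section gff

variable {K D : Type} [Field K] [GFF K] [Ring D] [Algebra K D] {C : Cub K D} {y : D}
  {V : Place K} {b : K}

/-- In characteristic different from three the two conditions are equivalent. -/
theorem LocDF.locX (h3 : (3 : K) ≠ 0) (h : LocDF C y V b) : LocX C y V b := by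
  obtain ⟨c₀, c₁, c₂, hc⟩ := h.exists_RR
  set r := RR c₀ c₁ c₂ (C.T y) (C.S y) (C.N y) with hr
  have hr0 : r ≠ 0 := by
    intro h0
    rw [h0, div_zero, zero_sub, V.abv.map_neg, map_one] at hc
    exact lt_irrefl _ hc
  have h1 : LocX C y V (b / r) := by
    -- a one-unit is a cube
    obtain ⟨z, -, hz⟩ := exists_root_zero (L := V.comp) (a₀ := 1 - algebraMap K V.comp (b / r))
      (a₁ := 3) (a₂ := 3) (a₃ := 1) (by
        rw [norm_sub_rev, ← map_one (algebraMap K V.comp), ← map_sub, norm_alg]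
        exact hc) (by
        rw [← map_ofNat (algebraMap K V.comp) 3, norm_alg, abv_three h3]) (by
        rw [← map_ofNat (algebraMap K V.comp) 3, norm_alg, abv_three h3]) norm_one.le
    have e : algebraMap K V.comp (b / r) = (1 + z) ^ 3 := by linear_combination -hz
    rw [LocX, e]
    exact NX.cube _ _ _ _
  have h2 := h1.mul (LocX.of_RR (C := C) (y := y) (V := V) c₀ c₁ c₂)
  rwa [← hr, div_mul_cancel₀ _ hr0] at h2

/-- The value of three. -/
theorem three_cases : (3 : K) = 0 ∨ ∀ V : Place K, V.abv (3 : K) = 1 := by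
  by_cases h3 : (3 : K) = 0
  · exact Or.inl h3
  · exact Or.inr fun V => abv_three h3 V

/-- **Criterion (a)**: the reduced polynomial is not a cube, `b` is a unit. -/
theorem LocX.of_not_cube (hT : V.abv (C.T y) ≤ 1) (hS : V.abv (C.S y) ≤ 1)
    (hN : V.abv (C.N y) ≤ 1) (hb : V.abv b = 1)
    (hnc : ¬ ∃ c : K, V.abv c ≤ 1 ∧ V.abv (C.T y - 3 * c) < 1 ∧ V.abv (C.S y - 3 * c ^ 2) < 1 ∧
      V.abv (C.N y - c ^ 3) < 1) : LocX C y V b := by
  have h := LocDF.of_not_cube hT hS hN hb hnc
  rcases three_cases (K := K) with h30 | h30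
  swap
  · refine h.locX ?_
    intro h0
    have h1 := h30 V
    rw [h0, map_zero] at h1
    exact zero_ne_one h1
  obtain ⟨c₀, c₁, c₂, hc⟩ := exists_RR_near V hT hS hN hb hnc
  set r := RR c₀ c₁ c₂ (C.T y) (C.S y) (C.N y) with hr
  have hr1 : V.abv r = 1 := by
    rw [← hb]
    refine abv_eq_of_close ?_
    rw [hb]
    exact hc
  have hr0 : r ≠ 0 := by
    intro h0
    rw [h0, map_zero] at hr1
    exact zero_ne_one hr1
  -- the trace or the second coefficient is a unit
  have h2 : V.abv (C.T y) = 1 ∨ V.abv (C.S y) = 1 := by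
    by_contra hcon
    push Not at hcon
    obtain ⟨h3, h4⟩ := hcon
    have h3 : V.abv (C.T y) < 1 := lt_of_le_of_ne hT h3
    have h4 : V.abv (C.S y) < 1 := lt_of_le_of_ne hS h4
    apply hnc
    -- a cube root modulo the maximal ideal
    have hmax := mv_isMaximal V
    let _ : Field (Ov V ⧸ mv V) := Ideal.Quotient.field (mv V)
    have hfin : Finite (Ov V ⧸ mv V) := V.normalized.1
    let π : Ov V →+* Ov V ⧸ mv V := Ideal.Quotient.mk (mv V)
    have hπ : Function.Surjective π := Ideal.Quotient.mk_surjective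
    have hπe : ∀ x y : Ov V, π x = π y ↔ V.abv ((x : K) - y) < 1 := fun x y =>
      Ideal.Quotient.mk_eq_mk_iff_sub_mem x y
    have h30' : (3 : Ov V ⧸ mv V) = 0 := by
      have e1 : (3 : Ov V) = 0 := by
        apply Subtype.ext
        exact (map_ofNat (Ov V).subtype 3).trans h30
      rw [← map_ofNat π 3, e1, map_zero]
    have hinj : Function.Injective fun x : Ov V ⧸ mv V => x ^ 3 := by
      intro x z hxz
      have e1 : x ^ 3 = z ^ 3 := hxz
      have e2 : (x - z) ^ 3 = 0 := by
        linear_combination e1 - (x ^ 2 * z - x * z ^ 2) * h30'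
      exact sub_eq_zero.mp ((pow_eq_zero_iff three_ne_zero).mp e2)
    obtain ⟨c, hc'⟩ := (Finite.injective_iff_surjective.mp hinj) (π ⟨C.N y, hN⟩)
    obtain ⟨c, rfl⟩ := hπ c
    refine ⟨c, c.2, ?_, ?_, ?_⟩
    · rwa [h30, zero_mul, sub_zero]
    · rwa [h30, zero_mul, sub_zero]
    · have e1 : π ⟨C.N y, hN⟩ = π (c ^ 3) := by
        rw [map_pow]
        exact hc'.symm
      have e2 := (hπe _ _).mp e1
      rw [Subring.coe_pow] at e2
      exact e2
  have h5 : LocX C y V (b / r) := by
    refine NX.of_one_unit ?_ ?_ ?_ ?_ ?_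
    · rw [norm_alg]; exact hT
    · rw [norm_alg]; exact hS
    · rw [norm_alg]; exact hN
    · rw [← map_one (algebraMap K V.comp), ← map_sub, norm_alg]
      have e1 : b / r - 1 = -((r - b) / r) := by field_simp; ring
      rw [e1, V.abv.map_neg, map_div₀, hr1, div_one]
      exact hc
    · right
      rcases h2 with h2 | h2
      · left
        rw [norm_alg]
        exact h2
      · by_cases h6 : V.abv (C.T y) = 1
        · left
          rw [norm_alg]
          exact h6
        · right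
          have h7 : V.abv (C.T y) < 1 := lt_of_le_of_ne hT h6
          rw [← map_pow, ← map_ofNat (algebraMap K V.comp) 2, ← map_mul, ← map_sub, norm_alg]
          have e1 : C.T y ^ 2 - 2 * C.S y = C.S y + C.T y ^ 2 := by
            linear_combination (-(C.S y)) * h30
          rw [e1]
          have h8 : V.abv (C.T y ^ 2) < 1 := by
            rw [map_pow]
            exact pow_lt_one₀ (V.abv.nonneg _) h7 two_ne_zero
          have h9 : V.abv (C.S y + C.T y ^ 2) = V.abv (C.S y) := by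
            refine abv_eq_of_close ?_
            rw [add_sub_cancel_left, h2]
            exact h8
          rw [h9, h2]
  have h6 := h5.mul (LocX.of_RR (C := C) (y := y) (V := V) c₀ c₁ c₂)
  rwa [← hr, div_mul_cancel₀ _ hr0] at h6

omit [GFF K] in
/-- **Openness.** -/
theorem LocX.open (hy : (3 : K) ≠ 0 ∨ C.T y ≠ 0 ∨ C.S y ≠ 0) (hb : b ≠ 0) (h : LocX C y V b) :
    ∃ ε : ℝ, 0 < ε ∧ ∀ (y' : D) (b' : K),
      V.abv (C.T y' - C.T y) < ε → V.abv (C.S y' - C.S y) < ε → V.abv (C.N y' - C.N y) < ε →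
        V.abv (b' - b) < ε → LocX C y' V b' := by
  obtain ⟨ε, hε, h1⟩ := NX.open (L := V.comp) ((_root_.map_ne_zero _).mpr hb) h (by
    rcases hy with h | h | h
    · left
      rw [← map_ofNat (algebraMap K V.comp) 3]
      exact (_root_.map_ne_zero _).mpr h
    · exact Or.inr (Or.inl ((_root_.map_ne_zero _).mpr h))
    · exact Or.inr (Or.inr ((_root_.map_ne_zero _).mpr h)))
  refine ⟨ε, hε, fun y' b' e1 e2 e3 e4 => h1 _ _ _ _ ?_ ?_ ?_ ?_⟩
  · rw [← map_sub, norm_alg]; exact e1
  · rw [← map_sub, norm_alg]; exact e2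
  · rw [← map_sub, norm_alg]; exact e3
  · rw [← map_sub, norm_alg]; exact e4

end gff

section dv

variable {K D : Type} [Field K] [DivisionRing D] [Algebra K D] {C : Cub K D} {y : D}

/-- The condition `dP C y ≠ 0` on the coefficients. -/
theorem coeff_of_dP (hy : H929.dP C y ≠ 0) : (3 : K) ≠ 0 ∨ C.T y ≠ 0 ∨ C.S y ≠ 0 := by
  by_contra hcon
  push Not at hcon
  obtain ⟨h1, h2, h3⟩ := hcon
  apply hy
  rw [H929.dP, h1, h2, h3, zero_smul, mul_zero, zero_smul, zero_smul, sub_zero, add_zero]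

/-- The element is not central if `dP C y ≠ 0`. -/
theorem notMem_of_dP (hy : H929.dP C y ≠ 0) : y ∉ Set.range (algebraMap K D) := by
  rintro ⟨c, rfl⟩
  apply hy
  have h1 : C.T (algebraMap K D c) = 3 * c := by
    rw [Algebra.algebraMap_eq_smul_one, map_smul, C.T_one, smul_eq_mul, mul_comm]
  have h2 : C.S (algebraMap K D c) = 3 * c ^ 2 := by
    rw [Algebra.algebraMap_eq_smul_one, C.S_smul, S_one, mul_comm]
  rw [H929.dP, h1, h2, Algebra.algebraMap_eq_smul_one, smul_mul_smul_comm, one_mul, smul_smul,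
    smul_smul, ← sub_smul, ← add_smul]
  have e : 3 * (c * c) - 2 * (3 * c) * c + 3 * c ^ 2 = 0 := by ring
  rw [e, zero_smul]

/-- The product of an element of trace zero with itself. -/
theorem sq_ne' {a : D} (ha : a ∉ Set.range (algebraMap K D)) (hT : C.T a = 0)
    {α β : K} : a * a ≠ α • (1 : D) + β • a := by
  intro h
  have h1 := C.cayley a
  have h2 : (β ^ 2 + α + C.S a) • a + (α * β - C.N a) • (1 : D) = 0 := by
    rw [← h1, h, hT, zero_smul, sub_zero, add_mul, smul_mul_assoc, smul_mul_assoc, one_mul, h]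
    module
  have h3 : β ^ 2 + α + C.S a = 0 := by
    by_contra h0
    apply ha
    refine ⟨-((β ^ 2 + α + C.S a)⁻¹ * (α * β - C.N a)), ?_⟩
    have h4 : (β ^ 2 + α + C.S a) • a = -((α * β - C.N a) • (1 : D)) :=
      eq_neg_of_add_eq_zero_left h2
    have h5 : a = (β ^ 2 + α + C.S a)⁻¹ • -((α * β - C.N a) • (1 : D)) := by
      rw [← h4, smul_smul, inv_mul_cancel₀ h0, one_smul]
    conv_rhs => rw [h5]
    rw [Algebra.algebraMap_eq_smul_one, smul_neg, smul_smul, neg_smul]
  have h4 : α * β - C.N a = 0 := by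
    rw [h3, zero_smul, zero_add] at h2
    exact (smul_eq_zero.mp h2).resolve_right one_ne_zero
  apply ha
  refine mem_range_of_root C (r := -β) ?_
  rw [hT]
  linear_combination (-β) * h3 + h4

/-- The converse. -/
theorem dP_ne_of (hy : y ∉ Set.range (algebraMap K D)) (h : (3 : K) ≠ 0 ∨ C.T y ≠ 0 ∨ C.S y ≠ 0) :
    H929.dP C y ≠ 0 := by
  intro h0
  rw [H929.dP] at h0
  by_cases h3 : (3 : K) = 0
  · -- `T y • y + S y = 0`
    have h2 : -(2 * C.T y) = C.T y := by linear_combination (-(C.T y)) * h3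
    rw [h3, zero_smul, zero_sub, ← neg_smul, h2] at h0
    by_cases hT : C.T y = 0
    · rw [hT, zero_smul, zero_add] at h0
      have hS : C.S y = 0 := (smul_eq_zero.mp h0).resolve_right one_ne_zero
      rcases h with h | h | h
      · exact h h3
      · exact h hT
      · exact h hS
    · apply hy
      refine ⟨-((C.T y)⁻¹ * C.S y), ?_⟩
      have h4 : C.T y • y = -(C.S y • (1 : D)) := eq_neg_of_add_eq_zero_left h0
      have h5 : y = (C.T y)⁻¹ • -(C.S y • (1 : D)) := by
        rw [← h4, smul_smul, inv_mul_cancel₀ hT, one_smul]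
      conv_rhs => rw [h5]
      rw [Algebra.algebraMap_eq_smul_one, smul_neg, smul_smul, neg_smul]
  · -- a quadratic equation
    have h4 : y * y = (-(3⁻¹ * C.S y)) • (1 : D) + (3⁻¹ * (2 * C.T y)) • y := by
      have h5 : (3 : K) • (y * y) = (2 * C.T y) • y - C.S y • (1 : D) := by
        rw [← sub_eq_zero, ← h0]
        abel
      have h6 : y * y = (3 : K)⁻¹ • ((2 * C.T y) • y - C.S y • (1 : D)) := by
        rw [← h5, smul_smul, inv_mul_cancel₀ h3, one_smul]
      rw [h6, smul_sub, smul_smul, smul_smul, neg_smul]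
      abel
    set z := y - (3⁻¹ * C.T y) • (1 : D) with hz
    have hzy : y = z + (3⁻¹ * C.T y) • (1 : D) := by rw [hz]; abel
    have hzK : z ∉ Set.range (algebraMap K D) := by
      rintro ⟨c, hc⟩
      apply hy
      refine ⟨c + 3⁻¹ * C.T y, ?_⟩
      rw [map_add, hc, Algebra.algebraMap_eq_smul_one]
      exact hzy.symm
    have hzT : C.T z = 0 := by
      rw [hz, map_sub, map_smul, C.T_one, smul_eq_mul]
      field_simp
      ring
    refine sq_ne' hzK hzT (α := 3⁻¹ ^ 2 * C.T y ^ 2 - 3⁻¹ * C.S y) (β := 0) ?_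
    rw [zero_smul, add_zero]
    rw [hz]
    simp only [sub_mul, mul_sub, smul_mul_assoc, mul_smul_comm, one_mul, mul_one]
    rw [h4]
    module

end dv

end Vale.Agent.P011.H738
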