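import Vale.Agent.P011.H738.LocStr
import Mathlib.Algebra.Central.Defs

/-!
The centralizer of a multiplicative generator of the residue field is commutative; the coordinates
with respect to the crossed product structure.
-/

open Module Topology

set_option linter.unusedSectionVars false

namespace Vale.Agent.P011.H738

section

variable {D : Type*} [NormedDivisionRing D] {p N : ℕ} {ω : D}

/-- The crossed product structure. -/
structure Str (p N : ℕ) (ω : D) (f q : ℕ) (g : D) : Prop where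
  f_pos : 0 < f
  g_ne : g ≠ 0
  rel : ω * g = g * ω ^ q
  card : p ^ N = q ^ f
  one_lt : 1 < q
  dist : ∀ a b, a < f → b < f → q ^ a ≡ q ^ b [MOD (p ^ N - 1)] → a = b
  sum : ∀ x : D, ∑ a ∈ Finset.range f, cmp p N ω (q ^ a) x = x

theorem Teich.exists_str [IsUltrametricDist D] (T : Teich D p N ω) :
    ∃ (f q : ℕ) (g : D), Str p N ω f q g := by
  obtain ⟨f, q, g, h1, h2, h3, h4, h5, h6, h7⟩ := T.exists_struct
  exact ⟨f, q, g, h1, h2, h3, h4, h5, h6, h7⟩

namespace Str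

variable [IsUltrametricDist D] {f q : ℕ} {g : D} (S : Str p N ω f q g) (T : Teich D p N ω)

include S T

theorem gpow (a : ℕ) : ω * g ^ a = g ^ a * ω ^ q ^ a := by
  induction a with
  | zero => simp
  | succ a ih =>
    have h1 := T.rel_pow (a := 1) (b := q) (x := g) (by rw [pow_one]; exact S.rel) (q ^ a)
    rw [one_mul] at h1
    rw [pow_succ, ← mul_assoc, ih, mul_assoc, h1, ← mul_assoc, ← pow_succ, ← pow_succ']

theorem commute_of_pow {a : ℕ} {x : D} (h : Commute (ω ^ q ^ a) x) : Commute ω x := by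
  have h1 : (ω ^ q ^ a) ^ q ^ (f * a - a) = ω := by
    have h2 : q ^ a * q ^ (f * a - a) = (p ^ N) ^ a := by
      rw [← pow_add, Nat.add_sub_cancel' (Nat.le_mul_of_pos_left _ S.f_pos), S.card, ← pow_mul]
    rw [← pow_mul, h2, T.pow_pN]
  rw [← h1]
  exact h.pow_left _

theorem conj_mem {z : D} (hz : Commute ω z) : Commute ω (g * z * g⁻¹) := by
  have h1 : Commute (ω ^ q) z := hz.pow_left _
  change ω * (g * z * g⁻¹) = g * z * g⁻¹ * ω
  have h2 : g⁻¹ * ω = ω ^ q * g⁻¹ := by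
    have h3 : g * (g⁻¹ * ω) * g = g * (ω ^ q * g⁻¹) * g := by
      rw [← mul_assoc, mul_inv_cancel₀ S.g_ne, one_mul, S.rel, mul_assoc g, mul_assoc (ω ^ q),
        inv_mul_cancel₀ S.g_ne, mul_one]
    exact mul_left_cancel₀ S.g_ne (mul_right_cancel₀ S.g_ne h3)
  calc ω * (g * z * g⁻¹) = (ω * g) * z * g⁻¹ := by simp only [mul_assoc]
    _ = g * (ω ^ q * z) * g⁻¹ := by rw [S.rel]; simp only [mul_assoc]
    _ = g * z * (ω ^ q * g⁻¹) := by rw [h1.eq]; simp only [mul_assoc]
    _ = g * z * g⁻¹ * ω := by rw [← h2]; simp only [mul_assoc]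

theorem conj_mem' {z : D} (hz : Commute ω z) (a : ℕ) : Commute ω ((g ^ a)⁻¹ * z * g ^ a) := by
  refine S.commute_of_pow T (a := a) ?_
  have h0 : g ^ a ≠ 0 := pow_ne_zero _ S.g_ne
  have h1 : ω ^ q ^ a = (g ^ a)⁻¹ * ω * g ^ a := by
    rw [mul_assoc, S.gpow T, ← mul_assoc, inv_mul_cancel₀ h0, one_mul]
  rw [h1]
  change (g ^ a)⁻¹ * ω * g ^ a * ((g ^ a)⁻¹ * z * g ^ a) =
    (g ^ a)⁻¹ * z * g ^ a * ((g ^ a)⁻¹ * ω * g ^ a)
  have h2 : ∀ x y : D, (g ^ a)⁻¹ * x * g ^ a * ((g ^ a)⁻¹ * y * g ^ a) =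
      (g ^ a)⁻¹ * (x * y) * g ^ a := by
    intro x y
    rw [mul_assoc ((g ^ a)⁻¹ * x) (g ^ a), ← mul_assoc (g ^ a) ((g ^ a)⁻¹ * y),
      ← mul_assoc (g ^ a) (g ^ a)⁻¹ y, mul_inv_cancel₀ h0, one_mul]
    simp only [mul_assoc]
  rw [h2, h2, hz.eq]

theorem g_pow_f : Commute ω (g ^ f) := by
  have h1 := S.gpow T f
  rw [← S.card] at h1
  have h2 := T.pow_pN 1
  rw [pow_one] at h2
  rw [h2] at h1
  exact h1

/-- The coordinates. -/
theorem commute_cmp (a : ℕ) (x : D) : Commute ω ((g ^ a)⁻¹ * cmp p N ω (q ^ a) x) := by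
  refine S.commute_of_pow T (a := a) ?_
  have h0 : g ^ a ≠ 0 := pow_ne_zero _ S.g_ne
  have h1 := T.cmp_mem (q ^ a) x
  set y := cmp p N ω (q ^ a) x
  change ω ^ q ^ a * ((g ^ a)⁻¹ * y) = (g ^ a)⁻¹ * y * ω ^ q ^ a
  have h2 : ω ^ q ^ a * (g ^ a)⁻¹ = (g ^ a)⁻¹ * ω := by
    have h3 : g ^ a * (ω ^ q ^ a * (g ^ a)⁻¹) * g ^ a = g ^ a * ((g ^ a)⁻¹ * ω) * g ^ a := by
      rw [← mul_assoc (g ^ a) ((g ^ a)⁻¹) ω, mul_inv_cancel₀ h0, one_mul, S.gpow T,
        mul_assoc (g ^ a), mul_assoc (ω ^ q ^ a), inv_mul_cancel₀ h0, mul_one]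
    exact mul_left_cancel₀ h0 (mul_right_cancel₀ h0 h3)
  rw [← mul_assoc, h2, mul_assoc, h1, mul_assoc]

theorem sum_coord (x : D) :
    ∑ a ∈ Finset.range f, g ^ a * ((g ^ a)⁻¹ * cmp p N ω (q ^ a) x) = x := by
  conv_rhs => rw [← S.sum x]
  refine Finset.sum_congr rfl fun a _ => ?_
  rw [← mul_assoc, mul_inv_cancel₀ (pow_ne_zero _ S.g_ne), one_mul]

theorem mem_comp {a : ℕ} {z : D} (hz : Commute ω z) : ω * (g ^ a * z) = g ^ a * z * ω ^ q ^ a := by
  have h1 : Commute (ω ^ q ^ a) z := hz.pow_left _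
  rw [← mul_assoc, S.gpow T, mul_assoc, h1.eq, mul_assoc]

/-- Uniqueness of the coordinates. -/
theorem coord_sum {z : ℕ → D} (hz : ∀ a < f, Commute ω (z a)) {b : ℕ} (hb : b < f) :
    (g ^ b)⁻¹ * cmp p N ω (q ^ b) (∑ a ∈ Finset.range f, g ^ a * z a) = z b := by
  rw [cmp_sum]
  have h1 : ∀ a ∈ Finset.range f, cmp p N ω (q ^ b) (g ^ a * z a) =
      if a = b then g ^ b * z b else 0 := by
    intro a ha
    rw [Finset.mem_range] at ha
    rw [T.cmp_of_mem _ (S.mem_comp T (hz a ha))]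
    by_cases hab : a = b
    · subst hab
      rw [if_pos (Nat.ModEq.refl _), if_pos rfl]
    · rw [if_neg hab, if_neg fun h => hab (S.dist a b ha hb h)]
  rw [Finset.sum_congr rfl h1, Finset.sum_ite_eq', if_pos (Finset.mem_range.mpr hb), ← mul_assoc,
    inv_mul_cancel₀ (pow_ne_zero _ S.g_ne), one_mul]

end Str

end

section comm

variable {F D : Type*} [NontriviallyNormedField F] [ProperSpace F] [NormedDivisionRing D]
  [IsUltrametricDist D] [ProperSpace D] [NormedAlgebra F D] [FiniteDimensional F D] {p N : ℕ}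
  {ω : D}

/-- **The centralizer of `ω` is commutative.** -/
theorem Teich.comm (F : Type*) {D : Type*} [NontriviallyNormedField F] [ProperSpace F]
    [NormedDivisionRing D] [IsUltrametricDist D] [ProperSpace D] [NormedAlgebra F D]
    [FiniteDimensional F D] {p N : ℕ} {ω : D} (T : Teich D p N ω) {z w : D} (hz : Commute ω z)
    (hw : Commute ω w) : Commute z w := by
  -- an element of norm less than one of the ground field
  obtain ⟨c0, hc0⟩ := NormedField.exists_one_lt_norm F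
  have hc0' : c0 ≠ 0 := norm_pos_iff.mp (one_pos.trans hc0)
  set c : D := algebraMap F D c0⁻¹ with hc
  have hc1 : ‖c‖ < 1 := by
    rw [hc, norm_algebraMap', norm_inv]
    exact inv_lt_one_of_one_lt₀ hc0
  have hcz : c ≠ 0 := by
    rw [hc]
    exact (map_ne_zero_iff _ (algebraMap F D).injective).mpr (inv_ne_zero hc0')
  have hcc : ∀ x : D, Commute c x := fun x => Algebra.commutes _ x
  -- a uniformizer of the centralizer
  obtain ⟨π, hπ, hmax⟩ : ∃ π ∈ {z : D | Commute ω z ∧ ‖z‖ < 1},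
      ∀ z ∈ {z : D | Commute ω z ∧ ‖z‖ < 1}, ‖z‖ ≤ ‖π‖ := by
    have h1 : IsCompact {z : D | Commute ω z ∧ ‖z‖ < 1} := by
      refine (isCompact_closedBall (0 : D) 1).of_isClosed_subset ?_ ?_
      · have h2 : {z : D | Commute ω z ∧ ‖z‖ < 1} =
            {z : D | ω * z = z * ω} ∩ Metric.ball (0 : D) 1 := by
          ext z
          rw [Set.mem_inter_iff, mem_ball_zero_iff]
          rfl
        rw [h2]
        exact (isClosed_eq (by fun_prop) (by fun_prop)).inter (IsUltrametricDist.isClosed_ball 0 1)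
      · intro z hz
        rw [mem_closedBall_zero_iff]
        exact hz.2.le
    obtain ⟨x, hx, hmax⟩ := h1.exists_isMaxOn ⟨c, (hcc ω).symm, hc1⟩ continuous_norm.continuousOn
    exact ⟨x, hx, fun z hz => hmax hz⟩
  obtain ⟨hπc, hπ1⟩ := hπ
  have hπ0 : π ≠ 0 := by
    rw [← norm_pos_iff]
    exact (norm_pos_iff.mpr hcz).trans_le (hmax c ⟨(hcc ω).symm, hc1⟩)
  have hπpos : 0 < ‖π‖ := norm_pos_iff.mpr hπ0
  -- the algebra generated by `ω` and the uniformizer
  let B : Subalgebra F D := Algebra.adjoin F {ω, π}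
  have hωB : ω ∈ B := Algebra.subset_adjoin (Set.mem_insert _ _)
  have hπB : π ∈ B := Algebra.subset_adjoin (Set.mem_insert_of_mem _ rfl)
  have hBω : ∀ b ∈ B, Commute ω b := by
    intro b hb
    refine (Algebra.commute_of_mem_adjoin_of_forall_mem_commute hb ?_)
    rintro x (rfl | rfl)
    · exact Commute.refl _
    · exact hπc
  have hBc : ∀ b ∈ B, ∀ b' ∈ B, Commute b b' := by
    intro b hb b' hb'
    refine (Algebra.commute_of_mem_adjoin_of_forall_mem_commute hb' ?_)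
    rintro x (rfl | rfl)
    · exact (hBω b hb).symm
    · refine (Algebra.commute_of_mem_adjoin_of_forall_mem_commute hb ?_).symm
      rintro y (rfl | rfl)
      · exact hπc.symm
      · exact Commute.refl _
  have hclosed : IsClosed (B : Set D) :=
    Submodule.closed_of_finiteDimensional (Subalgebra.toSubmodule B)
  -- elements of norm at most one
  have hstep : ∀ z : D, Commute ω z → ‖z‖ ≤ 1 → ∀ k : ℕ, ∃ b ∈ B, ‖z - b‖ ≤ ‖π‖ ^ k := by
    intro z hz hz1 k
    induction k with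
    | zero => exact ⟨0, B.zero_mem, by rw [sub_zero, pow_zero]; exact hz1⟩
    | succ k ih =>
      obtain ⟨b, hb, hbz⟩ := ih
      set e := (z - b) * (π ^ k)⁻¹ with he
      have hpk : π ^ k ≠ 0 := pow_ne_zero _ hπ0
      have hez : z - b = e * π ^ k := by rw [he, inv_mul_cancel_right₀ hpk]
      have hec : Commute ω e :=
        (hz.sub_right (hBω b hb)).mul_right (hπc.pow_right k).inv_right₀
      have he1 : ‖e‖ ≤ 1 := by
        rw [he, norm_mul, norm_inv, norm_pow, ← div_eq_mul_inv, div_le_one (by positivity)]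
        exact hbz
      rcases he1.lt_or_eq with hlt | heq
      · refine ⟨b, hb, ?_⟩
        rw [hez, norm_mul, norm_pow, pow_succ']
        exact mul_le_mul_of_nonneg_right (hmax e ⟨hec, hlt⟩) (by positivity)
      · obtain ⟨m, hm⟩ := T.surj e heq
        refine ⟨b + ω ^ m * π ^ k, B.add_mem hb (B.mul_mem (B.pow_mem hωB _) (B.pow_mem hπB _)), ?_⟩
        have h1 : z - (b + ω ^ m * π ^ k) = (e - ω ^ m) * π ^ k := by
          rw [sub_mul, ← hez]
          abel
        rw [h1, norm_mul, norm_pow, pow_succ']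
        refine mul_le_mul_of_nonneg_right (hmax _ ⟨?_, hm⟩) (by positivity)
        exact hec.sub_right ((Commute.refl ω).pow_right m)
  have hmemB1 : ∀ z : D, Commute ω z → ‖z‖ ≤ 1 → z ∈ B := by
    intro z hz hz1
    have h1 : z ∈ closure (B : Set D) := by
      rw [Metric.mem_closure_iff]
      intro ε hε
      obtain ⟨k, hk⟩ := exists_pow_lt_of_lt_one hε hπ1
      obtain ⟨b, hb, hbz⟩ := hstep z hz hz1 k
      exact ⟨b, hb, by rw [dist_eq_norm]; exact hbz.trans_lt hk⟩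
    rwa [hclosed.closure_eq] at h1
  have hmemB : ∀ z : D, Commute ω z → z ∈ B := by
    intro z hz
    obtain ⟨k, hk⟩ : ∃ k : ℕ, ‖c‖ ^ k * ‖z‖ ≤ 1 := by
      obtain ⟨k, hk⟩ := exists_pow_lt_of_lt_one (show (0 : ℝ) < 1 / (‖z‖ + 1) by positivity) hc1
      refine ⟨k, ?_⟩
      have h1 : ‖c‖ ^ k * ‖z‖ ≤ 1 / (‖z‖ + 1) * ‖z‖ :=
        mul_le_mul_of_nonneg_right hk.le (norm_nonneg _)
      refine h1.trans ?_
      rw [one_div, inv_mul_le_iff₀ (by positivity)]
      linarith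
    have h1 : c ^ k * z ∈ B := hmemB1 _ ((((hcc ω).symm).pow_right k).mul_right hz) (by
      rw [norm_mul, norm_pow]; exact hk)
    have h2 : z = (c0 ^ k) • (c ^ k * z) := by
      rw [hc, ← map_pow, ← Algebra.smul_def, smul_smul, inv_pow, mul_inv_cancel₀
        (pow_ne_zero _ hc0'), one_smul]
    rw [h2]
    exact B.smul_mem h1 _
  exact hBc z (hmemB z hz) w (hmemB w hw)

end comm

end Vale.Agent.P011.H738
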