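import Vale.Agent.P011.H738.LocNorm
import Mathlib.RingTheory.Congruence.Basic
import Mathlib.RingTheory.LittleWedderburn
import Mathlib.GroupTheory.Solvable
import Mathlib.Topology.MetricSpace.Ultra.Basic

/-!
The group of units of a locally compact ultrametric division ring is prosolvable: deep terms of the
derived series of a group which acts on it are close to one.
-/

open Module Topology commutatorElement

namespace Vale.Agent.P011.H738

section ring

variable {D : Type*} [NormedDivisionRing D] [IsUltrametricDist D] [ProperSpace D]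

/-- The norms less than one are bounded away from one. -/
theorem exists_rho (D : Type*) [NormedDivisionRing D] [IsUltrametricDist D] [ProperSpace D] :
    ∃ ρ : ℝ, 0 ≤ ρ ∧ ρ < 1 ∧ ∀ x : D, ‖x‖ < 1 → ‖x‖ ≤ ρ := by
  have h1 : IsCompact (Metric.ball (0 : D) 1) := by
    refine (isCompact_closedBall (0 : D) 1).of_isClosed_subset ?_ Metric.ball_subset_closedBall
    exact IsUltrametricDist.isClosed_ball 0 1
  obtain ⟨x, hx, hmax⟩ := h1.exists_isMaxOn ⟨0, Metric.mem_ball_self one_pos⟩
    continuous_norm.continuousOn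
  refine ⟨‖x‖, norm_nonneg _, mem_ball_zero_iff.mp hx, fun y hy => ?_⟩
  exact hmax (mem_ball_zero_iff.mpr hy)

/-- The ring of the elements of norm at most one. -/
def ballRing (D : Type*) [NormedDivisionRing D] [IsUltrametricDist D] : Subring D where
  carrier := {x | ‖x‖ ≤ 1}
  mul_mem' := by
    intro x y hx hy
    rw [Set.mem_ofPred_eq, norm_mul]
    exact mul_le_one₀ hx (norm_nonneg _) hy
  one_mem' := norm_one.le
  add_mem' := by
    intro x y hx hy
    exact (IsUltrametricDist.norm_add_le_max x y).trans (max_le hx hy)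
  zero_mem' := by rw [Set.mem_ofPred_eq, norm_zero]; exact zero_le_one
  neg_mem' := by
    intro x hx
    rw [Set.mem_ofPred_eq, norm_neg]
    exact hx

/-- Congruence modulo the elements of norm less than one. -/
def ballCon (D : Type*) [NormedDivisionRing D] [IsUltrametricDist D] : RingCon (ballRing D) where
  r x y := ‖(x : D) - y‖ < 1
  iseqv := by
    refine ⟨fun x => ?_, fun {x y} h => ?_, fun {x y z} h h' => ?_⟩
    · rw [sub_self, norm_zero]; exact one_pos
    · rwa [norm_sub_rev]
    · have h1 : (x : D) - z = (x - y) + (y - z) := by abel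
      rw [h1]
      exact (IsUltrametricDist.norm_add_le_max _ _).trans_lt (max_lt h h')
  add' := by
    intro a b c d h h'
    have h1 : ((a + c : ballRing D) : D) - ((b + d : ballRing D) : D) = (a - b) + (c - d) := by
      push_cast
      abel
    rw [h1]
    exact (IsUltrametricDist.norm_add_le_max _ _).trans_lt (max_lt h h')
  mul' := by
    intro a b c d h h'
    have h1 : ((a * c : ballRing D) : D) - ((b * d : ballRing D) : D) =
        (a - b) * c + b * (c - d) := by
      push_cast
      rw [sub_mul, mul_sub]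
      abel
    rw [h1]
    refine (IsUltrametricDist.norm_add_le_max _ _).trans_lt (max_lt ?_ ?_)
    · rw [norm_mul]
      exact mul_lt_one_of_nonneg_of_lt_one_left (norm_nonneg _) h c.2
    · rw [norm_mul]
      exact mul_lt_one_of_nonneg_of_lt_one_right b.2 (norm_nonneg _) h'

omit [ProperSpace D] in
theorem ballCon_iff (x y : ballRing D) : ballCon D x y ↔ ‖(x : D) - y‖ < 1 := Iff.rfl

theorem finite_quot : Finite (ballCon D).Quotient := by
  have h1 : CompactSpace (ballRing D) := by
    have h0 : ((ballRing D : Subring D) : Set D) = Metric.closedBall 0 1 := by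
      ext x
      rw [mem_closedBall_zero_iff]
      rfl
    have h1 : IsCompact ((ballRing D : Subring D) : Set D) := by
      rw [h0]
      exact isCompact_closedBall 0 1
    exact isCompact_iff_compactSpace.mp h1
  have h2 : ∀ x : ballRing D, IsOpen {y : ballRing D | ‖(x : D) - y‖ < 1} := by
    intro x
    exact isOpen_lt (by fun_prop) continuous_const
  obtain ⟨t, ht⟩ := isCompact_univ.elim_finite_subcover
    (fun x : ballRing D => {y : ballRing D | ‖(x : D) - y‖ < 1}) h2 (fun x _ => by
      rw [Set.mem_iUnion]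
      exact ⟨x, by rw [Set.mem_ofPred_eq, sub_self, norm_zero]; exact one_pos⟩)
  have h3 : Function.Surjective fun x : t => ((x : ballRing D) : (ballCon D).Quotient) := by
    intro q
    obtain ⟨y, rfl⟩ := Quotient.exists_rep q
    have hy := ht (Set.mem_univ y)
    rw [Set.mem_iUnion₂] at hy
    obtain ⟨x, hx, hxy⟩ := hy
    refine ⟨⟨x, hx⟩, ?_⟩
    exact (RingCon.eq (ballCon D)).mpr hxy
  exact Finite.of_surjective _ h3

theorem norm_comm_lt {x y : D} (hx : ‖x‖ ≤ 1) (hy : ‖y‖ ≤ 1) : ‖x * y - y * x‖ < 1 := by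
  have h1 := finite_quot (D := D)
  have hnt : Nontrivial (ballCon D).Quotient := by
    refine ⟨((0 : ballRing D) : (ballCon D).Quotient), ((1 : ballRing D) : (ballCon D).Quotient),
      fun h => ?_⟩
    have h2 := (RingCon.eq (ballCon D)).mp h
    rw [ballCon_iff] at h2
    simp at h2
  have hnz : NoZeroDivisors (ballCon D).Quotient := by
    refine ⟨fun {a b} => ?_⟩
    refine Quotient.inductionOn₂ a b fun a b h => ?_
    have h2 : ballCon D (a * b) 0 := (RingCon.eq (ballCon D)).mp h
    rw [ballCon_iff] at h2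
    simp only [Subring.coe_mul, ZeroMemClass.coe_zero, sub_zero, norm_mul] at h2
    by_contra hcon
    push Not at hcon
    have h3 : ¬ ballCon D a 0 := fun h => hcon.1 ((RingCon.eq (ballCon D)).mpr h)
    have h4 : ¬ ballCon D b 0 := fun h => hcon.2 ((RingCon.eq (ballCon D)).mpr h)
    rw [ballCon_iff, ZeroMemClass.coe_zero, sub_zero, not_lt] at h3 h4
    exact absurd h2 (not_lt.mpr (one_le_mul_of_one_le_of_one_le h3 h4))
  have hdom : IsDomain (ballCon D).Quotient := NoZeroDivisors.to_isDomain _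
  have hf := Finite.isDomain_to_isField (ballCon D).Quotient
  have h5 := hf.mul_comm (((⟨x, hx⟩ : ballRing D)) : (ballCon D).Quotient)
    (((⟨y, hy⟩ : ballRing D)) : (ballCon D).Quotient)
  exact (RingCon.eq (ballCon D)).mp h5

end ring

section group

variable {D : Type*} [NormedDivisionRing D] {Γ : Type*} [Group Γ]

theorem norm_comm (a b : Dˣ) (ha : ‖(a : D)‖ = 1) (hb : ‖(b : D)‖ = 1) :
    ‖((⁅a, b⁆ : Dˣ) : D) - 1‖ = ‖(a : D) * b - b * a‖ := by
  have h1 : ((⁅a, b⁆ : Dˣ) : D) - 1 = ((a : D) * b - b * a) * ((a⁻¹ : Dˣ) * (b⁻¹ : Dˣ)) := by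
    rw [commutatorElement_def, sub_mul]
    push_cast
    rw [mul_assoc (b : D) a, ← mul_assoc (a : D) ((a : D)⁻¹),
      mul_inv_cancel₀ a.ne_zero, one_mul, mul_inv_cancel₀ b.ne_zero, mul_assoc ((a : D) * b)]
  rw [h1, norm_mul, norm_mul]
  push_cast
  rw [norm_inv, norm_inv, ha, hb, inv_one, mul_one, mul_one]

variable [IsUltrametricDist D]

/-- The elements which act as elements of norm one at distance at most `r` from one. -/
def nearSub (u : Γ →* Dˣ) (r : ℝ) (hr : 0 ≤ r) : Subgroup Γ where
  carrier := {g | ‖(u g : D)‖ = 1 ∧ ‖(u g : D) - 1‖ ≤ r}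
  mul_mem' := by
    rintro a b ⟨h1, h2⟩ ⟨h3, h4⟩
    refine ⟨by rw [map_mul, Units.val_mul, norm_mul, h1, h3, one_mul], ?_⟩
    have h5 : ((u (a * b) : Dˣ) : D) - 1 = ((u a : D) - 1) * u b + ((u b : D) - 1) := by
      rw [map_mul, Units.val_mul, sub_mul, one_mul]
      abel
    rw [h5]
    refine (IsUltrametricDist.norm_add_le_max _ _).trans (max_le ?_ h4)
    rw [norm_mul, h3, mul_one]
    exact h2
  one_mem' := by
    refine ⟨by rw [map_one, Units.val_one, norm_one], ?_⟩
    rw [map_one, Units.val_one, sub_self, norm_zero]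
    exact hr
  inv_mem' := by
    rintro a ⟨h1, h2⟩
    have h3 : ‖((u a : Dˣ) : D)⁻¹‖ = 1 := by rw [norm_inv, h1, inv_one]
    refine ⟨by rw [map_inv, Units.val_inv_eq_inv_val, h3], ?_⟩
    have h4 : ((u a⁻¹ : Dˣ) : D) - 1 = -(((u a : D) - 1) * (u a : D)⁻¹) := by
      rw [map_inv, Units.val_inv_eq_inv_val, sub_mul, mul_inv_cancel₀ (u a).ne_zero, one_mul]
      abel
    rw [h4, norm_neg, norm_mul, h3, mul_one]
    exact h2

theorem mem_nearSub {u : Γ →* Dˣ} {r : ℝ} {hr : 0 ≤ r} {g : Γ} :
    g ∈ nearSub u r hr ↔ ‖(u g : D)‖ = 1 ∧ ‖(u g : D) - 1‖ ≤ r := Iff.rfl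

/-- Elements close to one have norm one. -/
theorem norm_eq_one_of_near {x : D} (h : ‖x - 1‖ < 1) : ‖x‖ = 1 := by
  have h1 : x = (x - 1) + 1 := by abel
  rw [h1, IsUltrametricDist.norm_add_eq_max_of_norm_ne_norm (by rw [norm_one]; exact h.ne),
    norm_one, max_eq_right h.le]

variable [ProperSpace D]

/-- **Prosolvability**: deep terms of the derived series act as elements close to one. -/
theorem exists_derived_near (u : Γ →* Dˣ) {ε : ℝ} (hε : 0 < ε) :
    ∃ m : ℕ, ∀ g ∈ derivedSeries Γ m, ‖(u g : D)‖ = 1 ∧ ‖(u g : D) - 1‖ < ε := by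
  obtain ⟨ρ, hρ0, hρ1, hρ⟩ := exists_rho D
  -- the first derived group has norm one
  have h1 : ∀ g ∈ derivedSeries Γ 1, ‖(u g : D)‖ = 1 := by
    let N : Subgroup Γ :=
      { carrier := {g | ‖(u g : D)‖ = 1}
        mul_mem' := by
          intro a b ha hb
          rw [Set.mem_ofPred_eq] at ha hb ⊢
          rw [map_mul, Units.val_mul, norm_mul, ha, hb, one_mul]
        one_mem' := by rw [Set.mem_ofPred_eq, map_one, Units.val_one, norm_one]
        inv_mem' := by
          intro a ha
          rw [Set.mem_ofPred_eq] at ha ⊢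
          rw [map_inv, Units.val_inv_eq_inv_val, norm_inv, ha, inv_one] }
    have h2 : derivedSeries Γ 1 ≤ N := by
      rw [derivedSeries_succ, derivedSeries_zero, Subgroup.commutator_le]
      intro a _ b _
      change ‖((u ⁅a, b⁆ : Dˣ) : D)‖ = 1
      rw [map_commutatorElement, commutatorElement_def]
      push_cast
      rw [norm_mul, norm_mul, norm_mul, norm_inv, norm_inv]
      have ha : ‖(u a : D)‖ ≠ 0 := norm_ne_zero_iff.mpr (u a).ne_zero
      have hb : ‖(u b : D)‖ ≠ 0 := norm_ne_zero_iff.mpr (u b).ne_zero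
      field_simp
    exact fun g hg => h2 hg
  have h2 : ∀ j : ℕ, derivedSeries Γ (j + 2) ≤ nearSub u (ρ ^ (j + 1)) (pow_nonneg hρ0 _) := by
    intro j
    induction j with
    | zero =>
      rw [zero_add, derivedSeries_succ, Subgroup.commutator_le]
      intro a ha b hb
      have h3 : ‖((⁅u a, u b⁆ : Dˣ) : D) - 1‖ < 1 := by
        rw [norm_comm _ _ (h1 a ha) (h1 b hb)]
        exact norm_comm_lt (h1 a ha).le (h1 b hb).le
      rw [mem_nearSub, map_commutatorElement, zero_add, pow_one]
      exact ⟨norm_eq_one_of_near h3, hρ _ h3⟩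
    | succ j ih =>
      rw [derivedSeries_succ, Subgroup.commutator_le]
      intro a ha b hb
      obtain ⟨ha1, ha2⟩ := ih ha
      obtain ⟨hb1, hb2⟩ := ih hb
      have h3 : ‖((⁅u a, u b⁆ : Dˣ) : D) - 1‖ ≤ ρ ^ (j + 1 + 1) := by
        rw [norm_comm _ _ ha1 hb1]
        have h4 : (u a : D) * u b - u b * u a =
            ((u a : D) - 1) * ((u b : D) - 1) - ((u b : D) - 1) * ((u a : D) - 1) := by
          noncomm_ring
        rw [h4, sub_eq_add_neg]
        refine (IsUltrametricDist.norm_add_le_max _ _).trans ?_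
        have h5 : ‖(u a : D) - 1‖ * ‖(u b : D) - 1‖ ≤ ρ ^ (j + 1 + 1) := by
          calc ‖(u a : D) - 1‖ * ‖(u b : D) - 1‖ ≤ ρ ^ (j + 1) * ρ ^ (j + 1) :=
                mul_le_mul ha2 hb2 (norm_nonneg _) (pow_nonneg hρ0 _)
            _ = ρ ^ (j + 1 + (j + 1)) := (pow_add _ _ _).symm
            _ ≤ ρ ^ (j + 1 + 1) := pow_le_pow_of_le_one hρ0 hρ1.le (by omega)
        refine max_le ?_ ?_
        · rw [norm_mul]; exact h5
        · rw [norm_neg, norm_mul, mul_comm]; exact h5
      rw [mem_nearSub, map_commutatorElement]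
      refine ⟨norm_eq_one_of_near (h3.trans_lt ?_), h3⟩
      exact (pow_le_of_le_one hρ0 hρ1.le (by omega)).trans_lt hρ1
  obtain ⟨j, hj⟩ := exists_pow_lt_of_lt_one hε hρ1
  refine ⟨j + 2, fun g hg => ?_⟩
  obtain ⟨h3, h4⟩ := h2 j hg
  refine ⟨h3, h4.trans_lt (lt_of_le_of_lt ?_ hj)⟩
  exact pow_le_pow_of_le_one hρ0 hρ1.le (Nat.le_succ j)

end group

end Vale.Agent.P011.H738
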