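import Vale.Agent.P011.H738.LocDF2
import Vale.Agent.P011.H511.CSpl
import Vale.Agent.P011.H271.CosetF
import Vale.Agent.P011.H271.StarF
import Vale.Agent.P011.Even.DiagPair
import Vale.Agent.P011.Hey.H63.Sk3

/-!
Function fields: symmetric elements of trace zero whose reduced characteristic polynomial has a
root in the completions at finitely many places which are not of division type.
-/

open Module Matrix Topology

namespace Vale.Agent.P011.H738

open Vale.Agent.P011.H775 Vale.Agent.P011.H271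

section mat

variable {L : Type} [Field L]

theorem trace_two (p q x y : Fin 3 → L) :
    (vecMulVec p x + vecMulVec q y).trace = p ⬝ᵥ x + q ⬝ᵥ y := by
  simp only [Matrix.trace, Matrix.diag_apply, Matrix.add_apply, vecMulVec_apply, dotProduct,
    Finset.sum_add_distrib]

theorem det_two (p q x y : Fin 3 → L) : (vecMulVec p x + vecMulVec q y).det = 0 := by
  rw [Matrix.det_fin_three]
  simp only [Matrix.add_apply, vecMulVec_apply]
  ring

theorem adj_two (p q x y : Fin 3 → L) : (vecMulVec p x + vecMulVec q y).adjugate.trace =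
    (p ⬝ᵥ x) * (q ⬝ᵥ y) - (p ⬝ᵥ y) * (q ⬝ᵥ x) := by
  rw [Matrix.adjugate_fin_three, Matrix.trace_fin_three]
  simp only [Matrix.add_apply, vecMulVec_apply, dotProduct, Fin.sum_univ_three, Matrix.of_apply,
    Matrix.cons_val_zero, Matrix.cons_val_one, Matrix.cons_val]
  ring

/-- **A symmetric matrix of trace zero and determinant zero** with nonzero second coefficient, for
an isotropic hermitian form. -/
theorem exists_sym_herm [StarRing L] {μ : L} (hμ : μ + star μ = 1)
    {H : Matrix (Fin 3) (Fin 3) L} (hH : Hᴴ = H) (hdet : H.det ≠ 0)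
    (hiso : ∃ x : Fin 3 → L, x ≠ 0 ∧ x ⬝ᵥ (H *ᵥ star x) = 0) :
    ∃ s : Matrix (Fin 3) (Fin 3) L, s * H = H * sᴴ ∧ s.trace = 0 ∧ s.det = 0 ∧
      s.adjugate.trace ≠ 0 := by
  obtain ⟨x, hx0, hx⟩ := hiso
  let b := Even.rowHF H hH
  have hb : ∀ u w : Fin 3 → L, (H *ᵥ star w) ⬝ᵥ u = b.h u w := by
    intro u w
    rw [dotProduct_comm]
    change ∑ i, u i * ∑ j, H i j * star (w j) = ∑ i, ∑ j, u i * H i j * star (w j)
    refine Finset.sum_congr rfl fun i _ => ?_
    rw [Finset.mul_sum]
    exact Finset.sum_congr rfl fun j _ => (mul_assoc _ _ _).symm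
  have hxx : b.h x x = 0 := by rw [← hb, dotProduct_comm]; exact hx
  obtain ⟨y0, hy0⟩ : ∃ y0, b.h x y0 ≠ 0 := by
    by_contra hcon
    push Not at hcon
    exact hx0 (Even.rowHF_nondeg H hH hdet x hcon)
  set c := b.h x y0 with hc
  set c0 := b.h y0 y0 with hc0
  have hc0s : star c0 = c0 := b.star_h y0 y0
  set l := -(c0 * μ) / c with hl
  have hlc : l * c = -(c0 * μ) := by rw [hl]; field_simp
  set y := y0 + l • x with hy
  have hyx0 : b.h y0 x = star c := (b.star_h x y0).symm
  have hxy : b.h x y = c := by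
    rw [hy, b.add_right, b.smul_right, hxx, zero_mul, add_zero]
  have hyx : b.h y x = star c := by rw [← hxy, b.star_h]
  have hyy : b.h y y = 0 := by
    have e1 : b.h y y = c0 + star (l * c) + l * c := by
      have e2 : b.h y y = b.h y0 y + l * b.h x y := by
        conv_lhs => rw [hy]
        rw [b.add_left, b.smul_left, ← hy]
      rw [e2, hxy]
      conv_lhs => rw [hy]
      rw [b.add_right, b.smul_right, hyx0, star_mul, ← hc0]
    rw [e1, hlc, star_neg, star_mul, hc0s]
    have : star μ = 1 - μ := by rw [← hμ]; ring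
    rw [this]
    ring
  refine ⟨H * (vecMulVec (star x) x + vecMulVec (star y) y), ?_, ?_, ?_, ?_⟩
  · rw [conjTranspose_mul, conjTranspose_add, hH, conjTranspose_vecMulVec,
      conjTranspose_vecMulVec, star_star, star_star, mul_assoc]
  · rw [mul_add, mul_vecMulVec, mul_vecMulVec, trace_two, hb, hb, hxx, hyy, add_zero]
  · rw [mul_add, mul_vecMulVec, mul_vecMulVec, det_two]
  · rw [mul_add, mul_vecMulVec, mul_vecMulVec, adj_two, hb, hb, hb, hb, hxx, hyx, hxy, zero_mul,
      zero_sub]
    exact neg_ne_zero.mpr (mul_ne_zero (star_ne_zero.mpr hy0) hy0)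

/-- The matrices of root type. -/
def RTset (L : Type) [NontriviallyNormedField L] : Set (Matrix (Fin 3) (Fin 3) L) :=
  {X | ‖(X - (3⁻¹ * X.trace) • (1 : Matrix (Fin 3) (Fin 3) L)).det‖ ^ 2 <
    ‖(X - (3⁻¹ * X.trace) • (1 : Matrix (Fin 3) (Fin 3) L)).adjugate.trace‖ ^ 3}

theorem isOpen_RTset (L : Type) [NontriviallyNormedField L] : IsOpen (RTset L) := by
  have h1 : Continuous fun X : Matrix (Fin 3) (Fin 3) L =>
      X - (3⁻¹ * X.trace) • (1 : Matrix (Fin 3) (Fin 3) L) :=
    continuous_id.sub ((continuous_const.mul continuous_id.matrix_trace).smul continuous_const)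
  exact isOpen_lt (h1.matrix_det.norm.pow 2) (h1.matrix_adjugate.matrix_trace.norm.pow 3)

theorem mem_RTset {L : Type} [NontriviallyNormedField L] {X : Matrix (Fin 3) (Fin 3) L}
    (h1 : X.trace = 0) (h2 : X.det = 0) (h3 : X.adjugate.trace ≠ 0) : X ∈ RTset L := by
  change ‖_‖ ^ 2 < ‖_‖ ^ 3
  rw [h1, mul_zero, zero_smul, sub_zero, h2, norm_zero, zero_pow two_ne_zero]
  exact pow_pos (norm_pos_iff.mpr h3) 3

end mat

section loc

variable {k K D : Type} [Field k] [Field K] [StarRing K] [DivisionRing D] [StarRing D]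
  [Algebra k K] [Algebra k D] [Algebra K D] [IsScalarTower k K D] [StarModule K D] {N : ℕ}

/-- The symmetric element `a` is of root type at `v`. -/
def RT (C : Cub K D) (v : Place k) (a : D) : Prop :=
  ∃ n e : k, algebraMap k K n = C.N a ∧ algebraMap k K e = C.S a ∧ v.abv (n ^ 2) < v.abv (e ^ 3)

/-- The symmetric part of trace zero. -/
noncomputable def sy (C : Cub K D) (μ : K) (b : D) : D :=
  (μ • b + star (μ • b)) - (3⁻¹ * C.T (μ • b + star (μ • b))) • (1 : D)

theorem star_sy [FiniteDimensional K D] [Algebra.IsCentral K D] (hD : finrank K D = 3 ^ 2)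
    (C : Cub K D) (μ : K) (b : D) : star (sy C μ b) = sy C μ b := by
  have hss : ∀ c : K, star (algebraMap K D c) = algebraMap K D (star c) := fun c => by
    rw [Algebra.algebraMap_eq_smul_one, star_smul, star_one, Algebra.algebraMap_eq_smul_one]
  have h1 : star (μ • b + star (μ • b)) = μ • b + star (μ • b) := by
    rw [star_add, star_star, add_comm]
  rw [sy]
  set b1 := μ • b + star (μ • b) with hb1
  have h2 : star (C.T b1) = C.T b1 := by
    have h3 := (C.star_coeff hD hss b1).1
    rw [h1] at h3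
    exact h3.symm
  have h3 : star (3⁻¹ : K) = 3⁻¹ := by rw [star_inv₀, star_ofNat]
  rw [star_sub, h1, star_smul, star_one, star_mul, h2, h3, mul_comm]

omit [StarRing K] [StarModule K D] in
theorem T_sy (h3 : (3 : K) ≠ 0) (C : Cub K D) (μ : K) (b : D) : C.T (sy C μ b) = 0 := by
  rw [sy, map_sub, map_smul, C.T_one, smul_eq_mul]
  field_simp
  ring

omit [StarRing K] [StarModule K D] in
theorem sy_add (C : Cub K D) (μ : K) (a b : D) : sy C μ (a + b) = sy C μ a + sy C μ b := by
  simp only [sy]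
  rw [smul_add, star_add]
  have e : μ • a + μ • b + (star (μ • a) + star (μ • b)) =
      (μ • a + star (μ • a)) + (μ • b + star (μ • b)) := by abel
  rw [e, map_add, mul_add, add_smul]
  abel

variable {C : Cub K D}

/-- **Openness of the root type**, from a splitting over a local field. -/
theorem exists_near_RT [GFF k] (hA : Anis k K D 3) (C : Cub K D) (B : Basis (Fin N) k D) {μ : K}
    (hμ : μ + star μ = 1) {v : Place k} {L : Type} [NontriviallyNormedField L] (φ : K →+* L)
    (hφ : ∀ c : k, ‖φ (algebraMap k K c)‖ = v.abv c) (g : D →+* Matrix (Fin 3) (Fin 3) L)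
    (hg : ∀ c : K, g (algebraMap K D c) = algebraMap L _ (φ c)) {σ : D} (hσ : star σ = σ)
    (hO : g σ ∈ RTset L) :
    ∃ δ : ℝ, 0 < δ ∧ ∀ b : D, (∀ i, v.abv (B.repr (b - σ) i) < δ) → RT C v (sy C μ b) := by
  have hsm : ∀ (c : K) (x : D), g (c • x) = φ c • g x := by
    intro c x
    rw [Algebra.smul_def, map_mul, hg, ← Algebra.smul_def]
  let F : D → Matrix (Fin 3) (Fin 3) L := fun b => g (μ • b + star (μ • b))
  have hFa : ∀ a b, F (a + b) = F a + F b := by
    intro a b
    change g _ = g _ + g _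
    rw [← map_add, smul_add, star_add]
    congr 1
    abel
  have hFs : ∀ (c : k) (b : D), F (c • b) = φ (algebraMap k K c) • F b := by
    intro c b
    change g _ = _ • g _
    rw [← hsm, algebraMap_smul, smul_comm μ c b, H519.star_smul_of_anis hA, smul_add]
  have hF0 : F 0 = 0 := by
    have := hFa 0 0
    rw [add_zero] at this
    exact left_eq_add.mp this
  have hFσ : F σ = g σ := by
    change g _ = g _
    rw [star_smul, hσ, ← add_smul, hμ, one_smul]
  have hFsum : ∀ (s : Finset (Fin N)) (r : Fin N → k), F (∑ i ∈ s, r i • B i) =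
      ∑ i ∈ s, φ (algebraMap k K (r i)) • F (B i) := by
    intro s r
    induction s using Finset.induction_on with
    | empty => rw [Finset.sum_empty, Finset.sum_empty, hF0]
    | insert i s hi ih => rw [Finset.sum_insert hi, Finset.sum_insert hi, hFa, ih, hFs]
  let G : (Fin N → L) → Matrix (Fin 3) (Fin 3) L := fun r => g σ + ∑ i, r i • F (B i)
  have hG : Continuous G := by
    refine continuous_const.add (continuous_finsetSum _ fun i _ => ?_)
    exact (continuous_apply i).smul continuous_const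
  have hG0 : G 0 = g σ := by
    change g σ + ∑ i, (0 : Fin N → L) i • F (B i) = g σ
    simp
  have hmem : G ⁻¹' RTset L ∈ 𝓝 (0 : Fin N → L) := by
    refine hG.continuousAt ((isOpen_RTset L).mem_nhds ?_)
    rw [hG0]
    exact hO
  obtain ⟨δ, hδ, hball⟩ := Metric.mem_nhds_iff.mp hmem
  refine ⟨δ, hδ, fun b hb => ?_⟩
  have hFb : F b ∈ RTset L := by
    have e1 : F b = G fun i => φ (algebraMap k K (B.repr (b - σ) i)) := by
      change F b = g σ + ∑ i, φ (algebraMap k K (B.repr (b - σ) i)) • F (B i)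
      rw [← hFsum, B.sum_repr, ← hFσ, ← hFa, add_sub_cancel]
    rw [e1]
    apply hball
    rw [mem_ball_zero_iff, pi_norm_lt_iff hδ]
    intro i
    rw [hφ]
    exact hb i
  -- the reduced norm and the second coefficient
  let _ : Algebra K L := φ.toAlgebra
  let f : D →ₐ[K] Matrix (Fin 3) (Fin 3) L := { g with commutes' := fun c => hg c }
  have hcen := hA.central
  have hfd : FiniteDimensional K D := FiniteDimensional.of_finrank_pos (by
    rw [hA.finrank_eq]; norm_num)
  have hc := fun x => H511.spl_compat C hA.finrank_eq f x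
  set b1 := μ • b + star (μ • b) with hb1
  have e2 : F b - (3⁻¹ * (F b).trace) • (1 : Matrix (Fin 3) (Fin 3) L) = f (sy C μ b) := by
    change f b1 - (3⁻¹ * (f b1).trace) • (1 : Matrix (Fin 3) (Fin 3) L) = _
    rw [(hc b1).1, sy, ← hb1, map_sub, map_smul, map_one]
    congr 1
    rw [← algebraMap_smul L (3⁻¹ * C.T b1) (1 : Matrix (Fin 3) (Fin 3) L), map_mul, map_inv₀,
      map_ofNat]
  have h4 : ‖(f (sy C μ b)).det‖ ^ 2 < ‖(f (sy C μ b)).adjugate.trace‖ ^ 3 := by
    rw [← e2]
    exact hFb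
  have hss : ∀ c : K, star (algebraMap K D c) = algebraMap K D (star c) := fun c => by
    rw [Algebra.algebraMap_eq_smul_one, star_smul, star_one, Algebra.algebraMap_eq_smul_one]
  have h5 := C.star_coeff hA.finrank_eq hss (sy C μ b)
  rw [star_sy hA.finrank_eq] at h5
  obtain ⟨n, hn⟩ := (hA.fixed _).mp h5.2.2.symm
  obtain ⟨e, he⟩ := (hA.fixed _).mp h5.2.1.symm
  refine ⟨n, e, hn, he, ?_⟩
  rw [(hc _).2.1, (hc _).2.2.1, ← hn, ← he] at h4
  have h6 : ∀ c : k, ‖algebraMap K L (algebraMap k K c)‖ = v.abv c := hφ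
  rw [h6, h6] at h4
  rw [map_pow, map_pow]
  exact h4

open H698 H565 H800 H961 in
/-- **Elements of root type at one place.** -/
theorem exists_loc_RT (hk : IsGlobalFunctionField k) [GFF k] (hA : Anis k K D 3) (C : Cub K D)
    (B : Basis (Fin N) k D) {μ : K} (hμ : μ + star μ = 1) {v : Place k}
    (hv : v ∉ Adiv k K D) :
    ∃ (σ : D) (δ : ℝ), 0 < δ ∧ ∀ b : D, (∀ i, v.abv (B.repr (b - σ) i) < δ) →
      RT C v (sy C μ b) := by
  have hcen := hA.central
  have hsim := hA.simple
  have hfd : FiniteDimensional K D := FiniteDimensional.of_finrank_pos (by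
    rw [hA.finrank_eq]; norm_num)
  rcases isEmpty_or_nonempty (K →ₐ[k] v.comp) with hs | ⟨⟨φ⟩⟩
  · obtain ⟨L, _, _, _, _, _, φ, h1, h2, h3, h4, h5, h6⟩ :=
      exists_quad_field hA.fixed hA.star_ne v hs
    obtain ⟨g, hg⟩ := splitNS hA three_ne_zero v hs L φ h1 h2 h3 h4 h5 h6
    have hne : ∃ x : L, star x ≠ x := by
      obtain ⟨x, hx⟩ := hA.star_ne
      refine ⟨φ x, fun h => hx (φ.injective ?_)⟩
      rw [h2, h]
    obtain ⟨H, hH, hdet, hgH⟩ := H756.exists_herm three_ne_zero hA.finrank_eq hne φ h2 g hg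
    have hiso := H308.isotropic hk hA.fixed hA.star_ne h1 φ h2 h3 le_rfl hH
    have hμ' : φ μ + star (φ μ) = 1 := by rw [← h2, ← map_add, hμ, map_one]
    obtain ⟨s, hs1, hs2, hs3, hs4⟩ := exists_sym_herm hμ' hH hdet hiso
    obtain ⟨σ, hσ, hσO⟩ := dense_sym_herm hA three_ne_zero h1 φ h2 h3 hg hdet hgH hs1
      ((isOpen_RTset L).mem_nhds (mem_RTset hs2 hs3 hs4))
    obtain ⟨δ, hδ, h⟩ := exists_near_RT hA C B hμ (v := v) φ (fun c => by
      rw [h4, h5, norm_alg]) g hg hσ hσO
    exact ⟨σ, δ, hδ, h⟩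
  · let _ : Algebra K v.comp := (φ : K →+* v.comp).toAlgebra
    obtain ⟨g⟩ := H73.exists_split_prime (E := v.comp) Nat.prime_three hA.finrank_eq
      fun h => hv ⟨φ, h⟩
    have hg : ∀ c : K, g (algebraMap K D c) = algebraMap v.comp _ (φ c) := fun c => g.commutes c
    obtain ⟨w, hw⟩ := hA.star_ne
    have := nebot_comp v
    have hspan : Submodule.span v.comp (Set.range (g : D →+* Matrix (Fin 3) (Fin 3) v.comp)) = ⊤ :=
      H519.span_range_eq_top hA.finrank_eq three_ne_zero (φ : K →+* v.comp) g hg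
    let _ := nnfPlace v
    have hM : vecMulVec (Pi.single 0 1 : Fin 3 → v.comp) (Pi.single 1 1) +
        vecMulVec (Pi.single 1 1 : Fin 3 → v.comp) (Pi.single 0 1) ∈ RTset v.comp := by
      refine mem_RTset ?_ (det_two _ _ _ _) ?_
      · rw [trace_two]
        simp
      · rw [adj_two]
        simp
    obtain ⟨σ, hσ, hσO⟩ := dense_sym_of_span' (w := algebraMap K D w) (ω := φ w)
      (algebraMap k v.comp) (denseRange_comp v) (algebraMap k D) (fun c => by
        rw [IsScalarTower.algebraMap_apply k K D, star_algKB, (hA.fixed _).2 ⟨c, rfl⟩])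
      (fun c x => Algebra.commutes c x) (g : D →+* Matrix (Fin 3) (Fin 3) v.comp)
      (fun c => by
        rw [IsScalarTower.algebraMap_apply k K D]
        refine (hg _).trans ?_
        rw [φ.commutes, Algebra.algebraMap_eq_smul_one])
      (fun x => Algebra.commutes w x) (by
        rw [star_algKB, ← map_sub]
        exact (isUnit_iff_ne_zero.2 (sub_ne_zero.2 (Ne.symm hw))).map (algebraMap K D))
      ((hg w).trans (by rw [Algebra.algebraMap_eq_smul_one])) hspan _
      ((isOpen_RTset v.comp).mem_nhds hM)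
    obtain ⟨δ, hδ, h⟩ := exists_near_RT hA C B hμ (v := v) (φ : K →+* v.comp) (fun c => by
      change ‖φ (algebraMap k K c)‖ = _
      rw [φ.commutes, norm_alg]) (g : D →+* Matrix (Fin 3) (Fin 3) v.comp) hg hσ hσO
    exact ⟨σ, δ, hδ, h⟩

omit [StarRing K] [StarRing D] [StarModule K D] in
/-- The product of an element of trace zero with itself. -/
theorem sq_ne (C : Cub K D) {a : D} (ha : a ∉ Set.range (algebraMap K D)) (hT : C.T a = 0)
    (α β : K) : a * a ≠ α • (1 : D) + β • a := by
  intro h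
  have h1 := C.cayley a
  have h2 : (β ^ 2 + α + C.S a) • a + (α * β - C.N a) • (1 : D) = 0 := by
    rw [← h1, h, hT, zero_smul, sub_zero, add_mul, smul_mul_assoc, smul_mul_assoc, one_mul, h]
    module
  have h3 : β ^ 2 + α + C.S a = 0 := by
    by_contra h0
    apply ha
    refine ⟨-((β ^ 2 + α + C.S a)⁻¹ * (α * β - C.N a)), ?_⟩
    have h4 : (β ^ 2 + α + C.S a) • a = -((α * β - C.N a) • (1 : D)) :=
      eq_neg_of_add_eq_zero_left h2
    have h5 : a = (β ^ 2 + α + C.S a)⁻¹ • -((α * β - C.N a) • (1 : D)) := by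
      rw [← h4, smul_smul, inv_mul_cancel₀ h0, one_smul]
    conv_rhs => rw [h5]
    rw [Algebra.algebraMap_eq_smul_one, smul_neg, smul_smul, neg_smul]
  have h4 : α * β - C.N a = 0 := by
    rw [h3, zero_smul, zero_add] at h2
    exact (smul_eq_zero.mp h2).resolve_right one_ne_zero
  apply ha
  refine mem_range_of_root C (r := -β) ?_
  rw [hT]
  linear_combination (-β) * h3 + h4

theorem sy_smul (C : Cub K D) (μ : K) {c : K} (hc : star c = c) (b : D) :
    sy C μ (c • b) = c • sy C μ b := by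
  have h1 : μ • c • b + star (μ • c • b) = c • (μ • b + star (μ • b)) := by
    rw [smul_comm μ c b, star_smul, hc, smul_add]
  rw [sy, sy, h1, map_smul, smul_sub, smul_smul, smul_eq_mul]
  congr 2
  ring

theorem sy_symm (C : Cub K D) {μ : K} (hμ : μ + star μ = 1) {a : D} (ha : star a = a) :
    sy C μ a = a - (3⁻¹ * C.T a) • (1 : D) := by
  have h1 : μ • a + star (μ • a) = a := by rw [star_smul, ha, ← add_smul, hμ, one_smul]
  rw [sy, h1]

end loc

section glob

variable {k K D : Type} [Field k] [Field K] [StarRing K] [DivisionRing D] [StarRing D]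
  [Algebra k K] [Algebra k D] [Algebra K D] [IsScalarTower k K D] [StarModule K D] {N : ℕ}

/-- A nonzero element which is small at finitely many places. -/
theorem exists_small_ff [GFF k] (S : Finset (Place k)) {η : ℝ} (hη : 0 < η) :
    ∃ t : k, t ≠ 0 ∧ ∀ v ∈ S, v.abv t < η := by
  classical
  rcases S.eq_empty_or_nonempty with rfl | hne
  · exact ⟨1, one_ne_zero, fun v hv => absurd hv (Finset.notMem_empty v)⟩
  choose ρ h0 h1 h2 using fun v : Place k => Vale.Agent.P011.Hey.H63.exists_small v (2 / η)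
  obtain ⟨v0, hv0, hmin⟩ := S.exists_min_image (fun v => v.abv (ρ v)) hne
  obtain ⟨t, ht⟩ := H698.place_weak S (fun v => algebraMap k (v : Place k).comp (ρ v))
    (v0.abv.pos (h0 v0))
  have h3 : ∀ v ∈ S, v.abv (t - ρ v) < v0.abv (ρ v0) := fun v hv => by
    have h4 := ht ⟨v, hv⟩
    rwa [← map_sub, norm_alg] at h4
  refine ⟨t, ?_, fun v hv => ?_⟩
  · rintro rfl
    have h4 := h3 v0 hv0
    rw [zero_sub, v0.abv.map_neg] at h4
    exact lt_irrefl _ h4
  · have h4 := abv_add_le v (t - ρ v) (ρ v)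
    rw [sub_add_cancel] at h4
    refine (h4.trans (max_le ((h3 v hv).le.trans (hmin v hv)) le_rfl)).trans_lt ?_
    have h5 := h2 v
    have h6 : v.abv (ρ v) ≤ η / 2 := by
      rw [mul_div_assoc', div_le_one hη] at h5
      linarith
    linarith

/-- **Elements of root type.** -/
theorem exists_root_type (hk : IsGlobalFunctionField k) [GFF k] (hA : Anis k K D 3)
    (h3 : (3 : K) ≠ 0) (C : Cub K D) {P : Set (Place k)} (hP : P.Finite)
    (hPT : ∀ v ∈ P, v ∉ Adiv k K D) (a1 : D) :
    ∃ a : D, star a = a ∧ C.T a = 0 ∧ C.S a ≠ 0 ∧ (∀ c : k, a ≠ c • a1) ∧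
      ∀ v ∈ P, ∃ n e : k, algebraMap k K n = C.N a ∧ algebraMap k K e = C.S a ∧
        v.abv (n ^ 2) < v.abv (e ^ 3) := by
  classical
  have hcen := hA.central
  have hfd : FiniteDimensional K D := FiniteDimensional.of_finrank_pos (by
    rw [hA.finrank_eq]; norm_num)
  have hkK : FiniteDimensional k K := (H519.quad hA.fixed hA.star_ne).1
  have hkD : FiniteDimensional k D := Module.Finite.trans K D
  obtain ⟨μ, hμ⟩ := H800.exists_trace_one hA.star_ne
  obtain ⟨v0, -, -, φ, f, hf, -, -⟩ := H519.exists_split_place hk hA three_ne_zero ∅ 0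
  have hv0 : v0 ∉ Adiv k K D := H698.notMem_Adiv hA (by norm_num) hf
  let B := Module.finBasis k D
  let S : Finset (Place k) := insert v0 hP.toFinset
  have hS : ∀ v ∈ S, v ∉ Adiv k K D := by
    intro v hv
    rcases Finset.mem_insert.mp hv with rfl | h
    · exact hv0
    · exact hPT v (hP.mem_toFinset.mp h)
  choose σ δ hδ hσ using fun v : S => exists_loc_RT hk hA C B hμ (hS v v.2)
  obtain ⟨ε, hε, hεδ⟩ : ∃ ε : ℝ, 0 < ε ∧ ∀ v : S, ε ≤ δ v := by
    have : Nonempty S := ⟨⟨v0, Finset.mem_insert_self _ _⟩⟩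
    obtain ⟨w, hw⟩ := Finite.exists_min δ
    exact ⟨δ w, hδ w, hw⟩
  choose b hb using fun i => H698.place_weak S
    (fun v => algebraMap k (v : Place k).comp (B.repr (σ v) i)) hε
  have hb' : ∀ (v : S) i, (v : Place k).abv (b i - B.repr (σ v) i) < ε := by
    intro v i
    have h1 := hb i v
    rwa [← map_sub, norm_alg] at h1
  set y : D := ∑ i, b i • B i with hy
  have hyr : ∀ i, B.repr y i = b i := fun i => by rw [hy, B.repr_sum_self]
  -- all elements near `y` are of root type
  have key : ∀ z : D, (∀ v : S, ∀ i, (v : Place k).abv (B.repr z i) < ε) → ∀ v : S,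
      RT C (v : Place k) (sy C μ (y + z)) := by
    intro z hz v
    refine hσ v _ fun i => ?_
    have e : B.repr (y + z - σ v) i = (b i - B.repr (σ v) i) + B.repr z i := by
      rw [map_sub, map_add, Finsupp.sub_apply, Finsupp.add_apply, hyr]
      ring
    rw [e]
    exact (abv_add_le _ _ _).trans_lt ((max_lt (hb' v i) (hz v i)).trans_le (hεδ v))
  have hS0 : ∀ a : D, RT C v0 a → C.S a ≠ 0 := by
    rintro a ⟨n, e, -, he, h1⟩ h0
    rw [h0, map_eq_zero] at he
    rw [he, zero_pow three_ne_zero, map_zero] at h1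
    exact absurd h1 (not_lt.mpr (v0.abv.nonneg _))
  have hfin : ∀ a : D, (∀ v : S, RT C (v : Place k) a) → C.S a ≠ 0 ∧ ∀ v ∈ P, ∃ n e : k,
      algebraMap k K n = C.N a ∧ algebraMap k K e = C.S a ∧ v.abv (n ^ 2) < v.abv (e ^ 3) :=
    fun a ha => ⟨hS0 a (ha ⟨v0, Finset.mem_insert_self _ _⟩), fun v hv =>
      ha ⟨v, Finset.mem_insert_of_mem (hP.mem_toFinset.mpr hv)⟩⟩
  set a := sy C μ y with ha
  have haR : ∀ v : S, RT C (v : Place k) a := fun v => by
    have h1 := key 0 (fun v i => by
      rw [map_zero, Finsupp.zero_apply, map_zero]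
      exact hε) v
    rwa [add_zero] at h1
  have has : star a = a := star_sy hA.finrank_eq C μ y
  have haT : C.T a = 0 := T_sy h3 C μ y
  by_cases hc : ∀ c : k, a ≠ c • a1
  · exact ⟨a, has, haT, (hfin a haR).1, hc, (hfin a haR).2⟩
  push Not at hc
  obtain ⟨c, hc⟩ := hc
  have haK : a ∉ Set.range (algebraMap K D) := by
    rintro ⟨r, hr⟩
    have h1 : C.T a = 3 * r := by
      rw [← hr, Algebra.algebraMap_eq_smul_one, map_smul, C.T_one, smul_eq_mul, mul_comm]
    rw [haT] at h1
    have h2 : r = 0 := (mul_eq_zero.mp h1.symm).resolve_left h3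
    apply (hfin a haR).1
    rw [← hr, h2, map_zero, Cub.S, C.adj_zero, map_zero]
  have ha0 : a ≠ 0 := by
    intro h0
    exact haK ⟨0, by rw [map_zero, h0]⟩
  have hc0 : c ≠ 0 := by
    rintro rfl
    rw [zero_smul] at hc
    exact ha0 hc
  -- a perturbation
  obtain ⟨M, hM0, hM⟩ : ∃ M : ℝ, 0 < M ∧ ∀ v : S, ∀ i, (v : Place k).abv (B.repr (a * a) i) < M := by
    refine ⟨1 + ∑ v : S, ∑ i, (v : Place k).abv (B.repr (a * a) i), ?_, fun v i => ?_⟩
    · have := Finset.sum_nonneg fun v (_ : v ∈ (Finset.univ : Finset S)) => Finset.sum_nonneg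
        fun i (_ : i ∈ (Finset.univ : Finset (Fin (finrank k D)))) =>
          (v : Place k).abv.nonneg (B.repr (a * a) i)
      linarith
    · have h1 := Finset.single_le_sum (f := fun v : S => ∑ i, (v : Place k).abv (B.repr (a * a) i))
        (fun v _ => Finset.sum_nonneg fun i _ => (v : Place k).abv.nonneg _) (Finset.mem_univ v)
      have h2 := Finset.single_le_sum (f := fun i => (v : Place k).abv (B.repr (a * a) i))
        (fun i _ => (v : Place k).abv.nonneg _) (Finset.mem_univ i)
      beta_reduce at h1 h2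
      linarith
  obtain ⟨t, ht0, ht⟩ := exists_small_ff S (div_pos hε hM0)
  have htk : star (algebraMap k K t) = algebraMap k K t := (hA.fixed _).mpr ⟨t, rfl⟩
  have hR : ∀ v : S, RT C (v : Place k) (sy C μ (y + t • (a * a))) := by
    refine key _ fun v i => ?_
    rw [map_smul, Finsupp.smul_apply, smul_eq_mul, map_mul]
    have h1 := ht v v.2
    calc (v : Place k).abv t * (v : Place k).abv (B.repr (a * a) i)
        ≤ ε / M * (v : Place k).abv (B.repr (a * a) i) :=
          mul_le_mul_of_nonneg_right h1.le ((v : Place k).abv.nonneg _)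
      _ < ε / M * M := mul_lt_mul_of_pos_left (hM v i) (div_pos hε hM0)
      _ = ε := by field_simp
  have e1 : sy C μ (y + t • (a * a)) = a + t • (a * a - (3⁻¹ * C.T (a * a)) • (1 : D)) := by
    rw [sy_add, ← ha, ← algebraMap_smul K t (a * a), sy_smul C μ htk, sy_symm C hμ (by
      rw [star_mul, has]), algebraMap_smul]
  refine ⟨sy C μ (y + t • (a * a)), star_sy hA.finrank_eq C μ _, T_sy h3 C μ _, (hfin _ hR).1,
    fun c' hc' => ?_, (hfin _ hR).2⟩
  rw [e1] at hc'
  have h5 : a1 = c⁻¹ • a := by rw [hc, smul_smul, inv_mul_cancel₀ hc0, one_smul]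
  rw [h5, smul_smul] at hc'
  -- the square is a combination of `1` and `a`
  refine sq_ne C haK haT (3⁻¹ * C.T (a * a)) (algebraMap k K (t⁻¹ * (c' * c⁻¹ - 1))) ?_
  have h6 : (t⁻¹ * (c' * c⁻¹ - 1)) • a = a * a - (3⁻¹ * C.T (a * a)) • (1 : D) := by
    rw [mul_smul t⁻¹ (c' * c⁻¹ - 1) a, sub_smul (c' * c⁻¹) 1 a, one_smul, ← hc',
      add_sub_cancel_left, smul_smul t⁻¹ t, inv_mul_cancel₀ ht0, one_smul]
  rw [algebraMap_smul, h6, add_sub_cancel]

end glob

end Vale.Agent.P011.H738
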